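import Crest.Agent.X212.Cqn41.Cj1
import Crest.Agent.X212.Uq54.Main
import Crest.Agent.X212.Lns95.Cj

/-!
# Row 212, LN-CJ (helper41): the leaves `CJX` and `CJU` of the lens wall
-/

set_option autoImplicit false
set_option linter.unusedSectionVars false
noncomputable section
open Set Function Filter Topology
open scoped ContDiff Manifold InnerProductSpace

namespace Crest.Agent.X212.Cqn41
open An Sob92 Wz78 Dfl49 Lns95
open Std94 (LF plx Itx pmx pmx_on itx_norm trL)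
open Uq54 (q q_mem q_iff sa_q)
open Loc8 (Rd)
open Abel74 (fF)

variable {E : Type} [NormedAddCommGroup E] [NormedSpace ℝ E] [FiniteDimensional ℝ E]
  [MeasurableSpace E] [BorelSpace E]
  {HM : Type} [TopologicalSpace HM] {I : ModelWithCorners ℝ E HM} [I.Boundaryless]
  {M : Type} [TopologicalSpace M] [ChartedSpace HM M] [IsManifold I ∞ M] [T2Space M]
  [MeasurableSpace M] [BorelSpace M] [SecondCountableTopology M]
  {ι : Type} [Fintype ι] {lam : Type} [Fintype lam]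

variable (I M ι lam) in
/-- **LEAF CJX** -/
theorem cjx : CjxStmt I M ι lam := by
  intro B B' G G' Ω hB hG hB' hG' hP ho hF hΩ hs hf
  rcases Ω.eq_empty_or_nonempty with rfl | ⟨x₀, hx⟩
  · exact ⟨0, hP, ho, hF, fun _ => False.elim, fun _ => False.elim, fun _ => False.elim,
      fun _ => False.elim, fun _ _ => False.elim⟩
  have il : ∀ x s, B.l x (B.il s) = B.il (B.l x s) := fun x s =>
    (DFunLike.congr_fun (hB.ill x) s).symm
  have ii : ∀ s, B.il (B.il s) = -s := DFunLike.congr_fun hB.ilsq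
  have T : Tw B' G' Ω G.a B.l fun _ => -B.il := ⟨hΩ, fun a x _ => hG.con.sm a x,
    fun a x _ => by rw [hF, hG.P, hG.con.proj], fun x _ => hB.sl x, fun _ _ => contMDiffAt_const,
    fun x _ => DFunLike.congr_fun (hB.lidem x), fun x _ v e => by rw [neg_apply, map_neg, il, e],
    fun x _ v _ => by simp [ii],
    fun a x _ v _ => by rw [hF, show nabE I G.F.e G.a a B.l x = 0 from hG.par a x, zero_apply],
    fun a x _ v _ => by simp [nabE, ← hG.il], fun a b x hx v e => by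
      rw [hF, hf x hx, ← e, ← mul_apply_eq_comp, curvL_eq hB hG]; simp⟩
  obtain ⟨s, f'⟩ := (plx hB' x₀).exists_lf
  obtain ⟨t, f⟩ := (plx hB x₀).exists_lf
  obtain ⟨k, e, p⟩ := T.ex hB' hG' hx (hs.2 _ hx) f' f.ls
  have c : EqOn (fun y => ctr ipL (k y) (k y)) (fun _ => 2) Ω :=
    par_eqOn (F := G'.F) (A := fun _ _ => 0) hΩ hs.1 subset_rfl (fun _ _ _ => contMDiffAt_const)
      (by simp) (fun y hy => ⟨sa_ctr _ (p y hy).1 (p y hy).1, fun a => nab_ctr _ (hG'.sk a y)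
        (fun v w => by simp [ipL_apply, hG.sk a y v]) (p y hy).1 (p y hy).1 ((p y hy).2.2 a)
        ((p y hy).2.2 a)⟩) (fun _ _ => ⟨contMDiffAt_const, fun a => by simp [nab]⟩) hx
      (by simp only [ctr_ip (plx hB x₀) f' (p _ hx).2.1, e, f.n1]; norm_num)
  have n : ∀ x ∈ Ω, trn (k x) * k x = B'.l x ∧ k x * trn (k x) = B.l x := fun x hx => by
    obtain ⟨s, f⟩ := (plx hB' x).exists_lf
    have := c hx
    simp only [ctr_ip (plx hB x) f (p _ hx).2.1] at this
    exact iso_of (plx hB x) f (p _ hx).2.1 (by nlinarith [norm_nonneg (k x s)])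
  refine ⟨k, hP, ho, hF, fun x hx => (p x hx).1, fun x hx => (n x hx).1, fun x hx => (n x hx).2,
    fun x hx => ContinuousLinearMap.ext fun v => ?_, fun a x hx => ?_⟩
  · simpa using (p x hx).2.1.il v
  · rw [← hF]; exact (p x hx).2.2 a

variable {B : Base M ι lam} {G : Geo I M ι lam} {m : Md M ι lam} {Ω : Set M} {x : M} {W : m.Cn}
  {ξ : M → m.A}

/-- the orthogonal complement of a reduction with the curvature of the line -/
theorem tw_perp (h : Two B G W W Ω) (R : Rd G.F m W Ω ξ) (R' : Rd G.F m W Ω fun x => -ξ x)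
    (hG : G.OK B) (H : m.OK I B) (C : m.IsConn B G W)
    (hf : ∀ x ∈ Ω, ∀ a b, 2 * fF G.F m W ξ a b x = fL B G x (a, b)) :
    Tw B G Ω (hA W W) (q ξ fun x => -ξ x) fun x => ContinuousLinearMap.mul ℝ _ (opL (ξ x)) := by
  have an : ∀ x ∈ Ω, ∀ T, q ξ (fun x => -ξ x) x T = T → T * opL (ξ x) = -(opL (ξ x) * T) :=
    fun x hx T e => by rw [← neg_mul, ← map_neg]; exact ((q_iff h R R' hx).1 e).2.symm
  refine ⟨h.op, fun a _ hx => h.sA hx a, fun a _ hx => h.pA hx a, fun _ => sa_q h R R',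
    fun _ hx => (R.sm_opL hx).clm _, fun x hx T => (q_iff h R R' hx).2 (q_mem h R R' hx T),
    fun x hx T e => ?_, fun x hx T e => ?_, fun a x hx T e => ?_, fun a x hx T _ => ?_,
    fun a b x hx T e => ?_⟩
  · obtain ⟨U, t, u, f⟩ := Std94.exists_fx h.hB (pmx H x)
    refine (q_iff h R R' hx).2 ⟨itx_comp ((q_iff h R R' hx).1 e).1 (f.itx_of_mem (R.mem x hx)), ?_⟩
    show opL (-ξ x) * (opL (ξ x) * T) = opL (ξ x) * T * opL (ξ x)
    rw [mul_assoc, an x hx T e, map_neg, neg_mul, mul_neg]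
  · show opL (ξ x) * (opL (ξ x) * T) = -T
    rw [← mul_assoc, R.sq x hx, neg_mul]
    exact congrArg _ (ContinuousLinearMap.ext ((q_iff h R R' hx).1 e).1.pl)
  · have ev := h.op.eventually_mem hx
    have s : SA I (fun y => q ξ (fun x => -ξ x) y T) x := (sa_q h R R' hx).app contMDiffAt_const
    have i := ev.mono fun y hy => q_mem h R R' hy T
    have := nab_app' (e := G.F.e) (A := hA W W) a (sa_q h R R' hx) s
    rw [nab_congr a (v := fun y => q ξ (fun x => -ξ x) y T) ((i.and ev).mono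
      fun y hy => (q_iff h R R' hy.2).2 hy.1)] at this
    have k := (q_iff h R R' hx).2 ⟨h.itx_nab hx s (i.mono fun _ k => k.1) a,
      ContinuousLinearMap.ext fun v => (itw_nab (e := G.F.e) (A := W) (A' := W) s (R.sm_opL hx)
        (R'.sm_opL hx) (i.mono fun _ k v => (DFunLike.congr_fun k.2 v).symm) a
        (fun v => by rw [R.nE hx, R'.nE hx]; simp) v).symm⟩
    generalize nab I G.F.e (hA W W) a (fun y => q ξ (fun x => -ξ x) y T) x = Z at this k
    rw [k, right_eq_add] at this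
    generalize nabE I G.F.e (hA W W) a (q ξ fun x => -ξ x) x = L at this ⊢
    generalize q ξ (fun x => -ξ x) x = Q at this e
    rwa [e] at this
  · have := R.nE hx a
    rw [nabE] at this ⊢
    rw [dv_clm _ (R.sm_opL hx).md, eq_neg_of_add_eq_zero_left this]
    show -(W a x * opL (ξ x) - opL (ξ x) * W a x) * T + (W a x * (opL (ξ x) * T) -
      opL (ξ x) * T * W a x - opL (ξ x) * (W a x * T - T * W a x)) = 0
    noncomm_ring
  · rw [h.curv_itx hx ((q_iff h R R' hx).1 e).1, R.Fg_eq h.hB hG H C hx, ← hf x hx, map_smul]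
    show (_ • opL (ξ x)) * T - T * (_ • opL (ξ x)) = _ • (opL (ξ x) * T)
    rw [smul_mul_assoc, mul_smul_comm, an x hx T e]
    module

theorem rel_of (H : m.OK I B) {η : m.A} (h : η ∈ m.gS x) (s : opL η * opL η = -m.p x)
    {T : En (Fin m.N)} (i : Itx m m x T) (e : T * opL η = -(opL η * T)) {s₀ s₁ : Eu lam}
    (n₀ : ‖B.l x s₀‖ ^ 2 = 1) (n₁ : ‖B.l x s₁‖ ^ 2 = 1) :
    Rel (m.p x) m.J (opL η) T (m.j x s₀) (m.j x s₁) := by
  have ap : ∀ {S T : En (Fin m.N)}, S = T → ∀ v, S v = T v := fun e v => by rw [e]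
  have q : ∀ {s}, ‖B.l x s‖ ^ 2 = 1 → m.j x s * m.j x s = m.p x := fun n => by
    rw [H.jsq, n, one_smul]
  exact ⟨ap H.Jsq, ap s, ap (g_J h).symm, ap (H.Jp x).symm, ap (g_p h), ap (g_p' H h),
    ap (H.pidem x), ap (H.jJ x _), ap (H.jJ x _), ap (g_j h _), ap (g_j h _), ap (H.pj x _),
    ap (H.pj x _), ap (j_p H x _), ap (j_p H x _), ap (q n₀), ap (q n₁), i.J, ap e, i.j _, i.j _, i.pl, i.pr⟩

/-- `(S, T) ↦ Sᵀ T` -/
def tm {κ : Type} [Fintype κ] : CL (En κ) (CL (En κ) (En κ)) := ContinuousLinearMap.mul ℝ _ ∘L trL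

theorem tm_apply {κ : Type} [Fintype κ] (S T : En κ) : tm S T = trn S * T := rfl

theorem tm_hA {a : ι} (h : Skw (W a x)) (S T : En (Fin m.N)) :
    hA W W a x (tm S T) = tm (hA W W a x S) T + tm S (hA W W a x T) := by
  rw [tm_apply, tm_apply, tm_apply, ← Std94.trL_apply (hA _ _ _ _ _), hA_apply _ _ S, map_sub,
    Std94.trL_apply, Std94.trL_apply, Eqv71.trn_comp, Eqv71.trn_comp, Skw.trn h]
  show W a x * (trn S * T) - trn S * T * W a x = (trn S * -W a x - -W a x * trn S) * T +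
    trn S * (W a x * T - T * W a x)
  noncomm_ring

theorem mul_hA (a : ι) (S T : En (Fin m.N)) : hA W W a x (ContinuousLinearMap.mul ℝ _ S T) =
    ContinuousLinearMap.mul ℝ _ (hA W W a x S) T + ContinuousLinearMap.mul ℝ _ S (hA W W a x T) := by
  show W a x * (S * T) - S * T * W a x = (W a x * S - S * W a x) * T + S * (W a x * T - T * W a x)
  noncomm_ring

/-- a parallel isometry from the line onto the orthogonal complement of the reduction -/
theorem ex_perp (h : Two B G W W Ω) (R : Rd G.F m W Ω ξ) (R' : Rd G.F m W Ω fun x => -ξ x)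
    (hG : G.OK B) (H : m.OK I B) (C : m.IsConn B G W) (hs : Rf65.SC Ω) (hx : x ∈ Ω)
    (hf : ∀ x ∈ Ω, ∀ a b, 2 * fF G.F m W ξ a b x = fL B G x (a, b)) :
    ∃ φ : M → CL (Eu lam) (En (Fin m.N)), ∀ y ∈ Ω, SA I φ y ∧
      (∀ a, nab I G.F.e (hA G.a (hA W W)) a φ y = 0) ∧ (∀ s, φ y (B.l y s) = φ y s) ∧
      (∀ s, φ y (B.il s) = opL (ξ y) * φ y s) ∧ (∀ s, Itx m m y (φ y s)) ∧
      (∀ s, φ y s * opL (ξ y) = -(opL (ξ y) * φ y s)) ∧
      ∀ s, LF (B.l y) B.il s → trn (φ y s) * φ y s = m.p y := by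
  obtain ⟨T, i, n, e⟩ := Uq54.exists_pt h.hB (pmx H x) (pmx H x) (R.mem _ hx) (R'.mem _ hx)
    (R.sq _ hx) (R'.sq _ hx)
  obtain ⟨s₀, f₀⟩ := (plx h.hB x).exists_lf
  obtain ⟨φ, e₀, p⟩ := (tw_perp h R R' hG H C hf).ex h.hB hG hx (hs.2 _ hx) f₀
    ((q_iff h R R' hx).2 ⟨i, e⟩)
  have it := fun x hx s => (q_iff h R R' hx).1 ((p x hx).2.1.Q s)
  have il : ∀ x ∈ Ω, ∀ s, φ x (B.il s) = opL (ξ x) * φ x s := fun x hx => (p x hx).2.1.il
  have n1 : ∀ x ∈ Ω, ∀ s, LF (B.l x) B.il s →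
      ctr tm (φ x) (φ x) = (2 : ℝ) • (trn (φ x s) * φ x s) := fun x hx s f => by
    rw [ctr_lf _ f (p x hx).2.1.l, tm_apply, tm_apply, il x hx, trn_mul,
      Skw.trn (g_skw (R.mem x hx)), mul_assoc, ← mul_assoc (-opL (ξ x)), neg_mul, R.sq x hx, neg_neg,
      show m.p x * φ x s = φ x s from ContinuousLinearMap.ext (it x hx s).1.pl, two_smul]
  have n2 : EqOn (fun y => ctr tm (φ y) (φ y)) (fun y => (2 : ℝ) • m.p y) Ω :=
    par_eqOn (F := G.F) (A := hA W W) R.op hs.1 subset_rfl (fun a _ hy => h.sA hy a)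
      (fun a _ hy => h.pA hy a) (fun y hy => ⟨sa_ctr _ (p y hy).1 (p y hy).1, fun a =>
        nab_ctr _ (hG.sk a y) (tm_hA (C.sk a y)) (p y hy).1 (p y hy).1 ((p y hy).2.2 a)
          ((p y hy).2.2 a)⟩)
      (fun y _ => ⟨SA.smul contMDiffAt_const (H.sp y), fun a => by
        rw [nab_csmul a _ (H.sp y), show nab I G.F.e (hA W W) a m.p y = 0 from C.cc.par a y,
          smul_zero]⟩) hx (by simp only [n1 _ hx _ f₀, e₀]; exact congrArg _ n)
  exact ⟨φ, fun y hy => ⟨(p y hy).1, (p y hy).2.2, (p y hy).2.1.l, il y hy, fun s => (it y hy s).1,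
    fun s => by rw [← neg_mul, ← map_neg]; exact (it y hy s).2.symm, fun s f =>
      smul_right_injective _ (two_ne_zero (α := ℝ)) ((n1 y hy s f).symm.trans (n2 hy))⟩⟩

theorem pt_u (hB : B.OK I) (H : m.OK I B) {η : m.A} (h : η ∈ m.gS x) (sq : opL η * opL η = -m.p x)
    {k : En lam} (kl : ∀ s, k (B.l x s) = k s) (ki : ∀ s, k (B.il s) = -B.il (k s))
    (kn : ∀ s, ‖B.l x (k s)‖ ^ 2 = ‖B.l x s‖ ^ 2) {φ : CL (Eu lam) (En (Fin m.N))}
    (hl : ∀ s, φ (B.l x s) = φ s) (il : ∀ s, φ (B.il s) = opL η * φ s) (it : ∀ s, Itx m m x (φ s))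
    (an : ∀ s, φ s * opL η = -(opL η * φ s)) (n : ∀ s, LF (B.l x) B.il s → trn (φ s) * φ s = m.p x)
    {u : En (Fin m.N)}
    (hu : u = (1 / 2 : ℝ) • ctr (ContinuousLinearMap.mul ℝ _) φ (m.j x + m.j x ∘L k)) :
    Pj41.CIso u (m.p x) (m.p x) ∧ (∀ v, u (m.J v) = -m.J (u v)) ∧
      (∀ v, u (opL η v) = -opL η (u v)) ∧ (∀ b v, u (m.ρ b x v) = m.ρ b x (u v)) ∧
      ∀ s v, u (m.j x (k s) v) = m.j x s (u v) := by
  have ap : ∀ {S T : En (Fin m.N)}, S = T → ∀ v, S v = T v := fun e v => by rw [e]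
  obtain ⟨s, f⟩ := (plx hB x).exists_lf
  have eu : u = uu m.J (opL η) (φ s) (m.j x s) (m.j x (k s)) := by
    simp only [hu, uu, ctr_lf _ f hl, il, add_apply, ki, map_neg, H.jil,
      ContinuousLinearMap.comp_apply, ContinuousLinearMap.mul_apply', sub_eq_add_neg]
  have m0 : ‖B.l x s‖ ^ 2 = 1 := by rw [f.ls, f.n1, one_pow]
  have m1 := (kn s).trans m0
  have R1 := rel_of H h sq (it s) (an s) m0 m1
  have R2 := rel_of H h sq (itx_trn (pmx H x) (pmx H x) (it s)) (by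
    have := congrArg trL (an s)
    simp only [map_neg, Std94.trL_apply, trn_mul, Skw.trn (g_skw h), neg_mul, mul_neg,
      neg_neg] at this
    exact this.symm) m0 m1
  have n4 := itx_norm hB (pmx H x) (pmx H x) (it s)
  rw [eu]
  refine ⟨R1.iso R2 H.Jsk (g_skw h) (H.jsym x _) (H.jsym x _) (ap (n s f))
    (ap (n4.2.trans (n4.1.symm.trans (n s f)))), R1.uJ, R1.uξ, fun b => Rel.uρ (ap (H.Jρ b x))
    (ap (g_ρ h b).symm) ((it s).ρ b) (ap (H.jρ b x _)) (ap (H.jρ b x _)), fun t v => ?_⟩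
  rw [(pmx H x).j_eq f t, ← kl t, f.dec t]
  simp only [map_add, map_smul, ki, map_neg, H.jil, add_apply, smul_apply, neg_apply,
    mul_apply_eq_comp, R1.uJ, R1.uj, neg_neg]

variable (I M ι lam) in
/-- **LEAF CJU** -/
theorem cju : CjuStmt I M ι lam := by
  intro r B B' G G' Ω O c ξ k hB hG hB' hG' A hs K hO hOΩ hil hl hf
  rcases O.eq_empty_or_nonempty with rfl | ⟨x₀, hx₀⟩
  · exact ⟨0, ⟨⟨fun _ => False.elim, fun _ => False.elim, fun _ => False.elim, fun _ => False.elim,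
      fun _ => False.elim⟩, fun _ => False.elim⟩, fun _ => False.elim⟩
  have a := (Tmp64.admOn_univ.2 A.adm).mono (subset_univ Ω)
  have H := A.adm.ok
  have C := A.adm.conn
  have R := A.rd
  obtain ⟨φ, p⟩ := ex_perp (two_of hB hG.P R.op a a) R (ab_neg A).rd hG H C hs (hOΩ hx₀) hf
  have sj : ∀ x ∈ O, SA I (fun x => c.m.j x ∘L k x) x := fun x hx =>
    (H.sj x).clm_comp (K.sm x (hOΩ hx))
  have su := fun x hx => sa_ctr (ContinuousLinearMap.mul ℝ (En (Fin c.m.N))) (p x (hOΩ hx)).1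
    (ψ := fun x => c.m.j x + c.m.j x ∘L k x) ((H.sj x).add (sj x hx))
  obtain ⟨u, hu⟩ : ∃ u : M → En (Fin c.m.N), u = fun x => (1 / 2 : ℝ) •
    ctr (ContinuousLinearMap.mul ℝ _) (φ x) (c.m.j x + c.m.j x ∘L k x) := ⟨_, rfl⟩
  have key := fun x (hx' : x ∈ O) => have hx := hOΩ hx'; pt_u hB H (R.mem x hx) (R.sq x hx)
    (fun s => by rw [← (hl x hx').1]; exact DFunLike.congr_fun (K.kl hB' hx) s)
    (fun s => by simpa [hil] using DFunLike.congr_fun (K.il x hx) s)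
    (fun s => by rw [K.nrm hB' hx, (hl x hx').1]) (p x hx).2.2.1 (p x hx).2.2.2.1
    (p x hx).2.2.2.2.1 (p x hx).2.2.2.2.2.1 (p x hx).2.2.2.2.2.2 (congrFun hu x)
  refine ⟨u, ⟨⟨fun x hx => hu ▸ SA.smul contMDiffAt_const (su x hx),
    fun x hx => (key x hx).1, fun x hx => ContinuousLinearMap.ext fun v => ?_,
    fun x hx b => ContinuousLinearMap.ext fun v => ((key x hx).2.2.2.1 b v).symm,
    fun x hx s => ContinuousLinearMap.ext fun v => ((key x hx).2.2.2.2 s v).symm⟩, fun x hx b => ?_⟩,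
    fun x hx => opL_inj (ContinuousLinearMap.ext fun v => ?_)⟩
  · simp [(key x hx).2.1]
  · have p1 : nab I G.F.e (hA G.a (hA c.W c.W)) b c.m.j x = 0 := by
      rw [nab_hA]; ext1 s; exact sub_eq_zero.2 (C.j b x s)
    have p2 : nab I G.F.e (hA G.a (hA c.W c.W)) b (fun x => c.m.j x ∘L k x) x = 0 := by
      have := (K.connOn a.ok a.conn).j b x (hOΩ hx)
      rw [K.F, (hl x hx).2] at this
      rw [nab_hA]; ext1 s; exact sub_eq_zero.2 (this s)
    have e : nab I G.F.e (hA c.W c.W) b u x = 0 := by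
      rw [hu, nab_csmul b _ (su x hx), nab_ctr _ (ψ := fun x => c.m.j x + c.m.j x ∘L k x) (hG.sk b x) (mul_hA b)
        (p x (hOΩ hx)).1 ((H.sj x).add (sj x hx)) ((p x (hOΩ hx)).2.1 b)
        (by rw [nab_add b (H.sj x) (sj x hx), p1, p2, add_zero]), smul_zero]
    rwa [nab_hA] at e
  · rw [Eqv71.opL_cj, ContinuousLinearMap.comp_apply, ContinuousLinearMap.comp_apply, (key x hx).2.2.1,
      ← Pj41.ad_trn, ← ContinuousLinearMap.comp_apply (u x), (key x hx).1.tgt, ← mul_apply_eq_comp,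
      g_p' H (R.mem x (hOΩ hx)), map_neg, neg_apply]

end Crest.Agent.X212.Cqn41
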