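import Crest.Agent.X212.Cqn41.Clc
import Crest.Agent.X212.Cyl12.Lit

/-!
# Row 212, CQ-NK (helper41): clopen locality of cyclic seeds
-/

set_option autoImplicit false
set_option linter.unusedSectionVars false
noncomputable section
open Set Function Filter Topology MeasureTheory
open scoped ContDiff Manifold InnerProductSpace NNReal

namespace Crest.Agent.X212.Cqn41
open An Cmp73 Eqv71 Nd18 Dgr80 Shi84
open Abel74 (Lh CvB)
open M (NkS NkC)
open Wz78 (nab SA)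
open Wrd81 (wd)
open ContinuousLinearMap (adjoint)

open Cyc79 Cyl12
open Abel74 (SBd)

variable {E : Type} [NormedAddCommGroup E] [NormedSpace ℝ E] [FiniteDimensional ℝ E]
  [MeasurableSpace E] [BorelSpace E]
  {HM : Type} [TopologicalSpace HM] {I : ModelWithCorners ℝ E HM} [I.Boundaryless]
  {M : Type} [TopologicalSpace M] [ChartedSpace HM M] [IsManifold I ∞ M]
  [MeasurableSpace M] [T2Space M] [BorelSpace M] [SecondCountableTopology M]
  {ι : Type} [Fintype ι] {F : Fr I M ι} {O : Set M}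
  {κ : Type} [Fintype κ] [DecidableEq κ] {A : ι → M → En κ} {p L L₁ : M → En κ}
  {U : Type} [NormedAddCommGroup U] [InnerProductSpace ℝ U] [CompleteSpace U]
  {s s₁ l l₁ : M → VV F.toPre κ} {f f' f₁ f₁' φ φ₁ : M → ℝ} {w w' w₁ w₁' : List (La M)}

variable (I O) in
/-- smooth bounded fields which agree on `O` -/
structure Lc {N : Type} [NormedAddCommGroup N] [NormedSpace ℝ N] (s t : M → N) : Prop where
  l : SBd I s
  r : SBd I t
  e : EqOn s t O

variable (I O) in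
/-- letters which agree on `O` -/
inductive LL : La M → La M → Prop
  | mul {a b : M → ℝ} : Lc I O a b → LL (.mul a) (.mul b)
  | G : LL .G .G

theorem ll_xw (a : Lc I O f f₁) (b : Lc I O f' f₁') :
    List.Forall₂ (LL I O) (xw f f') (xw f₁ f₁') :=
  .cons (.mul a) (.cons .G (.cons (.mul b) .nil))

theorem Lc.amp (a : Lc I O L L₁) (k : Lc I O s s₁) :
    Lc I O (fun x => amp _ (L x) (s x)) fun x => amp _ (L₁ x) (s₁ x) :=
  ⟨sbd_amp a.l k.l, sbd_amp a.r k.r, fun x hx => by simp only [a.e hx, k.e hx]⟩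

section
variable (h : Pq F A p) (hO : IsClopen O)
include h hO

theorem Lc.sv {t t₁ : La M} (a : LL I O t t₁) (k : Lc I O s s₁) :
    Lc I O (sv F A t s) (sv F A t₁ s₁) := by
  cases a with
  | mul a => exact ⟨a.l.smul k.l, a.r.smul k.r, fun x hx => congrArg₂ (· • ·) (a.e hx) (k.e hx)⟩
  | G => exact ⟨⟨Mp86.sm_res F _ _, Mp86.bdd_res F _ _⟩, ⟨Mp86.sm_res F _ _, Mp86.bdd_res F _ _⟩,
      res_loc h.bmp (h.mcA _) hO ⟨_, (res_amp h.tame.choose_spec h.mc k.l).1⟩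
        ⟨_, (res_amp h.tame.choose_spec h.mc k.r).1⟩ k.e⟩

theorem Lc.wd (a : List.Forall₂ (LL I O) w w₁) (k : Lc I O s s₁) :
    Lc I O (wd (sl F (aA _ A)) s (w.map (laV _))) (wd (sl F (aA _ A)) s₁ (w₁.map (laV _))) := by
  induction a with
  | nil => exact k
  | cons a _ ih => exact ih.sv h hO a

theorem Lc.gc {ρ : CL U (CL (VV F.toPre κ) (VV F.toPre κ))} (a : List.Forall₂ (LL I O) w w₁)
    (k : Lc I O s s₁) : ∀ {l l₁}, Lc I O l l₁ →
      EqOn (gc F (aA _ A) ρ s (w.map (laV _)) l) (gc F (aA _ A) ρ s₁ (w₁.map (laV _)) l₁) O := by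
  induction a with
  | nil => exact fun _ _ _ => rfl
  | cons a b ih =>
    intro l l₁ e
    have i := ih (e.sv h hO a)
    cases a with
    | mul a =>
      simp only [Cyl12.sv, ← slT_laV] at i
      exact i
    | G =>
      exact fun x hx => congrArg₂ (· - ·) (i hx)
        (cur_loc ρ hO.2 ((k.wd h hO b).sv h hO .G).e (e.sv h hO .G).e hx)

theorem lc_bs {S S₁ n n₁ : ℝ} (hS : Mp86.L4 F.toPre S) (S0 : 0 < S) (hS₁ : Mp86.L4 F.toPre S₁)
    (S₁0 : 0 < S₁) (u : SepN F n f f') (u₁ : SepN F n₁ f₁ f₁') (a : Lc I O f f₁) (b : Lc I O f' f₁') :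
    Lc I O (bs F A p f f') (bs F A p f₁ f₁') := by
  obtain ⟨φ, a1, a2, a3⟩ := u.ex
  obtain ⟨φ₁, b1, b2, b3⟩ := u₁.ex
  have k := (isFld_bs h a1 (one_pos.trans_le u.one) a.l.1 b.l a2 a3).1
  have k₁ := (isFld_bs h b1 (one_pos.trans_le u₁.one) a.r.1 b.r b2 b3).1
  refine ⟨⟨k.1, _, h.bs_kB hS S0 u⟩, ⟨k₁.1, _, h.bs_kB hS₁ S₁0 u₁⟩, fun x hx => ext_toH fun v => ?_⟩
  have s : SBd I fun y => p y (v.1 y) := h.sbd.app (lj_toH (F := F) v).1
  have e := fun {f} (a : SBd I f) => (⟨(a.smul s).1, (a.smul s).2⟩ : Sb I _)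
  rw [k.2, k₁.2]
  exact congrArg₂ (· • ·) (a.e hx)
    (res_loc' h.tame h.mc hO (e b.l) (e b.r) (fun y hy => congrArg (· • _) (b.e hy)) hx)

end

variable {lam : Type} [Fintype lam] {r : ℕ} {B : Base M ι lam} {Γ : Geo I M ι lam}
  {c : Cfg M ι lam r} {d d₁ : Cy M}

theorem un_sep {S : ℝ} {n : ℕ} (u : Un F d φ S n) : SepN F n d.f d.f' :=
  ⟨by exact_mod_cast u.one, u.f.1.continuous, u.f'.1.continuous, u.f.2, u.f'.2, φ, u.cu, u.sep, u.sep'⟩

/-- **cyclic seeds are local over clopen sets** -/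
theorem cy_loc (hB : B.OK I) (hT : ∃ C, Γ.F.Tame C) (H : c.m.OK I B) (hc : c.m.IsConn B Γ c.W)
    (hO : IsClopen O) (k : d.OK Γ.F) (k₁ : d₁.OK Γ.F) (a : Lc I O d.f d₁.f) (b : Lc I O d.f' d₁.f')
    (hw : List.Forall₂ (LL I O) d.w d₁.w) (hw' : List.Forall₂ (LL I O) d.w' d₁.w') :
    EqOn ((d.sed Γ.F).s c) ((d₁.sed Γ.F).s c) O ∧
      ∀ l l₁, Lc I O l l₁ → EqOn ((d.sed Γ.F).sA c l) ((d₁.sed Γ.F).sA c l₁) O := by
  have h := pq_conn hB hT H hc
  obtain ⟨_, _, _, -, u⟩ := exists_un hT.choose_spec k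
  obtain ⟨_, _, _, -, u₁⟩ := exists_un hT.choose_spec k₁
  have e := lc_bs h hO u.l4 u.pos u₁.l4 u₁.pos (un_sep u) (un_sep u₁) a b
  have e' := lc_bs h hO u.l4 u.pos u₁.l4 u₁.pos (un_sep u).symm (un_sep u₁).symm b a
  have x := fun {w w₁} (hw : List.Forall₂ (LL I O) w w₁) => List.rel_append hw (ll_xw a b)
  refine ⟨fun z hz => congrArg (c.m.pg z) (congrArg₂ (tp _) ((e'.wd h hO (x hw)).e hz)
    ((e'.wd h hO (x hw')).e hz)), fun l l₁ k z hz => ?_⟩
  have L : Lc I O (fun x => adR (Fin c.m.N) (c.m.pg x (l x))) fun x => adR _ (c.m.pg x (l₁ x)) :=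
    ⟨(SBd.const _).app (h.sbd.app k.l), (SBd.const _).app (h.sbd.app k.r), fun x hx => by
      simp only [k.e hx]⟩
  have g : ∀ {w w₁ w' w₁'}, List.Forall₂ (LL I O) w w₁ → List.Forall₂ (LL I O) w' w₁' →
      gh Γ.F c d.f d.f' w w' (adl Γ.F c l) z = gh Γ.F c d₁.f d₁.f' w₁ w₁' (adl Γ.F c l₁) z :=
    fun hw hw' => congrArg₂ (· + ·) (e'.gc h hO (x hw) (L.amp (e'.wd h hO (x hw'))) hz)
      (e.gc h hO (ll_xw b a) (by
        erw [bk_laV, bk_laV]
        exact (L.amp (e.wd h hO hw')).wd h hO (List.rel_reverse (x hw))) hz)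
  exact congrArg₂ (· - ·) (g hw' hw) (g hw hw')

end Crest.Agent.X212.Cqn41
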