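import Crest.Agent.X212.Cqn41.Tim
import Crest.Agent.X212.Cqn41.Loc
import Crest.Agent.X212.Cyl12.Pf
import Crest.Agent.X212.Cyl12.Pul
import Crest.Agent.X212.Mp86.Nkb
import Crest.Agent.X212.Th31.Cux

/-!
# Row 212, CQ-NK (helper41): the cyclic seeds
-/

set_option autoImplicit false
set_option linter.unusedSectionVars false
noncomputable section
open Set Function Filter Topology MeasureTheory
open scoped ContDiff Manifold InnerProductSpace NNReal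

namespace Crest.Agent.X212.Cqn41
open An Cmp73 Eqv71 Nd18 Dgr80 Shi84
open Abel74 (Lh CvB)
open M (NkS NkC)
open Wz78 (nab SA)
open Wrd81 (wd)
open ContinuousLinearMap (adjoint)

open Mp86 (L4 NK)
open Cyc79 (Cy)
open Cyl12 (VC CC Un kR)
open Nka63 (ex2)

variable {E : Type} [NormedAddCommGroup E] [NormedSpace ℝ E] [FiniteDimensional ℝ E]
  [MeasurableSpace E] [BorelSpace E]
  {HM : Type} [TopologicalSpace HM] {I : ModelWithCorners ℝ E HM} [I.Boundaryless]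
  {E₀ : Type} [NormedAddCommGroup E₀] [NormedSpace ℝ E₀] [FiniteDimensional ℝ E₀]
  [MeasurableSpace E₀] [BorelSpace E₀]
  {H₀ : Type} [TopologicalSpace H₀] {I₀ : ModelWithCorners ℝ E₀ H₀} [I₀.Boundaryless]
  {E' : Type} [NormedAddCommGroup E'] [NormedSpace ℝ E'] [FiniteDimensional ℝ E']
  [MeasurableSpace E'] [BorelSpace E']
  {H' : Type} [TopologicalSpace H'] {I' : ModelWithCorners ℝ E' H'} [I'.Boundaryless]
  {M : Type} [TopologicalSpace M] [ChartedSpace H₀ M] [IsManifold I₀ ∞ M] [MeasurableSpace M]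
  [BorelSpace M] [T2Space M] [SecondCountableTopology M] {lam α J : Type} [Fintype lam]
  {X : α → Type} [∀ n, TopologicalSpace (X n)] [∀ n, ChartedSpace HM (X n)]
  [∀ n, IsManifold I ∞ (X n)] [∀ n, MeasurableSpace (X n)] [∀ n, BorelSpace (X n)]
  [∀ n, T2Space (X n)] [∀ n, SecondCountableTopology (X n)]
  {Z : α → Type} [∀ n, TopologicalSpace (Z n)] [∀ n, ChartedSpace H' (Z n)]
  [∀ n, IsManifold I' ∞ (Z n)] [∀ n, MeasurableSpace (Z n)] [∀ n, BorelSpace (Z n)]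
  [∀ n, T2Space (Z n)] [∀ n, SecondCountableTopology (Z n)] {r : ℕ}


/-- the values of cyclic seeds converge -/
def CyL {ι : Type} [Fintype ι] (g : Gs I I₀ M ι lam X) (c : ∀ n, Cfg (X n) ι lam r) : Prop :=
  ∀ d φ R d₀, CC g c d φ R d₀ → ∀ v : ∀ n, VC (g.G n).F (c n) (d n) (φ n) (R n), d₀.OK g.G₀.F →
    g.QA c (fun n => (v n).s) (fun b => (d₀.sed g.G₀.F).s b) ∧
    ∀ l l₀ (η : ∀ n, X n → Fm ι (c n).m.A), g.QA c l l₀ → (∀ n, (v n).A (l n) (η n)) →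
      ∀ b u, g.LB c b u → ∀ a, g.LA c b (g.S c) u (fun n x => η n x a) fun x => (d₀.sed g.G₀.F).sA b (l₀ b) x a

variable {E3 : Type} [NormedAddCommGroup E3] [NormedSpace ℝ E3] [FiniteDimensional ℝ E3]
  [MeasurableSpace E3] [BorelSpace E3]
  {H3 : Type} [TopologicalSpace H3] {I3 : ModelWithCorners ℝ E3 H3} [I3.Boundaryless]
  {Y : Type} [TopologicalSpace Y] [ChartedSpace H3 Y] [IsManifold I3 ∞ Y] [T2Space Y]
  [MeasurableSpace Y] [BorelSpace Y] [SecondCountableTopology Y] [CompactSpace Y]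
  {κ : Type} [Fintype κ] {D : YD I3 Y κ lam}


theorem un_nk (hD : D.OK) {d : Cy Y} (hd : d.OK D.F) {φ : Y → ℝ} (h1 : Sm I3 φ)
    (h2 : ∀ x, d.f x ≠ 0 → 1 ≤ φ x) (h3 : ∀ x, d.f' x ≠ 0 → φ x ≤ 0) (S : ℝ) :
    ∃ n : ℕ, 0 < S → ∀ X : NK D S, Un X.G.F (X.K.cyc d) (ex2 X.K φ) S n := by
  obtain ⟨L, h0, hL⟩ := Mp86.nk_geo (S := S) hD
  obtain ⟨C, hC⟩ := Nka63.cbs_ex2 D h1
  have w := fun t ht => Nka63.laOK_of (hd.w t ht)
  have w' := fun t ht => Nka63.laOK_of (hd.w' t ht)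
  obtain ⟨n, n1, a, b, hn, e, e'⟩ := ((eventually_ge_atTop 1).and
    ((Mp86.fn_ext (D := D) (S := S) hd.sep.1.choose_spec.1).and
    ((Mp86.fn_ext (D := D) (S := S) hd.sep.2.1.choose_spec.1).and ((Mp86.ev_nat _).and
    ((Mp86.ll_sz (D := D) (S := S) w).and (Mp86.ll_sz (D := D) (S := S) w')))))).exists
  have n1' : (1 : ℝ) ≤ n := by exact_mod_cast n1
  refine ⟨n, fun hS X => ⟨X.l4, hS, n1, (Mp86.cu_cbs (hC X.K) h0 fun x a => (em _).symm.imp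
    (fun hx => X.D_off (fun y hy => X212.M.push_zero _ fun _ _ => by
      rw [X212.M.dtf_zero X.K hy, zero_smul]) hx a) fun hx => (hL X x hx).2.1 a).mono hn,
    fun x hx => ?_, fun x hx => ?_, ⟨(a X).sm, (a X).abs_le n1'⟩, ⟨(b X).sm, (b X).abs_le n1'⟩,
    ⟨(e X).1.1, fun t ht => Cyl12.lk_of (X.K.ok_las w t ht) ((e X).1.2 t ht)⟩,
    (e' X).1.1, fun t ht => Cyl12.lk_of (X.K.ok_las w' t ht) ((e' X).1.2 t ht)⟩⟩
  · rw [Nka63.ex2_eq _ φ (Nka63.mem_O_of_χ _ (left_ne_zero_of_smul hx))]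
    exact h2 _ (right_ne_zero_of_smul hx)
  · rw [Nka63.ex2_eq _ φ (Nka63.mem_O_of_χ _ (left_ne_zero_of_smul hx))]
    exact h3 _ (right_ne_zero_of_smul hx)

variable {g : Gs I I₀ M (Option κ) lam X} {c : ∀ n, Cfg (X n) (Option κ) lam r} [Fintype J]
  {p : Up I' J Z g c} {ν : NU p D}

namespace NU
variable (ν)

/-- functions on the slice are extended compatibly -/
def Psh : Prop := ∀ n (f : Y → ℝ) x, ex2 (ν.K n) f (p.φ n x) = ex2 (ν.K₁ n) f x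

/-- the letters of the limit -/
def la : La Y → La M
  | .mul f => .mul fun x => ∑ j, (ν.K' j).ext f x
  | .G => .G

/-- the data of the limit -/
def cy (d : Cy Y) : Cy M :=
  ⟨fun x => ∑ j, (ν.K' j).ext d.f x, fun x => ∑ j, (ν.K' j).ext d.f' x, d.w.map ν.la, d.w'.map ν.la⟩

theorem cb_ext {f : Y → ℝ} (hf : Sm I3 f) : g.G₀.F.Cb fun x => ∑ j, (ν.K' j).ext f x :=
  Sob92.Cb_sum _ fun j _ => (ν.K' j).cb_ext hf

theorem ok_la {w : List (La Y)} (hw : ∀ t ∈ w, La.OK D.F t) : ∀ t ∈ w.map ν.la, La.OK g.G₀.F t :=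
  List.forall_mem_map.2 fun t ht => by
    have := hw t ht
    cases t
    exacts [ν.cb_ext this.choose_spec.1, trivial]

variable {ν}

namespace OK
open Up
variable (h : ν.OK)
include h

theorem fc_ex2 {φ : Y → ℝ} (h1 : Sm I3 φ) :
    g.FC c (fun n => ex2 (ν.K₁ n) φ) fun x => ∑ j, ex2 (ν.K' j) φ x := by
  obtain ⟨C, hC⟩ := bd_dtf
  obtain ⟨A, hA⟩ := Cht98.Cb_fst D.F.toPre (Sob92.Cb_of_compact (F := D.F.toPre) h1)
  have a := fun p q => (hC p q).cyl D.F.toPre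
  exact h.S.push h.up.bk.ok c ⟨fun _ => (a ..).1.smul hA.1, .of_forall fun _ => ⟨(a ..).1.smul hA.1,
    fun k => Sob92.CB_bil (ContinuousLinearMap.lsmul ℝ ℝ) (a ..).1 hA.1 ((a ..).2 k) (hA.2 k)⟩,
    fun n z hz => by rw [X212.M.dtf_zero _ hz, zero_smul]⟩ fun j => ⟨(a ..).1.smul hA.1,
    fun z hz => by rw [X212.M.dtf_zero _ hz, zero_smul],
    fun _ _ _ hT => (X212.M.tend_dtf (h.S.one j).p (h.S.one j).q hT).smul_const _⟩

theorem fl_la {w : List (La Y)} (hw : ∀ t ∈ w, La.OK D.F t) :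
    FL (g.cLa c) (fun n => w.map (ν.K₁ n).la) fun _ => w.map ν.la :=
  FL.map w fun t ht => by
    have := hw t ht
    cases t
    exacts [.mul (h.S.fc_ext h.up.bk.ok c this.choose_spec.1).qs, .G]

theorem lc_ext {f : Y → ℝ} (hf : Sm I3 f) (j : J) :
    Lc I₀ (p.O j) (fun x => ∑ j, (ν.K' j).ext f x) ((ν.K' j).ext f) :=
  have a := Sb.of_cb (ν.cb_ext hf); have b := Sb.of_cb ((ν.K' j).cb_ext hf)
  ⟨⟨a.sm, a.bd⟩, ⟨b.sm, b.bd⟩, h.ag (h.ext_off f) j⟩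

theorem ll_la {w : List (La Y)} (hw : ∀ t ∈ w, La.OK D.F t) (j : J) :
    List.Forall₂ (LL I₀ (p.O j)) (w.map ν.la) (w.map (ν.K' j).la) := by
  rw [List.forall₂_map_left_iff, List.forall₂_map_right_iff, List.forall₂_same]
  intro t ht
  have := hw t ht
  cases t
  exacts [.mul (h.lc_ext this.choose_spec.1 j), .G]

theorem ex2_eq {f : Y → ℝ} (φ : Y → ℝ) {x : M} (hx : ∑ j, (ν.K' j).ext f x ≠ 0) :
    ∃ y, f y ≠ 0 ∧ ∑ j, ex2 (ν.K' j) φ x = φ y := by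
  obtain ⟨j, -, hj⟩ := Finset.exists_ne_zero_of_sum_ne_zero hx
  have := Nka63.mem_O_of_χ _ (left_ne_zero_of_smul hj)
  exact ⟨_, right_ne_zero_of_smul hj, (h.ag (fun i _ => Nka63.push_of_notMem _ _) j
    (h.sub j (Nka63.O_sub _ zero_le_one this))).trans (Nka63.ex2_eq _ φ this)⟩

theorem ok_cy {d : Cy Y} (hd : d.OK D.F) : (ν.cy d).OK g.G₀.F := by
  obtain ⟨⟨_, a, -⟩, ⟨_, b, -⟩, φ, ⟨_, h1, -⟩, h2, h3⟩ := hd.sep
  obtain ⟨C, hC⟩ := Nka63.cbs_ex2 D h1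
  exact ⟨⟨ν.cb_ext a, ν.cb_ext b, _, Sob92.Cb_sum _ fun j _ => ⟨C, hC (ν.K' j)⟩,
    fun _ hx => let ⟨y, e1, e2⟩ := h.ex2_eq φ hx; (h2 y e1).trans_eq e2.symm,
    fun _ hx => let ⟨y, e1, e2⟩ := h.ex2_eq φ hx; e2.trans_le (h3 y e1)⟩, ν.ok_la hd.w, ν.ok_la hd.w'⟩

/-- **LEAF CYC** -/
theorem cyc_of (hD : D.OK) (hp : ν.Psh) {S : ℝ}
    (l4 : ∀ᶠ n in (g.l : Filter α), L4 (p.G n).F.toPre S) (hl : CyL g c) :
    ν.CYC (Th31.CL g c) := fun d hd => by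
  have k := h.up.bk
  have i := h.up.lh
  obtain ⟨⟨_, a, -⟩, ⟨_, b, -⟩, φ, ⟨_, h1, -⟩, h2, h3⟩ := hd.sep
  choose N hN using un_nk hD hd h1 h2 h3
  obtain ⟨T, t1, t2, t3⟩ : ∃ T : α → ℝ, (∀ n, 0 < T n) ∧ (∀ n, L4 (p.G n).F.toPre (T n)) ∧
      ∀ᶠ n in (g.l : Filter α), T n = max S 1 := by
    classical
    refine ⟨fun n => max (if L4 (p.G n).F.toPre S then S else (i n).tame.choose 0) 1,
      fun n => lt_max_of_lt_right one_pos, fun n => .mono ?_ (le_max_left ..),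
      l4.mono fun n hn => by simp only [if_pos hn]⟩
    split_ifs with e
    exacts [e, Mp86.l4_of_tame (i n).tame.choose_spec]
  choose v v1 v2 v3 using fun n => Cyl12.lit (i n).hB (i n).tame (i n).ok (i n).conn
    (hN (T n) (t1 n) ⟨ν.K n, (i n).hB, (i n).hG, (i n).tame, t2 n⟩)
  choose w w1 w2 using fun n => Cyl12.pul (h.up.pb n) ((h.r n).cyc d) (v n)
  have cc : CC g c (fun n => (ν.K₁ n).cyc d) (fun n x => ex2 (ν.K n) φ (p.φ n x))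
      (fun n => kR (T n) (N (T n))) (ν.cy d) :=
    ⟨h.S.fc_ext k.ok c a, h.S.fc_ext k.ok c b, h.fl_la hd.w, h.fl_la hd.w',
      ⟨_, by simpa only [hp _] using h.fc_ex2 h1⟩, _, t3.mono fun n hn => by rw [hn]⟩
  obtain ⟨q1, q2⟩ := hl _ _ _ _ cc w (h.ok_cy hd)
  have loc := fun b' u (l : g.LB c b' u) j => cy_loc k.ok.B₀ k.tame l.lim.adm.ok l.lim.adm.conn
    (h.up.cl j) (h.ok_cy hd) (Nka63.ok_cyc (ν.K' j) hd) (h.lc_ext a j) (h.lc_ext b j)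
    (h.ll_la hd.w j) (h.ll_la hd.w' j)
  refine ⟨⟨fun n => v1 n ▸ ⟨(v2 n).1, (v2 n).2⟩, fun n x => Wz78.pg_mem x _, ⟨_, q1.congr
    (fun n x => by rw [w1, v1]) fun _ _ => rfl, fun b' u l j => (loc b' u l j).1⟩, fun b' u l j =>
      have o := Nka63.ok_cyc (ν.K' j) hd; sb_sed k.ok.B₀ l.lim.adm o.sep.1 o.w o.w'⟩,
    fun l m hm => ?_, fun _ _ _ => PV.zero h.up⟩
  obtain ⟨l₀, a1, a2⟩ := hm.ex
  have e := fun n => w2 n _ _ (hm.sb n).sm.continuous (hm.m n) (v3 n _ ⟨(hm.sb n).sm, (hm.sb n).bd⟩)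
  refine ⟨Cyl12.qc k cc w a1 e, fun b' u l => ⟨_, q2 _ _ _ a1 e b' u l, fun j => (loc b' u l j).2 _ _
    ⟨⟨(qa_sb k a1 l).sm, (qa_sb k a1 l).bd⟩, ⟨(hm.sb' b' u l j).sm, (hm.sb' b' u l j).bd⟩,
      a2 b' u l j⟩⟩⟩

end OK
end NU

end Crest.Agent.X212.Cqn41
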