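import Crest.Agent.X212.Cqn41.Nc
import Crest.Agent.X212.Cmp73.Ap

/-!
# Row 212, CQ-NK (helper41): the energy windows and the curvature seeds
-/

set_option autoImplicit false
set_option linter.unusedSectionVars false
noncomputable section
open Set Function Filter Topology MeasureTheory
open scoped ContDiff Manifold InnerProductSpace NNReal

namespace Crest.Agent.X212.Cqn41
open An Cmp73 Eqv71 Nd18 Dgr80 Shi84
open Abel74 (Lh CvB)
open M (NkS NkC)
open Wz78 (nab SA)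
open Wrd81 (wd)
open ContinuousLinearMap (adjoint)

open Mp86 (Dom G1 gr2)

variable {E : Type} [NormedAddCommGroup E] [NormedSpace ℝ E] [FiniteDimensional ℝ E]
  [MeasurableSpace E] [BorelSpace E]
  {HM : Type} [TopologicalSpace HM] {I : ModelWithCorners ℝ E HM} [I.Boundaryless]
  {E₀ : Type} [NormedAddCommGroup E₀] [NormedSpace ℝ E₀] [FiniteDimensional ℝ E₀]
  [MeasurableSpace E₀] [BorelSpace E₀]
  {H₀ : Type} [TopologicalSpace H₀] {I₀ : ModelWithCorners ℝ E₀ H₀} [I₀.Boundaryless]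
  {E' : Type} [NormedAddCommGroup E'] [NormedSpace ℝ E'] [FiniteDimensional ℝ E']
  [MeasurableSpace E'] [BorelSpace E']
  {H' : Type} [TopologicalSpace H'] {I' : ModelWithCorners ℝ E' H'} [I'.Boundaryless]
  {M : Type} [TopologicalSpace M] [ChartedSpace H₀ M] [IsManifold I₀ ∞ M] [MeasurableSpace M]
  [BorelSpace M] [T2Space M] [SecondCountableTopology M] {lam α J : Type} [Fintype lam]
  {X : α → Type} [∀ n, TopologicalSpace (X n)] [∀ n, ChartedSpace HM (X n)]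
  [∀ n, IsManifold I ∞ (X n)] [∀ n, MeasurableSpace (X n)] [∀ n, BorelSpace (X n)]
  [∀ n, T2Space (X n)] [∀ n, SecondCountableTopology (X n)]
  {Z : α → Type} [∀ n, TopologicalSpace (Z n)] [∀ n, ChartedSpace H' (Z n)]
  [∀ n, IsManifold I' ∞ (Z n)] [∀ n, MeasurableSpace (Z n)] [∀ n, BorelSpace (Z n)]
  [∀ n, T2Space (Z n)] [∀ n, SecondCountableTopology (Z n)] {r : ℕ}


variable {E3 : Type} [NormedAddCommGroup E3] [NormedSpace ℝ E3] [FiniteDimensional ℝ E3]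
  [MeasurableSpace E3] [BorelSpace E3]
  {H3 : Type} [TopologicalSpace H3] {I3 : ModelWithCorners ℝ E3 H3} [I3.Boundaryless]
  {Y : Type} [TopologicalSpace Y] [ChartedSpace H3 Y] [IsManifold I3 ∞ Y] [T2Space Y]
  [MeasurableSpace Y] [BorelSpace Y] [SecondCountableTopology Y] [CompactSpace Y]
  {κ : Type} [Fintype κ] {D : YD I3 Y κ lam}


section one
variable {B : Base M (Option κ) lam} {G : Geo I₀ M (Option κ) lam} (K : Nk D B G) (N : ND Y lam)
  (c : Cfg M (Option κ) lam r)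

/-- the curvature part of the smoothed energy -/
def e1 (x : M) : ℝ := K.χ4 x * ∑ i, ‖c.sd G.F (.cv K.χ4 K.τ (K.ext (N.y i))) x‖ ^ 2

/-- the spinor part of the smoothed energy -/
def e2 (x : M) : ℝ := K.χ4 x * ‖K.χ4 x • nt G.F c.W K.τ c.Φ x‖ ^ 2

theorem e2_nn (x : M) : 0 ≤ e2 K c x := mul_nonneg ct_mem.1 (sq_nonneg _)

theorem e2_le (x : M) : e2 K c x ≤ ‖nt G.F c.W K.τ c.Φ x‖ ^ 2 :=
  (mul_le_of_le_one_left (sq_nonneg _) ct_mem.2).trans (pow_le_pow_left₀ (norm_nonneg _)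
    ((norm_smul_le ..).trans (mul_le_of_le_one_left (norm_nonneg _)
      ((Real.norm_of_nonneg ct_mem.1).trans_le ct_mem.2))) 2)

theorem e2_en (x : M) : e2 K c x ≤ K.cut 3 (K.τ x) * en G.F c K.τ x := by
  have : ‖nt G.F c.W K.τ c.Φ x‖ ^ 2 ≤ en G.F c K.τ x := le_add_of_nonneg_left (by positivity)
  by_cases h : x ∈ K.dp 4
  · rw [Nka63.cut_τ_one K (by norm_num) (by norm_num; exact h), one_mul]
    exact (e2_le K c x).trans this
  · rw [e2, show K.χ4 x = 0 from ct_zero h, zero_mul]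
    exact mul_nonneg ct_mem.1 ((sq_nonneg _).trans this)

theorem e2_gr {T : ℝ} (hT : G1 G.F T K.τ) (x : M) : e2 K c x ≤ T * gr2 I₀ G.F.e c.W c.Φ x :=
  (e2_le K c x).trans ((pow_le_pow_left₀ (norm_nonneg _) ((norm_sum_le ..).trans_eq
    (Finset.sum_congr rfl fun _ _ => norm_smul ..)) 2).trans
      ((Finset.sum_mul_sq_le_sq_mul_sq ..).trans (mul_le_mul_of_nonneg_right (by
        simpa only [Real.norm_eq_abs, sq_abs] using hT x) Mp86.gr2_nonneg)))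

variable {c} in
theorem ct_e2 (h : Ad0 c B G) : Continuous (e2 K c) :=
  have e : Continuous K.χ4 := contDiff_ct.continuous.comp K.cont
  e.mul ((e.smul (continuous_finsetSum _ fun a _ => (G.F.sm_D K.sm_τ a).continuous.smul
    (Wz78.sm_nab (mc_W h.conn).sm a h.sm).continuous)).norm.pow 2)

theorem int_χ {f : M → ℝ} (h : Integrable f G.F.μ) : Integrable (fun x => K.χ x * f x) G.F.μ :=
  h.bdd_mul (sm_cut K one_pos).sm.continuous.aestronglyMeasurable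
    (.of_forall fun _ => (Real.norm_of_nonneg ct_mem.1).trans_le ct_mem.2)

theorem wn_ew (hδ : 0 < N.δ) (s : Sb I₀ (e1 K N c)) (i : Integrable (fun x => K.χ x * e2 K c x) G.F.μ)
    (t : ℝ) : wn G.F.μ K.τ N.δ (N.ew K c) t = wn G.F.μ K.τ N.δ (fun x => K.χ x * e1 K N c x) t +
      wn G.F.μ K.τ N.δ (fun x => K.χ x * e2 K c x) t := by
  rw [wn, wn, wn, ← integral_add ((wi_χ K hδ s).1.int hδ t)
    ((WI.of_integrable hδ K.sm_τ.continuous.aestronglyMeasurable i).int hδ t)]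
  refine integral_congr_ae (.of_forall fun x => ?_)
  simp only [← smul_add, ← mul_add, e1, e2, ND.ew, Dgr80.ew, ← mul_assoc]
  by_cases h : x ∈ K.dp 4
  · rw [K.χ_one (Dp_mono (by norm_num) h), one_mul]
  · rw [show K.χ4 x = 0 from ct_zero h, mul_zero]

theorem wn_le {δ C : ℝ} (hδ : 0 < δ) {f : M → ℝ} (i : LB G.F.μ f C) (f0 : ∀ x, 0 ≤ f x) (t : ℝ) :
    wn G.F.μ K.τ δ (fun x => K.χ x * f x) t ≤ δ * C :=
  (integral_mono_of_nonneg (.of_forall fun x => smul_nonneg (b_pos hδ _).le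
    (mul_nonneg ct_mem.1 (f0 x))) (i.1.const_mul δ) (.of_forall fun x => mul_le_mul (b_le hδ _)
      (mul_le_of_le_one_left (f0 x) ct_mem.2) (mul_nonneg ct_mem.1 (f0 x)) hδ.le)).trans
    ((integral_const_mul ..).trans_le (mul_le_mul_of_nonneg_left i.2 hδ.le))

end one

variable {g : Gs I I₀ M (Option κ) lam X} {c : ∀ n, Cfg (X n) (Option κ) lam r} [Fintype J]
  {p : Up I' J Z g c} {ν : NU p D}

theorem Up.PS.sum {K : Type} [Fintype K] {w : K → ∀ n, Z n → ℝ}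
    {w' : K → J → Cfg M (Option κ) lam r → M → ℝ} (h : ∀ i, p.PS (w i) (w' i)) :
    p.PS (fun n x => ∑ i, w i n x) fun j b x => ∑ i, w' i j b x := by
  choose f a1 a2 using fun i => (h i).ex
  exact ⟨fun n => Sb.sum _ fun i _ => (h i).sb n, ⟨_, qs_sum _ fun i _ => a1 i,
    fun b u l j x hx => Finset.sum_congr rfl fun i _ => a2 i b u l j hx⟩,
    fun b u l j => Sb.sum _ fun i _ => (h i).sb' b u l j⟩

variable (ν) in
/-- a priori bounds -/
structure NU.AP (w : ∀ n, Z n → Z n → ℝ) (x : ∀ n, Z n) (S C : ℝ) : Prop where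
  ag : ∀ n, AG (p.B n) (p.G n) (p.y n) (w n) S C
  an : ∀ n, AN (ν.K n) (p.y n) (w n) C
  wr : g.WR fun n => w n (x n) ∘ p.φ n

variable (ν) in
theorem NU.g1 {a : Option (Y → ℝ)} (ha : OF I3 a) :
    ∃ T, 0 ≤ T ∧ ∀ n, G1 (p.G n).F T ((ν.K n).fn a) :=
  let ⟨C, hC⟩ := Nka63.cbs_D_fn D ha
  ⟨_, by positivity, fun n x => (Finset.sum_le_card_nsmul _ _ (C 0 ^ 2) fun i _ =>
    sq_le_sq.2 (((hC (ν.K n) i).2 0 [] le_rfl x).trans (le_abs_self _))).trans_eq (nsmul_eq_mul ..)⟩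

variable {w : ∀ n, Z n → Z n → ℝ} {x : ∀ n, Z n} {S C : ℝ}

/-- **LEAF CVB** -/
theorem NU.AP.cv (k : ν.AP w x S C) {f : ∀ n, Z n → ℝ} {A : ℕ → ℝ} (hf : ∀ n, (p.G n).F.CBs (f n) A)
    {a a' : Option (Y → ℝ)} (ha : OF I3 a) (ha' : OF I3 a') : ν.CV f a a' := by
  obtain ⟨T, T0, hT⟩ := ν.g1 ha
  obtain ⟨T', T0', hT'⟩ := ν.g1 ha'
  refine ⟨_, _, k.wr, fun n => have i := k.ag n; Abel74.cvB_le (N := A 0 ^ 2 + T + T') i.wts i.lh.conn
    (continuous_finsetSum _ fun s _ => (((hf n).1.continuous.mul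
      (((ν.K n).cd_fn ha).2 _).choose_spec.1.continuous).mul
      (((ν.K n).cd_fn ha').2 _).choose_spec.1.continuous).smul
      (Wz78.sm_Fg i.lh.hG i.lh.conn (Std94.sm_pg i.lh.hB i.lh.ok) s).continuous)
    (zero_le_one.trans i.le.one) i.le.int i.le.F (fun z => ?_) (fun z => ?_) (fun z => ?_) _⟩
  · linarith [show f n z ^ 2 ≤ _ from sq_le_sq.2 (((hf n).2 0 [] le_rfl z).trans (le_abs_self _))]
  · linarith [hT n z, sq_nonneg (A 0)]
  · linarith [hT' n z, sq_nonneg (A 0)]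

theorem NU.AP.cvt (k : ν.AP w x S C) {T : YT Y} (hT : T.OK I3) : ν.CVT T := by
  cases T with
  | cv C f f' a a' l =>
    obtain ⟨A, hA⟩ := cbs_ext D hT.2.2.1
    exact k.cv (fun n => hA (ν.K n)) hT.2.2.2.1 hT.2.2.2.2.1
  | _ => trivial

namespace NU.OK
open Up
variable (h : ν.OK)
include h

theorem χ4_off (i : J) : ∀ x ∉ (ν.K' i).ψ.target, (ν.K' i).χ4 x = 0 :=
  fun _ hx => ct_zero fun k => hx ((ν.K' i).dp_sub four_pos k)

theorem χ4 (n : α) (x : X n) : (ν.K n).χ4 (p.φ n x) = (ν.K₁ n).χ4 x := (h.r n).χ4 (mem_univ x)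

theorem pc4 : p.PC (fun n => (ν.K n).χ4) fun j => (ν.K' j).χ4 :=
  ⟨fun n => (ν.K n).cb_cut four_pos, ⟨_, by simpa only [h.χ4] using h.S.fc_χ4 h.up.bk.ok c,
    h.ag h.χ4_off⟩, fun _ => sm_cut _ four_pos⟩

theorem e2_eq (n : α) (x : X n) : e2 (ν.K n) (p.y n) (p.φ n x) = e2 (ν.K₁ n) (c n) x := by
  rw [e2, e2, norm_smul, norm_smul, h.χ4, norm_nt (h.up.pb n) (h.up.bk.adm n) (h.up.lh n).sm
    ((h.up.pb n).kg.toLG.dr (ν.K₁ n).sm_τ (ν.K n).sm_τ (h.r n).τ)]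

theorem cv_e2 {b u} (l : g.LB c b u) : ∃ f', Continuous f' ∧ (∀ x, 0 ≤ f' x) ∧
    Cv I₀ g.l (g.S c)ᶜ (fun n x => e2 (ν.K₁ n) (c n) (g.ψ n x)) f' ∧
    ∀ j, EqOn f' (e2 (ν.K' j) b) (p.O j) := by
  have k := h.up.bk
  have f1 := h.S.fc_χ4 k.ok c
  have f2 := h.S.fc_Dτ k.ok c
  have a := (Gs.LV.sum fun a => (((Gs.QV.Φ k).lim b u l).nab l.lim k.ok k.adm
    (fun n => (k.adm n).sm) a).smul (f2 a).sm ((f2 a).cv.mono le_rfl Gs.sub_S)).smul f1.sm
      (f1.cv.mono le_rfl Gs.sub_S)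
  refine ⟨_, f1.sm.continuous.mul (a.sm.continuous.norm.pow 2), fun x => mul_nonneg
    (Finset.sum_nonneg fun _ _ => ct_mem.1) (sq_nonneg _), ((f1.cv.mono le_rfl Gs.sub_S).mul
      (a.cv.post_smooth (contDiff_norm_sq ℝ))).congr (fun x hx => (l.lim.nr k.ok k.adm hx).mono
        fun q hq => congrArg (_ * · ^ 2) (hq.me.norm ?_).symm) fun _ _ => rfl, fun j x hx => ?_⟩
  · rw [map_smul]; exact congrArg _ (p_nt (ad0 (k.adm q.1)) _ _)
  · simp only [e2, nt, Pi.mul_apply, Pi.pow_apply, h.ag h.χ4_off j hx,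
      fun a => h.ag (fun i x hx => D_τ_off (ν.K' i) hx a) j hx]

/-- **LEAF EW** -/
theorem ew (k : ν.AP w x S C) {N : ND Y lam} (hN : N.OK D) : ν.EW N := by
  have τ : OF I3 (none : Option (Y → ℝ)) := fun _ k => nomatch k
  have P : p.PS (fun n => e1 (ν.K n) N (p.y n)) fun j b => e1 (ν.K' j) N b :=
    h.pc4.ps.mul (.sum fun i => by
      have o : OF I3 (some (N.y i)) := fun _ k => by cases k; exact hN.sy i
      obtain ⟨A, hA⟩ := cbs_cut D
      obtain ⟨_, _, k1, k2⟩ := k.cv (fun n => hA (ν.K n) 4 four_pos) τ o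
      have a := PA.cv h.up k1 h.pc4 (h.pd τ) (h.pd o) k2
      exact (a.inner h.up a).congr (fun _ _ => (real_inner_self_eq_norm_sq _).symm)
        fun _ _ _ => (real_inner_self_eq_norm_sq _).symm)
  have i : ∀ n, LB (p.G n).F.μ (e2 (ν.K n) (p.y n)) C := fun n => (k.an n).en.mono
    (ct_e2 _ (ad0_of (h.up.lh n))).aestronglyMeasurable (e2_nn _ _) (e2_en _ _)
  have e := fun n => wn_ew (ν.K n) N (p.y n) hN.δ0 (P.sb n) (int_χ _ (i n).1)
  refine ⟨?_, fun b u l j t => ?_⟩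
  · obtain ⟨A, hA⟩ := h.bd_win hN.δ0 P
    exact ⟨A 0 + N.δ * C, hA.mono fun n hn t => (e n t).trans_le (add_le_add
      ((le_abs_self _).trans (hn.2 0 0 le_rfl t)) (wn_le _ hN.δ0 (i n) (e2_nn _ _) t))⟩
  · obtain ⟨f', a1, a2, a3, a4⟩ := h.cv_e2 l
    obtain ⟨T, T0, hT⟩ := ν.g1 τ
    have i₁ := fun n => lb_pull (h.up.pb n).kg (i n) (e2_nn _ _)
    have d := fun n => dom_pull (h.up.pb n).kg
      (((k.ag n).nab.mul T0).mono le_rfl (e2_gr (ν.K n) (p.y n) (hT n)))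
    simp only [h.e2_eq] at i₁ d
    have q : (fun x => (ν.K' j).χ x * f' x) = fun x => (ν.K' j).χ x * e2 (ν.K' j) b x :=
      funext fun x => by
        by_cases k : x ∈ (ν.K' j).dp 1
        · rw [a4 j (h.sub j ((ν.K' j).dp_sub one_pos k))]
        · rw [(ν.K' j).χ_zero k, zero_mul, zero_mul]
    have := h.win2 hN.δ0 (fun n => ct_e2 _ (h.up.bk.adm n)) a1 (fun _ => e2_nn _ _) a2 i₁ l
      a3 (fun x hx => nc_of_dom h.up.bk.ok hx (fun _ => e2_nn _ _) (.of_forall d)) j t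
    rw [wn_ew _ N b hN.δ0 (P.sb' b u l j) (q ▸ int_χ _
      (lb_lim h.up.bk a1 (fun _ => e2_nn _ _) a2 i₁ l a3).1), ← q]
    simp only [e, h.wn_eq (fun n => e2 (ν.K n) (p.y n)), h.e2_eq]
    exact (h.win hN.δ0 P l j t).add this

end NU.OK

end Crest.Agent.X212.Cqn41
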