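import Crest.Agent.X212.Cqn41.Q1

/-!
# Row 212, CQ-NK (helper41): the non-gradient terms
-/

set_option autoImplicit false
set_option linter.unusedSectionVars false
noncomputable section
open Set Function Filter Topology MeasureTheory
open scoped ContDiff Manifold InnerProductSpace NNReal

namespace Crest.Agent.X212.Cqn41
open An Cmp73 Eqv71 Nd18 Dgr80 Shi84
open Abel74 (Lh CvB)
open M (NkS NkC)
open Wz78 (nab SA)
open Wrd81 (wd)
open ContinuousLinearMap (adjoint)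

variable {E : Type} [NormedAddCommGroup E] [NormedSpace ℝ E] [FiniteDimensional ℝ E]
  [MeasurableSpace E] [BorelSpace E]
  {HM : Type} [TopologicalSpace HM] {I : ModelWithCorners ℝ E HM} [I.Boundaryless]
  {E₀ : Type} [NormedAddCommGroup E₀] [NormedSpace ℝ E₀] [FiniteDimensional ℝ E₀]
  [MeasurableSpace E₀] [BorelSpace E₀]
  {H₀ : Type} [TopologicalSpace H₀] {I₀ : ModelWithCorners ℝ E₀ H₀} [I₀.Boundaryless]
  {E' : Type} [NormedAddCommGroup E'] [NormedSpace ℝ E'] [FiniteDimensional ℝ E']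
  [MeasurableSpace E'] [BorelSpace E']
  {H' : Type} [TopologicalSpace H'] {I' : ModelWithCorners ℝ E' H'} [I'.Boundaryless]
  {M : Type} [TopologicalSpace M] [ChartedSpace H₀ M] [IsManifold I₀ ∞ M] [MeasurableSpace M]
  [BorelSpace M] [T2Space M] [SecondCountableTopology M] {lam α J : Type} [Fintype lam]
  {X : α → Type} [∀ n, TopologicalSpace (X n)] [∀ n, ChartedSpace HM (X n)]
  [∀ n, IsManifold I ∞ (X n)] [∀ n, MeasurableSpace (X n)] [∀ n, BorelSpace (X n)]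
  [∀ n, T2Space (X n)] [∀ n, SecondCountableTopology (X n)]
  {Z : α → Type} [∀ n, TopologicalSpace (Z n)] [∀ n, ChartedSpace H' (Z n)]
  [∀ n, IsManifold I' ∞ (Z n)] [∀ n, MeasurableSpace (Z n)] [∀ n, BorelSpace (Z n)]
  [∀ n, T2Space (Z n)] [∀ n, SecondCountableTopology (Z n)] {r : ℕ}


theorem me_norm_p2 {ι : Type} [Fintype ι] {M' : Type} [TopologicalSpace M'] {B : Base M ι lam} {B' : Base M' ι lam} {m : Md M ι lam} {m' : Md M' ι lam}
    {x : M} {x' : M'} {U v u} (e : ME m x m' x' U v u) (b : BE B x B' x' U v) (hB : B.OK I₀)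
    (ξ : Fm (ι × ι) m.A) : ‖ridx (sq2 U) (cj u) (m.p2 B x ξ)‖ = ‖m.p2 B x ξ‖ := by
  rw [norm_eq_sqrt_real_inner, norm_eq_sqrt_real_inner (m.p2 B x ξ), inner_ridx _ (inner_cj _),
    ridx_ridx, ridx_congr (T' := ContinuousLinearMap.id ℝ _) _ fun t => e.trn_cj (p2_mem x ξ t)]
  have h1 : (fun (a c : ι × ι) => ∑ r, sq2 U r a * sq2 U r c) = sq2 fun a b => B.P a b x := by
    funext a c
    have := sq2_mul (fun a b => U b a) U a c
    simp only [b.UU] at this
    exact this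
  rw [h1, Md.p2, idx_eq, ridx_ridx]
  simp only [P2_sd hB, ContinuousLinearMap.id_comp]

theorem sm_nf {κ : Type} [Fintype κ] {k : (κ → ℝ) → ℝ} (hk : ContDiff ℝ ∞ k) :
    ContDiff ℝ ∞ fun x : κ → ℝ => k fun i => x i / √(1 + x i ^ 2) :=
  hk.comp (contDiff_pi.2 fun i => (contDiff_apply ℝ ℝ i).div
    ((contDiff_const.add ((contDiff_apply ℝ ℝ i).pow 2)).sqrt fun x => by positivity)
    fun x => by positivity)

theorem sm_out {C : YTC} (hC : ContDiff ℝ ∞ C.k) : ContDiff ℝ ∞ C.out.k :=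
  have e := contDiff_apply (n := ∞) ℝ ℝ (0 : Fin (C.m + 1))
  (e.div ((contDiff_const.add (e.pow 2)).sqrt fun x => by positivity) fun x => by positivity).mul
    (hC.comp (contDiff_pi.2 fun i => contDiff_apply ℝ ℝ i.succ))

variable {E3 : Type} [NormedAddCommGroup E3] [NormedSpace ℝ E3] [FiniteDimensional ℝ E3]
  [MeasurableSpace E3] [BorelSpace E3]
  {H3 : Type} [TopologicalSpace H3] {I3 : ModelWithCorners ℝ E3 H3} [I3.Boundaryless]
  {Y : Type} [TopologicalSpace Y] [ChartedSpace H3 Y] [IsManifold I3 ∞ Y] [T2Space Y]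
  [MeasurableSpace Y] [BorelSpace Y] [SecondCountableTopology Y] [CompactSpace Y]
  {κ : Type} [Fintype κ] {D : YD I3 Y κ lam}

section one
variable {B : Base M (Option κ) lam} {G : Geo I₀ M (Option κ) lam} (K : Nk D B G) (N : ND Y lam)
  {c : Cfg M (Option κ) lam r} (h : Ad0 c B G)
include h

theorem ct_ew : Continuous (N.ew K c) ∧ ∀ x, 0 ≤ N.ew K c x := by
  have e : Continuous K.χ4 := contDiff_ct.continuous.comp K.cont
  refine ⟨e.mul ((continuous_finsetSum _ fun i _ => (sb_res _ _ _).sm.continuous.norm.pow 2).add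
    ((e.smul (continuous_finsetSum _ fun a _ => (G.F.sm_D K.sm_τ a).continuous.smul
      (Wz78.sm_nab (mc_W h.conn).sm a h.sm).continuous)).norm.pow 2)),
    fun x => mul_nonneg ct_mem.1 ?_⟩
  unfold Dgr80.ew
  positivity

theorem val_cb (hδ : 0 < N.δ) {C : YTC} (hC : ContDiff ℝ ∞ C.k) :
    ContDiff ℝ ∞ ((N.tc K C).val G.F K.τ N.δ c) ∧ ∃ R, ∀ t, ‖(N.tc K C).val G.F K.τ N.δ c t‖ ≤ R :=
  ⟨(sm_nf hC).comp (contDiff_pi.2 fun i => (sm_wn hδ K.sm_τ.continuous.aestronglyMeasurable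
    (ct_ew K N h).1.aestronglyMeasurable).comp (contDiff_id.add (contDiff_const (c := C.s i)))),
    ((isCompact_closedBall 0 1).exists_bound_of_continuousOn hC.continuous.continuousOn).imp
      fun _ k _ => k _ (mem_closedBall_zero_iff.2 ((pi_norm_le_iff_of_nonneg zero_le_one).2 fun _ =>
        (abs_div _ _).trans_le (div_le_one_of_le₀ ((Real.abs_le_sqrt
          (le_add_of_nonneg_left zero_le_one)).trans (le_abs_self _)) (abs_nonneg _))))⟩

end one

variable {g : Gs I I₀ M (Option κ) lam X} {c : ∀ n, Cfg (X n) (Option κ) lam r} [Fintype J]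
  {p : Up I' J Z g c} {ν : NU p D}

namespace NU.OK
open Up
variable (h : ν.OK)
include h

section glue
variable {o : ∀ n, Z n → ℝ} {o' : J → Cfg M (Option κ) lam r → M → ℝ}
  (ho : g.QS c (fun n x => o n (p.φ n x)) fun b x => ∑ j, o' j b x)
  (z : ∀ b x j, x ∉ (ν.K' j).ψ.target → o' j b x = 0)
include ho z

theorem qD {s : ∀ n, Z n → (p.y n).m.V} {a : J → ∀ b : Cfg M (Option κ) lam r, M → b.m.V}
    (P : p.PV s a) : g.QV c (p.pv fun n x => o n x • nrm (s n x))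
      fun b x => ∑ j, o' j b x • nrm (a j b x) :=
  let ⟨_, a1, a2⟩ := (P.smul (P.nf h.up)).ex
  qv_congr' (a1.smul ho) (fun _ _ => map_smul ..) fun b u l x =>
    (h.glue (z b x) fun j hx => a2 b u l j hx).symm

theorem qC {ξ : ∀ n, Z n → (p.y n).m.A} {η : J → ∀ b : Cfg M (Option κ) lam r, M → b.m.A}
    (A : p.PA ξ η) {d e : ∀ n, Z n → ℝ} {d' e' : J → M → ℝ} (hd : p.PD d d') (he : p.PD e e')
    (t : Option κ × Option κ) :
    g.QA c (fun n x => p.pc (fun n x => o n x • nrm ((p.y n).m.p2 (p.B n) x (WithLp.toLp 2 fun s =>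
      ((p.G n).F.D s.1 (d n) x * (p.G n).F.D s.2 (e n) x) • ξ n x))) n x t)
      fun b x => (∑ j, o' j b x • nrm (b.m.p2 g.B₀ x (WithLp.toLp 2 fun s =>
        (g.G₀.F.D s.1 (d' j) x * g.G₀.F.D s.2 (e' j) x) • η j b x))) t := by
  have k := h.up.bk
  obtain ⟨ξ', a1, a2⟩ := A.ex
  obtain ⟨d₀, b1, b2⟩ := hd.ex
  obtain ⟨e₀, c1, c2⟩ := he.ex
  obtain ⟨φ, f1, f2⟩ := exists_nf
  have q := k.qdd Gs.QS.one b1 c1 a1
  have n := qs_comp (qs_sum Finset.univ fun s _ => qa_inner k (q s) (q s)) f1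
  simp only [real_inner_self_eq_norm_sq, ← PiLp.norm_sq_eq_of_L2, f2 _ (sq_nonneg _)] at n
  refine qa_congr' (((q t).smul n).smul ho) (fun n x => ?_) fun b u l x => ?_
  · have k := h.up.pb n
    have := congrFun (k.dd (f := fun _ => 1) (f' := fun _ => 1) (a := fun x => d n (p.φ n x))
      (b := fun x => e n (p.φ n x)) (fun _ _ => rfl) (fun _ _ => rfl) (fun _ _ => rfl) (hd.cd n).1
      (he.cd n).1 (ξ n)) x
    rw [← this]
    simp only [pC, ddS, one_mul, map_smul]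
    rw [← nrm_map _ (me_norm_p2 (k.me x) (k.be x) k.lm.hB' _)]
    rfl
  · refine congrArg (· t) (h.glue (z b x) (s := nrm (ddS b g.B₀ g.G₀.F (fun _ => 1) d₀ e₀ (ξ' b) x))
      fun j hx => ?_).symm
    simp only [ddS, one_mul, a2 b u l j hx, fun a => b2 j a hx, fun a => c2 j a hx]

end glue

variable {N : ND Y lam} (hN : N.OK D) (hE : ν.EW N)
include hN hE

/-- **the coefficient functions of time converge** -/
theorem tval {C : YTC} (hC : ContDiff ℝ ∞ C.k) {d : ℝ} (hd : 1 ≤ d)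
    (e : ∀ n x, (ν.K n).cut d ((ν.K n).tm (p.φ n x)) = (ν.K₁ n).cut d ((ν.K₁ n).tm x)) :
    (g.QS c (fun n x => (ν.K n).cut d ((ν.K n).tm (p.φ n x)) *
      (N.tc (ν.K n) C).val (p.G n).F (ν.K n).τ N.δ (p.y n) ((ν.K n).τ (p.φ n x)))
      fun b x => ∑ j, (ν.K' j).cut d ((ν.K' j).tm x) *
        (N.tc (ν.K' j) C).val g.G₀.F (ν.K' j).τ N.δ b ((ν.K' j).τ x)) ∧
    p.PS (fun n x => (ν.K n).cut d ((ν.K n).tm x) *
      (N.tc (ν.K n) C).val (p.G n).F (ν.K n).τ N.δ (p.y n) ((ν.K n).τ x))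
      fun j b x => (ν.K' j).cut d ((ν.K' j).tm x) *
        (N.tc (ν.K' j) C).val g.G₀.F (ν.K' j).τ N.δ b ((ν.K' j).τ x) := by
  have a := fun n => ad0_of (h.up.lh n)
  obtain ⟨R, hR⟩ := hE.bd
  obtain ⟨A, hA⟩ := bd_comp (sm_nf hC) (cum fun i => cb N.δ i * R)
  simpa only [mul_comm] using h.time hd e (fun n => val_cb _ N (a n) hN.δ0 hC)
    (hR.mono fun n hn => hA _ fun i => (bd_wn hN.δ0 (ν.K n).sm_τ.continuous.aestronglyMeasurable
      (ct_ew _ N (a n)).1.aestronglyMeasurable 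
        ((funext fun x => Real.norm_of_nonneg ((ct_ew (ν.K n) N (a n)).2 x)).symm ▸ hn)).shift (C.s i))
    (fun b u l j => val_cb _ N l.lim.adm hN.δ0 hC) fun b u l j t =>
      ((sm_nf hC).continuous.tendsto _).comp (tendsto_pi_nhds.2 fun i =>
        (hE.cv b u l j (t + C.s i)).congr fun _ => congrArg _ (add_right_comm ..))

theorem cw {u : List (YL Y ⊕ YTC)} (hu : tlOK I3 u) :
    p.PV (fun n => (p.y n).sw (p.G n).F
      ((u.map (N.tl (ν.K n))).map (tl (p.G n).F (ν.K n).τ N.δ (p.y n))))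
      fun j b => b.sw g.G₀.F ((u.map (N.tl (ν.K' j))).map (tl g.G₀.F (ν.K' j).τ N.δ b)) := by
  simp only [List.map_map, Function.comp_def]
  refine cW.sw h.up (e := fun t n => tl (p.G n).F (ν.K n).τ N.δ (p.y n) (N.tl (ν.K n) t))
    (e' := fun t j b => tl g.G₀.F (ν.K' j).τ N.δ b (N.tl (ν.K' j) t)) fun t ht => ?_
  have := hu t ht
  cases t with
  | inl t => exact h.slc_lt this
  | inr C => exact slc_mulV (h.tval hN hE this.1 le_rfl fun n x => (h.r n).χ (mem_univ x)).2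

theorem ca {l : List (La Y ⊕ YTC)} (hl : taOK I3 l) {ξ : ∀ n, Z n → (p.y n).m.A}
    {η : J → ∀ b : Cfg M (Option κ) lam r, M → b.m.A} (A : p.PA ξ η) :
    p.PA (fun n => wd ((p.y n).la (p.G n).F) (ξ n)
      ((l.map (N.ta (ν.K n))).map (ta (p.G n).F (ν.K n).τ N.δ (p.y n))))
      fun j b => wd (b.la g.G₀.F) (η j b)
        ((l.map (N.ta (ν.K' j))).map (ta g.G₀.F (ν.K' j).τ N.δ b)) := by
  simp only [List.map_map, Function.comp_def]
  refine cV.la h.up (d := fun t n => ta (p.G n).F (ν.K n).τ N.δ (p.y n) (N.ta (ν.K n) t))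
    (d' := fun t j b => ta g.G₀.F (ν.K' j).τ N.δ b (N.ta (ν.K' j) t)) (fun t ht => ?_) A
  have := hl t ht
  cases t with
  | inl t => exact h.slc_la this
  | inr C => exact slc_mulA (h.tval hN hE this.1 le_rfl fun n x => (h.r n).χ (mem_univ x)).2

omit hN hE in
/-- **CQ-NK for the non-gradient terms** -/
theorem q2 (m : ℕ) : ν.Q2 m := fun N hN hE T hT hc => by
  have e : (1 : ℝ) ≤ 3 := by norm_num
  have o := (h.tval hN hE (sm_out (C := T.C) (by cases T <;> exact hT.1.1)) e fun n x => by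
    rw [← Nk.cut_τ _ e, ← Nk.cut_τ _ e, h.τ, h.cut3]).1
  simp only [← Nk.cut_τ _ e] at o
  have z : ∀ (b : Cfg M (Option κ) lam r) x j, x ∉ (ν.K' j).ψ.target → N.oc (ν.K' j) T b x = 0 :=
    fun b x j hx => by
    rw [ND.oc, Nk.cut_τ _ e, show (ν.K' j).cut 3 ((ν.K' j).tm x) = 0 from ct_zero fun k => hx
      ((ν.K' j).dp_sub (by norm_num) k), zero_mul]
  have qd := fun {s a} => h.qD (o := fun n => N.oc (ν.K n) T (p.y n)) o z (s := s) (a := a)
  have qc := fun {ξ η d e d' e'} A => h.qC (o := fun n => N.oc (ν.K n) T (p.y n)) o z (ξ := ξ)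
    (η := η) A (d := d) (e := e) (d' := d') (e' := e')
  have τ := h.pd (a := none) fun _ k => nomatch k
  have s : ∀ i : Fin m, g.QC c (fun _ => (0 : ℂ)) fun _ => ∑ _j : J, (0 : ℂ) := fun _ _ _ _ => by
    simpa only [Finset.sum_const_zero] using tendsto_const_nhds
  cases T with
  | lin C u =>
    exact .of (qd ((h.cw hN hE hT.2).pm h.up)) (fun t => (Gs.QA.zero h.up.bk).congr
      (fun n x => by simp [ND.q2, ND.tm, TT.tm, Cfg.tC, nrm])
      fun b x => by simp [psum, ND.q2, ND.tm, TT.tm, Cfg.tC, nrm]) s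
  | ad C f u v l =>
    obtain ⟨-, h1, h2, h3, h4⟩ := hT
    exact .of (qd (PV.zero h.up)) (qc (h.ca hN hE h4 (PA.q h.up (h.cw hN hE h2) (h.cw hN hE h3))) τ
      (h.pd (a := some f) fun _ k => by cases k; exact h1)) s
  | cv C f f' a a' l =>
    obtain ⟨-, h1, h2, h3, h4, h5⟩ := hT
    obtain ⟨K, w, k1, k2⟩ := hc
    exact .of (qd (PV.zero h.up)) (qc (h.ca hN hE h5 (PA.cv h.up k1 (h.pc h2) (h.pd h3) (h.pd h4) k2))
      τ (h.pd (a := some f) fun _ k => by cases k; exact h1)) s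

end NU.OK

end Crest.Agent.X212.Cqn41
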