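import Crest.Agent.X212.Cqn41.Nr1

/-!
# Row 212, NT-R: the assembly
-/

set_option autoImplicit false
set_option linter.unusedSectionVars false
noncomputable section
open scoped Manifold ContDiff Topology InnerProductSpace Real
open MeasureTheory Set Function Filter

namespace Crest.Agent.X212.Nr41
open An M Nd18 Mod61 Nk89 Cht98 Rf65 Pte3 Qab60 Prm93 Num57 Sob92
open An.Job (Sol)
open Dr59 (dM)
open Nt66 (sp rf rx NG)

section scene
open G75 Ins26 Jb7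
variable {κ lam : Type} [Fintype κ] [Fintype lam] [DecidableEq lam] {Lm : LM κ lam}
  {S : Scene Lm} {D : S.Dat} {i : S.L} {Wi : Type} {r n : ℕ}
  {J : Job Wi (D.Λ i) (S.A ⊕ Unit) S.ls r n} {c : S.M.Cl} {δ : ℝ} {σ : Cel (S.A ⊕ Unit)} {R : S.A}
  {b : Bp J c} {E : ER σ R b δ}
  {q : Wi →₀ ℝ} {y : J.Obc c} {x : Pnt E.o r} {ψ : E.K} {ξ : (D.W.Z c).M → E.o.m.A}
  (C : Cr q y x ψ ξ) (f : E.C → E.Y)

/-- the leaves at one situation -/
structure At : Prop where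
  ix : Ix C
  la : La C f
  lf : Lf C f
  ad : AltD C f
  rd : RchD f C
  ac : AltC C f
  lt : Lt f C
  lab : Lab C f
  hsa : Hsa C f
  rfl : Rfl C f
  gau : Gau C f
  rt : RchT C f
  rc : RchC C f

variable {f}
section
include C

theorem Cr.act : Act J.m c R (some false) (J.Θ y.s) :=
  ⟨C.np, C.an.ok.memBr C.an.mem C.sol.ov, C.an.ok.memO C.an.mem C.sol.ov, C.one.ge rfl⟩

theorem Cr.nrm {z} (hz : z ∈ oI D.W c R) : ‖ξ z‖ ^ 2 = 16 :=
  Abel74.norm_sq E.o.ok (C.ins.ab.rd.mem z hz) (C.ins.ab.rd.sq z hz)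

theorem Cr.sub {z v} (k : (rf E x.t {hp R false} ∅ ∅).P1 z v = v) : E.o.P1 z v = v := by
  by_cases hz : z ∈ D.W.un c {hp R false}
  · refine Eq.trans (congrArg (fun t => idx _ t v) ?_) k
    exact (indicator_of_mem (biUnion_subset_biUnion_left sub_in hz) _).trans
      (indicator_of_mem hz _).symm
  · have : (rf E x.t {hp R false} ∅ ∅).Pg z = 0 := indicator_of_notMem hz _
    have : v = 0 := k.symm.trans (by
      ext1 a
      simp [Ref.P1, this])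
    rw [this, map_zero]

end

theorem Cr.hs {α} (k : α ∈ HA C) :
    α ∈ Mod61.Hs (b.F (pW J c (shX S {R}) σ R) (UR J c R) δ).F0.toPre E.o.P1 :=
  Nt66.hs_ex C.cs.F.sup (fun _ _ => C.sub) k

variable {C}

theorem At.tg (H : At C f) {α} (k : α ∈ HA C) {η : E.K} (hη : ∀ l, l.1 ∉ Hi J R → η l = 0) :
    Tg ∅ (oI D.W c R) (Hi J R) (Ld f x ψ (va E α η)) :=
  (H.ix ∅ (empty_subset _)).elim fun g hg =>
    (H.la g hg.1 (ofV _ 9 _ α) _ η ((val_ofV (C.hs k) (by norm_num)).trans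
      (val_ofV k (by norm_num)).symm) hη).1

theorem rg_of {X Y : Type} [AddCommGroup X] [Module ℝ X] [TopologicalSpace X] [AddCommGroup Y]
    [Module ℝ Y] [TopologicalSpace Y] {L : X →L[ℝ] Y} {u e₀ e} {τ : ℝ} (h0 : e₀ ∈ range L)
    (h : L u + τ • e₀ - e ∈ range L) : e ∈ range L := by
  obtain ⟨v, rfl⟩ := h0
  obtain ⟨w, hw⟩ := h
  exact ⟨u + τ • v - w, by rw [map_sub, hw, map_add, map_smul, sub_sub_cancel]⟩

theorem At.ha (H : At C f) {d e₀} {u : (D.W.Z c).M → _} (hd : δ < d) (r0 : e₀ ∈ range (Ld f x ψ))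
    (t0 : Tg ∅ (oI D.W c R) (Hi J R) e₀) (v0 : ∀ z, vC e₀ z = tn (u z) (ξ z))
    (hT : Ht (Ld f x ψ) ∅ ∅ (Hi J R)) (ont : ∀ T g, Tst J c R y.s C.act T g → ∃ a, ∃ τ : ℝ,
      Dk J c R y.s C.act d a ∧ ∀ z ∈ oI D.W c R, aE J c q y.s (dM (D.W.Z c).I a) z + τ • u z = g z) :
    Ha f C := fun g g1 g2 g3 g4 e te ve =>
  (IsCompact.bddAbove_image g2 (kI J c R y.s C.act).cont.continuousOn).elim fun T hT' =>
  (ont T g ⟨g1, g4, fun z k => ⟨by_contra fun e => k (g3 z e),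
    hT' (mem_image_of_mem _ (subset_tsupport g k))⟩⟩).elim fun a k => k.elim fun τ k =>
  (H.hsa.1 C.act d a hd k.1).elim fun β m => by
  have t1 : Ld f x ψ (va E β 0) + τ • e₀ - e ∈ tgS E ∅ (oI D.W c R) (Hi J R) :=
    sub_mem (add_mem (H.tg m.1 fun _ _ => Eq.refl _) (Submodule.smul_mem _ _ t0))
      ⟨te.D, te.C, te.S, fun l _ => te.T l id⟩
  refine rg_of r0 (hT _ ⟨t1.D, fun z _ => ?_, t1.S, t1.T⟩)
  by_cases hz : z ∈ oI D.W c R
  swap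
  · exact t1.C z hz
  refine (vC_sub _ _ z).trans ?_
  rw [vC_add, vC_smul, H.lab a k.1.fo k.1.off β m.1 m.2 0 z hz, v0, ve, ← k.2 z hz]
  ext1 s
  simp [tn, add_smul, smul_smul]

/-- the inner targets are hit if no perturbation enlarges the range -/
theorem At.ht (H : At C f) (st : Stk σ q y x ψ f) :
    Ht (Ld f x ψ) (oI D.W c R) (oI D.W c R) (Hi J R) := by
  refine Ht.DC ((H.ad H.ix H.lf).elim id fun k => k.elim fun φ k =>
    H.rd st φ k.1 k.2.1 k.2.2.1 k.2.2.2) ?_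
  obtain ⟨d, hd, tk⟩ := C.ins.tak
  obtain ⟨j, hj, tk⟩ := tk C.act
  obtain ⟨u, hu, e₀, r0, t0, s0, v0⟩ := H.lt j hj
  obtain ⟨ont, ker⟩ := tk u hu
  refine (H.ac H.ix H.la e₀ r0 t0 s0).elim id fun K => ?_
  obtain ⟨α, η, τ, K⟩ := K
  obtain ⟨a, α', m', fo, off, l1, l2, ea, en⟩ := H.hsa.2 α K.mem
  have e1 : ∀ z ∈ oI D.W c R, aE J c q y.s (dM (D.W.Z c).I a) z + τ • u z = 0 := fun z hz => by
    ext1 s
    have k := congrArg (fun e => ⟪vC e z s, ξ z⟫_ℝ) K.eq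
    simp only [va_sub C.cs.F (C.hs K.mem) (C.hs m') η, map_add, vC_add, vC_smul, v0,
      H.lab a fo off α' m' ea η z hz, PiLp.add_apply, PiLp.smul_apply, inner_add_left,
      H.rfl _ (sub_mem K.mem m') en 0 z s, tn, real_inner_smul_left, real_inner_self_eq_norm_sq,
      C.nrm hz] at k
    have k0 : ⟪vC (0 : E.Y) z s, ξ z⟫_ℝ = 0 := by
      rw [show vC (0 : E.Y) z = 0 from congrFun val_zero z]; simp
    rw [k0] at k
    simp only [PiLp.add_apply, PiLp.smul_apply, PiLp.zero_apply, smul_eq_mul]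
    linarith
  obtain ⟨rfl, da⟩ := ker a τ fo off l1 l2 e1
  have kn : Kn C f α η := ⟨K.mem, by simpa using K.eq, H.gau α K.mem (K.ne.resolve_right (by simp))
    K.row a fo da fun z _ s => by
      have : fa E x.t α z s - c1 (J.G c y.s).F a z s • ξ z = fa E x.t (α - α') z s := by
        rw [show c1 (J.G c y.s).F a z s • ξ z = fa E x.t α' z s by rw [ea]; rfl]
        simp only [fa, Pi.sub_apply, map_sub, PiLp.sub_apply]
      rw [this, fa, Eqv71.idx_apply, sum_inner]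
      exact Finset.sum_eq_zero fun t _ => by
        rw [real_inner_smul_left, ContinuousLinearMap.id_apply, en, mul_zero]⟩
  have hT := H.rt st α η kn
  exact Ht.CT (H.rc st (H.ha hd r0 t0 v0 hT ont) α η kn) hT

variable (Lm) in
/-- the leaves -/
structure Lv : Prop where
  map : ∀ (S : Scene Lm) (D : S.Dat) i Wi r n (J : Job Wi (D.Λ i) (S.A ⊕ Unit) S.ls r n) c,
    MapStmt J c ∧ FinStmt J c
  cx : CxStmt Lm
  reg : ∀ (S : Scene Lm) (D : S.Dat) i Wi r n (J : Job Wi (D.Λ i) (S.A ⊕ Unit) S.ls r n) c R Es b' z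
    j n₀ T, JR J R Es b' z j n₀ T → c.1 = {R} → PJ J c →
    ∃ δ₀ > 0, ∀ δ ∈ Ioc 0 δ₀, ∀ σ, Nt93.RegTr J c δ (shX S {R}) σ n₀
  ix : All Lm fun C _ => Ix C
  la : All Lm La
  lf : All Lm Lf
  ad : All Lm AltD
  rd : All Lm fun C f => RchD f C
  ac : All Lm AltC
  lt : All Lm fun C f => Lt f C
  lab : All Lm Lab
  hsa : All Lm Hsa
  rfl : All Lm Rfl
  gau : All Lm Gau
  rt : All Lm RchT
  rc : All Lm RchC

theorem All.and {P P'} (h : All Lm P) (h' : All Lm P') : All Lm fun C f => P C f ∧ P' C f :=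
  fun S D i Wi r n J c k1 k2 =>
    let ⟨δ, d0, k⟩ := h S D i Wi r n J c k1 k2
    let ⟨δ', d0', k'⟩ := h' S D i Wi r n J c k1 k2
    ⟨min δ δ', lt_min d0 d0', fun ε e σ R b E q y x ψ ξ C f m =>
      ⟨k ε ⟨e.1, e.2.trans (min_le_left _ _)⟩ σ R b E q y x ψ ξ C f m,
        k' ε ⟨e.1, e.2.trans (min_le_right _ _)⟩ σ R b E q y x ψ ξ C f m⟩⟩

theorem Lv.at (L : Lv Lm) : All Lm At := fun S D i Wi r n J c k1 k2 =>
  let ⟨δ, d0, k⟩ := (L.ix.and (L.la.and (L.lf.and (L.ad.and (L.rd.and (L.ac.and (L.lt.and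
    (L.lab.and (L.hsa.and (L.rfl.and (L.gau.and (L.rt.and L.rc)))))))))))) S D i Wi r n J c k1 k2
  ⟨δ, d0, fun ε e σ R b E q y x ψ ξ C f m =>
    let ⟨a1, a2, a3, a4, a5, a6, a7, a8, a9, a10, a11, a12, a13⟩ := k ε e σ R b E q y x ψ ξ C f m
    ⟨a1, a2, a3, a4, a5, a6, a7, a8, a9, a10, a11, a12, a13⟩⟩

/-- **NT-R** -/
theorem ntr (L : Lv Lm) : NtrStmt Lm (TA Lm) := fun S D i Wi r n J c R Es b' z j n₀ T jr e pj => by
  obtain ⟨δ₁, d1, hA⟩ := L.at S D i Wi r n J c jr.gx.ok pj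
  obtain ⟨δ₂, d2, hR⟩ := L.reg S D i Wi r n J c R Es b' z j n₀ T jr e pj
  refine ⟨min δ₁ δ₂, lt_min d1 d2, fun δ hδ => .of fun Adm σ H q y a ad s fa rg dm t => ?_⟩
  have hR := hR δ ⟨hδ.1, hδ.2.trans (min_le_right _ _)⟩ σ
  rcases t with ⟨ok, ⟨𝒮, q0, op, ins⟩ | t⟩
  swap
  · exact Cyl58.Oud.ntD H.toH1 hR e q y a ad s fa rg dm ⟨ok, t⟩
  obtain ⟨rfl, cx⟩ := L.cx S D i Wi r n J c R Es b' z j n₀ T δ σ Adm jr e H q y a ad s fa ok
  intro b E x ψ g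
  have cr := fun q' (k : q' ∈ 𝒮) => let ⟨k1, ξ, k2⟩ := ins q' k; cx b E x ψ g q' ξ k1 k2
  obtain ⟨ξ, C⟩ := cr q q0
  obtain ⟨hM, hF⟩ := L.map S D i Wi r n J c
  obtain ⟨ex, Dl, hD⟩ := hM δ σ _ _ b E x ψ C.cs
  refine drop_ch (O := oI D.W c a) (O' := oI D.W c a) (Hs := Hi J a) ex hD
    (fun q' f m => hF δ σ _ _ b E x ψ q' _ f C.cs (C.an.spl.ch σ _ _ _ b E y x ψ q'
      ⟨C.an.ok, C.an.mem, C.cs.pok, pj, Mp86.St.muOK _⟩ s.ov C.ch) m) s q0 op (fun f hf u => ?_)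
    fun q' h1 g hg => (cr _ h1).elim fun ξ' C' =>
      (hA δ ⟨hδ.1, hδ.2.trans (min_le_left _ _)⟩ σ a b E _ y x ψ ξ' C' g hg).ht
  obtain ⟨v, -, -, h1, h2, h3⟩ := hR H.toAnH q y a s fa rg (C.dz true) b E x ψ g f hf u
  exact ⟨v, fun z k => (h1 z (Cyl58.Oud.mem_out e k)).1, fun z k => (h1 z (Cyl58.Oud.mem_out e k)).2,
    h2, fun l k => h3 l (Cyl58.Oud.cut_out H.loc l.2 k)⟩

end scene
end Crest.Agent.X212.Nr41
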