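import Crest.Agent.X212.Qab60.Lh
import Crest.Agent.X212.Nt66.Lv
import Crest.Agent.X212.Nt93.Defs

/-!
# Row 212, NT-R: the text of `TA` and the leaves of `Rf65.NtrStmt`
-/

set_option autoImplicit false
set_option linter.unusedSectionVars false
noncomputable section
open scoped Manifold ContDiff Topology InnerProductSpace Real
open MeasureTheory Set Function Filter
open Crest.Agent.R208.F (Ext)

namespace Crest.Agent.X212.Nr41
open An M Nd18 Mod61 Nk89 Cht98 Rf65 Pte3 Qab60 Prm93 Num57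
open An.Job (Sol)
open Dr59 (dM pm)
open Cyf70 (IC)
open Hol14 (flux)
open Nt66 (sp rf rx NG)

section job
variable {Wi : Type} {X : Mf 4} {A κ lam : Type} [Fintype A] [Fintype κ] [Fintype lam]
  [DecidableEq lam] {M : Mark X A κ} {W : World M} {N : ML M lam} {Λ : Lns W N}
  {A' h : Type} [Fintype A'] [DecidableEq A'] [Fintype h] {r n : ℕ}
  (J : Job Wi Λ A' h r n) (c : M.Cl) (R : A)

section
variable (q : Wi →₀ ℝ) (s : A' → ℝ)

/-- one-forms inside that decay at the rate `d` -/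
structure Dk (ha : Act J.m c R (some false) (J.Θ s)) (d : ℝ) (a : (W.Z c).M → Ext (W.Z c).E) :
    Prop where
  fo : Fo (W.Z c).I 1 a
  off : Off (oI W c R) a
  dc : ∃ T, 0 ≤ T ∧ Dc (J.xs R).D.F T d (c1 (J.xs R).D.Z
    (pm (IC (J.xs R).Y.I) (W.Z c).I (kI J c R s ha).ψ a))

/-- `u` is the derivative of the abelian equation along the coordinate `i` -/
structure Dv (f : (W.Z c).M → Ext (W.Z c).E) (i : A') (u : (W.Z c).M → V2 (Option κ)) : Prop where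
  sm : Sm (W.Z c).I u
  off : Off (oI W c R) u
  der : ∀ z ∈ oI W c R, HasDerivAt (fun t => aE J c q (update s i t) f z) (u z) (s i)

/-- free coordinates inside -/
def Fi (σ : Cel A') (i : A') : Prop :=
  σ i = none ∧ (∃ e ∈ M.sys.inn (hp R false), J.hd i = some e) ∧ s i ∈ Ioo (0 : ℝ) 1

/-- **the abelian part with one free coordinate is onto and has only gauge kernel** -/
def TAk (σ : Cel A') (d : ℝ) (f : (W.Z c).M → Ext (W.Z c).E) : Prop :=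
  ∀ ha : Act J.m c R (some false) (J.Θ s), ∃ i, Fi J R s σ i ∧ ∀ u, Dv J c R q s f i u →
    (∀ T g, Tst J c R s ha T g → ∃ a, ∃ τ : ℝ, Dk J c R s ha d a ∧
      ∀ z ∈ oI W c R, aE J c q s (dM (W.Z c).I a) z + τ • u z = g z) ∧
    ∀ a (τ : ℝ), Fo (W.Z c).I 1 a → Off (oI W c R) a → MemLp (c1 (J.G c s).F a) 2 (J.G c s).F.μ →
      Sq (J.G c s).F (dM (W.Z c).I a) →
      (∀ z ∈ oI W c R, aE J c q s (dM (W.Z c).I a) z + τ • u z = 0) →
      τ = 0 ∧ ∀ z ∈ oI W c R, dM (W.Z c).I a z = 0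

/-- the inside of a configuration on the side `D² × S² # n (-ℂP²)` -/
structure Ins (δ : ℝ) (σ : Cel A') (x : Cg' W c lam r) (ξ : (W.Z c).M → x.m.A) : Prop where
  sc : SC (oI W c R)
  ab : Ab (J.B c) (J.G c s) (oI W c R) x ξ
  ne : ∃ z ∈ oI W c R, x.m.Fg (J.G c s).F x.W z ≠ 0
  tak : ∃ d > δ, TAk J c R q s σ d (xf J c s x ξ)
  cut : ∀ l, Inn J R l →
    |flux (W.Z c).I (J.cut c l) (xf J c s x ξ)| = 2 * π ∧ Line J c q s x l

end

variable {J c R}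

/-- the perturbations that keep the solution `y` -/
def Kp (σ : Cel A') (y : J.Obc c) : Submodule ℝ (Wi →₀ ℝ) where
  carrier := {p | ∀ q, Sol σ q y → ∀ t : ℝ, Sol σ (q + t • p) y}
  zero_mem' := fun q k t => by rwa [smul_zero, add_zero]
  add_mem' := fun h1 h2 q k t => by rw [smul_add, ← add_assoc]; exact h2 _ (h1 q k t) t
  smul_mem' := fun a _ h1 q k t => by rw [smul_smul]; exact h1 q k _

variable (R) in
/-- the robust form: `Ins` holds on a set of perturbations that is open along lines -/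
def TQ (δ : ℝ) (σ : Cel A') (q : Wi →₀ ℝ) (y : J.Obc c) : Prop :=
  ∃ 𝒮 : Set (Wi →₀ ℝ), q ∈ 𝒮 ∧ (∀ q' ∈ 𝒮, ∀ p ∈ Kp σ y, ∀ᶠ t in 𝓝 (0 : ℝ), q' + t • p ∈ 𝒮) ∧
    ∀ q' ∈ 𝒮, Sol σ q' y ∧ ∃ ξ, Ins J c R q' y.s δ σ y.x ξ

variable {p : Prt A A' h} {U : Type} [Fintype U] {δ : ℝ} {b : Bp J c} {E : EC b p U δ}

/-- the linearisation -/
abbrev Ld (f : E.C → E.Y) (x : Pnt E.o r) (ψ : E.K) : E.C →L[ℝ] E.Y := fderiv ℝ f (x.pt 8, ψ)

/-- targets: the Dirac row over `O`, the curvature row over `O'`, the rows of the cuts `Hs` -/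
structure Tg (O O' : Set (W.Z c).M) (Hs : Set h) (e : E.Y) : Prop where
  D : ∀ z ∉ O, (b.F p U δ).F0.val 8 E.o.Pm e.1.1 z = 0
  C : ∀ z ∉ O', (b.F p U δ).F0.val 8 E.o.P2 e.1.2.1 z = 0
  S : e.1.2.2 = 0
  T : ∀ i : p.H, i.1 ∉ Hs → e.2.1 i = 0 ∧ e.2.2 i = 0

/-- the values of the curvature row -/
abbrev vC (e : E.Y) : (W.Z c).M → Fm (Option κ × Option κ) E.o.m.A :=
  (b.F p U δ).F0.val 8 E.o.P2 e.1.2.1

/-- all these targets are hit -/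
def Ht (L : E.C →L[ℝ] E.Y) (O O' : Set (W.Z c).M) (Hs : Set h) : Prop :=
  ∀ e, Tg O O' Hs e → e ∈ range L

/-- no perturbation that keeps `y` enlarges the closed range -/
structure Stk (σ : Cel A') (q : Wi →₀ ℝ) (y : J.Obc c) (x : Pnt E.o r) (ψ : E.K) (f : E.C → E.Y) :
    Prop where
  cl : IsClosed (range (Ld f x ψ))
  st : ∀ p ∈ Kp σ y, ∃ g, E.Map (q + p) g ∧ ∀ v, Ld f x ψ v = 0 → Ld g x ψ v ∈ range (Ld f x ψ)

variable (E) in
/-- variations of the connection and of the fields of the cuts -/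
abbrev va (α : (W.Z c).M → Fm (Option κ) E.o.m.A) (η : E.K) : E.C := ((ofV _ 9 _ α, 0, 0), η)

variable (E) in
/-- the components in the frame at `t` -/
abbrev fa (t : Tq p U) (α : (W.Z c).M → Fm (Option κ) E.o.m.A) (z : (W.Z c).M) :
    Fm (Option κ) E.o.m.A := idx ((b.F p U δ).S t z) (.id ℝ _) (α z)

variable (J c) in
/-- **LEAF MAP**: the maps exist and their derivatives are affine in the perturbation -/
def MapStmt : Prop := ∀ δ σ p (U : Type) [Fintype U] (b : Bp J c) (E : EC b p U δ)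
  (x : Pnt E.o r) ψ, CS σ E → (∀ q, ∃ f, E.Map q f) ∧ ∃ D : (Wi →₀ ℝ) →ₗ[ℝ] E.C →L[ℝ] E.Y,
    ∀ q q' f g, E.Map q f → E.Map (q + q') g → Ld g x ψ = Ld f x ψ + D q'

variable (J c) in
/-- **LEAF FIN**: closed range of finite codimension -/
def FinStmt : Prop := ∀ δ σ p (U : Type) [Fintype U] (b : Bp J c) (E : EC b p U δ)
  (x : Pnt E.o r) ψ q d f, CS σ E → Idx 8 (EC.tot b p U δ q) x d → E.Map q f →
    IsClosed (range (Ld f x ψ)) ∧
      ∃ (m : ℕ) (k : (Fin m → ℝ) →L[ℝ] E.Y), Surjective ((Ld f x ψ).coprod k)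

end job

section scene
open G75 Ins26 Jb7
variable {κ lam : Type} [Fintype κ] [Fintype lam] [DecidableEq lam] {Lm : LM κ lam}

variable (Lm) in
/-- the side `S¹ × D³` (helper49; `Cyl58.Oud.Ind`) -/
def TAd : TP Lm := fun {_ D _ _ _ _} J c δ sh σ q y x => (∀ l, ¬Inn J x l) ∧
  ∀ (b : Bp J c) (E : EC b (pW J c sh σ x) _ δ) x' ψ,
    E.Gd σ (muF J c {hp x true, hp x false}) q y x' ψ → ∀ f, E.Map q f → ∀ e : E.Y,
      (∀ z ∉ oI D.W c x, (b.F _ _ δ).F0.val 8 E.o.Pm e.1.1 z = 0) →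
      (∀ z ∉ oI D.W c x, (b.F _ _ δ).F0.val 8 E.o.P2 e.1.2.1 z = 0) → e.1.2.2 = 0 → e.2 = 0 →
      e ∈ range (fderiv ℝ f (x'.pt 8, ψ))

variable (Lm) in
/-- **the text of `TA`** -/
def TA : TP Lm := fun J c δ sh σ q y x => TQ x δ σ q y ∨ TAd Lm J c δ sh σ q y x

variable {S : Scene Lm} {D : S.Dat} {i : S.L} {Wi : Type} {r n : ℕ}
  {J : Job Wi (D.Λ i) (S.A ⊕ Unit) S.ls r n} {c : S.M.Cl} {δ : ℝ} {σ : Cel (S.A ⊕ Unit)} {R : S.A}

variable (J c R) in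
/-- the names of the moving ends -/
abbrev UR : Type := UU {hp R true, hp R false} (zw J c) (cylW c)

variable (σ R) in
/-- the charts of the whole face -/
abbrev ER (b : Bp J c) (δ : ℝ) : Type := EC b (pW J c (shX S {R}) σ R) (UR J c R) δ

variable (σ R) in
/-- the family of the whole face -/
abbrev FW (b : Bp J c) (δ : ℝ) := b.F (pW J c (shX S {R}) σ R) (UR J c R) δ

variable {b : Bp J c} {E : ER σ R b δ}

/-- **the situation** at a running perturbation `q` (not admissible in general) -/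
structure Cr (q : Wi →₀ ℝ) (y : J.Obc c) (x : Pnt E.o r) (ψ : E.K)
    (ξ : (D.W.Z c).M → E.o.m.A) : Prop where
  jr : ∃ Es b' z j n₀ T, JR J R Es b' z j n₀ T
  an : AnH J c δ (shX S {R}) σ
  one : c.1 = {R}
  np : ¬S.M.pin R
  unc : J.unc c = univ
  sol : Sol σ q y
  ti : y.Tight
  dz : ∀ k, dz (J.xs R).D (y.β R k) = 1
  ch : E.Ch δ σ (muF J c {hp R true, hp R false}) y x ψ
  cs : CS σ E
  θ : b.θ _ _ x.t = y.s
  ia : ia δ y (hp R false) + 1 = 2 * ({l | Inn J R l}.ncard : ℤ)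
  idr : idr δ y (hp R false) = 0
  ins : Ins J c R q y.s δ σ x.cfg ξ

variable {q : Wi →₀ ℝ} {y : J.Obc c} {x : Pnt E.o r} {ψ : E.K} {ξ : (D.W.Z c).M → E.o.m.A}

theorem sub_in : {hp R false} ⊆ ({hp R true, hp R false} : Set (Reg S.A)) := fun _ k => .inr k

/-- the point inside, with spinors over `P'` -/
abbrev Cr.xi (C : Cr q y x ψ ξ) {P' : Set (Reg S.A)} (k : P' ⊆ {hp R false}) :
    Pnt (rf E x.t {hp R false} P' ∅) r := rx C.cs x sub_in (k.trans sub_in) ∅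

variable (Lm) in
/-- a property of all situations and maps -/
def All (P : ∀ {S : Scene Lm} {D : S.Dat} {i Wi r n} {J : Job Wi (D.Λ i) (S.A ⊕ Unit) S.ls r n}
    {c : S.M.Cl} {δ : ℝ} {σ R} {b : Bp J c} {E : ER σ R b δ} {q} {y : J.Obc c}
    {x : Pnt E.o r} {ψ ξ}, Cr q y x ψ ξ → (E.C → E.Y) → Prop) : Prop :=
  ∀ (S : Scene Lm) (D : S.Dat) i Wi r n (J : Job Wi (D.Λ i) (S.A ⊕ Unit) S.ls r n) (c : S.M.Cl),
    J.OK → PJ J c → ∃ δ₀ > 0, ∀ δ ∈ Ioc 0 δ₀, ∀ σ R (b : Bp J c) (E : ER σ R b δ) q (y : J.Obc c)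
      (x : Pnt E.o r) ψ ξ (C : Cr q y x ψ ξ) f, E.Map q f → P C f

variable (Lm) in
/-- **LEAF CX** -/
def CxStmt : Prop := ∀ (S : Scene Lm) (D : S.Dat) i Wi r n
  (J : Job Wi (D.Λ i) (S.A ⊕ Unit) S.ls r n) (c : S.M.Cl) R Es b' z j n₀ T δ σ Adm,
  JR J R Es b' z j n₀ T → c.1 = {R} → H1R J c δ σ Adm R Es b' z n₀ → ∀ q (y : J.Obc c) a, Adm q →
  Sol σ q y → FA J c σ n₀ y a → Rf65.Ok δ y (pO J c (shX S {R}) σ R) → a = R ∧
    ∀ b (E : ER σ R b δ) x ψ, E.Gd σ (muF J c {hp R true, hp R false}) q y x ψ →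
      ∀ q' ξ, Sol σ q' y → Ins J c R q' y.s δ σ y.x ξ → ∃ ξ', Cr q' y x ψ ξ'

variable (C : Cr q y x ψ ξ) (f : E.C → E.Y)

/-- the cuts inside -/
abbrev Hi (J : Job Wi (D.Λ i) (S.A ⊕ Unit) S.ls r n) (R : S.A) : Set S.ls := {l | Inn J R l}

/-- smooth variations of the connection inside -/
abbrev HA (_ : Cr q y x ψ ξ) : Submodule ℝ ((D.W.Z c).M → Fm (Option κ) E.o.m.A) :=
  Mod61.Hs (b.F (pW J c (shX S {R}) σ R) (UR J c R) δ).F0.toPre (rf E x.t {hp R false} ∅ ∅).P1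

/-- IDX: the indices inside, with the terms -/
def Ix : Prop := ∀ (P' : Set _) (k : P' ⊆ {hp R false}),
  Idx 8 (EC.tot b (sp (pW J c (shX S {R}) σ R) {hp R false} P' ∅) (UR J c R) δ q) (C.xi k)
    (ix δ y {hp R false} P')

/-- LA: inner variations of the connection, seen in both charts -/
def La : Prop := ∀ g, RepF (EC.tot b (sp (pW J c (shX S {R}) σ R) {hp R false} ∅ ∅) (UR J c R) δ q) g →
  ∀ α' α η, (FW σ R b δ).F0.val 9 E.o.P1 α = (FW σ R b δ).F0.val 9 _ α' → (∀ l, l.1 ∉ Hi J R → η l = 0) →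
    Tg ∅ (oI D.W c R) (Hi J R) (Ld f x ψ ((α, 0, 0), η)) ∧ vC (Ld f x ψ ((α, 0, 0), η)) =
      (FW σ R b δ).F0.val 8 _ (fderiv ℝ g ((C.xi (empty_subset _)).pt 8) (α', 0, 0)).2.1

/-- LF0: inner variations of the spinor only change the Dirac row inside -/
def Lf0 (_ : Cr q y x ψ ξ) : Prop := ∀ φ,
  (∀ z ∉ oI D.W c R, (FW σ R b δ).F0.val 9 E.o.Pp φ z = 0) →
    Tg (oI D.W c R) ∅ ∅ (Ld f x ψ ((0, φ, 0), 0))

/-- TD: the Dirac block inside is Fredholm -/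
def Td (_ : Cr q y x ψ ξ) : Prop :=
  ∃ T : (FW σ R b δ).F0.H 9 (rf E x.t {hp R false} {hp R false} ∅).Pp →L[ℝ]
      (FW σ R b δ).F0.H 8 (rf E x.t {hp R false} {hp R false} ∅).Pm,
    Fred93.Fr T (idr δ y (hp R false)) ∧
    ∀ φ' φ, (FW σ R b δ).F0.val 9 E.o.Pp φ = (FW σ R b δ).F0.val 9 _ φ' → ∀ z ∈ oI D.W c R,
      (FW σ R b δ).F0.val 8 E.o.Pm (Ld f x ψ ((0, φ, 0), 0)).1.1 z = (FW σ R b δ).F0.val 8 _ (T φ') z

/-- LF: inner variations of the spinor -/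
def Lf : Prop := Lf0 f C ∧ Td f C

/-- ALT-D: the alternative for the Dirac operator inside -/
def AltD : Prop := Ix C → Lf C f → Ht (Ld f x ψ) (oI D.W c R) ∅ ∅ ∨
  ∃ φ ∈ Mod61.Hs (FW σ R b δ).F0.toPre E.o.Pp, φ ≠ 0 ∧ Off (oI D.W c R) φ ∧
    Ld f x ψ ((0, ofV _ 9 _ φ, 0), 0) = 0

/-- RD: the linear terms on a spinor in the kernel -/
def RchD (_ : Cr q y x ψ ξ) : Prop := Stk σ q y x ψ f →
  ∀ φ ∈ Mod61.Hs (FW σ R b δ).F0.toPre E.o.Pp, φ ≠ 0 → Off (oI D.W c R) φ →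
    Ld f x ψ ((0, ofV _ 9 _ φ, 0), 0) = 0 → Ht (Ld f x ψ) (oI D.W c R) ∅ ∅

/-- a kernel vector of the inner operator extended by `e₀` -/
structure Kv (e₀ : E.Y) (α : (D.W.Z c).M → Fm (Option κ) E.o.m.A) (η : E.K) (τ : ℝ) : Prop where
  mem : α ∈ HA C
  off : ∀ l, l.1 ∉ Hi J R → η l = 0
  row : Nk89.row 8 (C.xi (empty_subset _)) (ofV _ 9 _ α, 0) = 0
  eq : Ld f x ψ (va E α η) + τ • e₀ = 0
  ne : α ≠ 0 ∨ τ ≠ 0

/-- ALT-C: the alternative for the curvature equation and the cuts inside -/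
def AltC : Prop := Ix C → La C f → ∀ e₀ ∈ range (Ld f x ψ), Tg ∅ (oI D.W c R) (Hi J R) e₀ →
  vC e₀ ∈ Mod61.Hs (FW σ R b δ).F0.toPre E.o.P2 → Ht (Ld f x ψ) ∅ (oI D.W c R) (Hi J R) ∨ ∃ α η τ, Kv C f e₀ α η τ

/-- LT: the variation of a free inner coordinate -/
def Lt (_ : Cr q y x ψ ξ) : Prop := ∀ j, Fi J R y.s σ j → ∃ u,
  Dv J c R q y.s (xf J c y.s x.cfg ξ) j u ∧ ∃ e₀ ∈ range (Ld f x ψ),
    Tg ∅ (oI D.W c R) (Hi J R) e₀ ∧ vC e₀ ∈ Mod61.Hs (FW σ R b δ).F0.toPre E.o.P2 ∧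
      ∀ z, vC e₀ z = tn (u z) (ξ z)

/-- LAB: abelian variations -/
def Lab : Prop := ∀ a, Fo (D.W.Z c).I 1 a → Off (oI D.W c R) a → ∀ α ∈ HA C,
  (∀ z, fa E x.t α z = tn (c1 (J.G c y.s).F a z) (ξ z)) → ∀ η, ∀ z ∈ oI D.W c R,
    vC (Ld f x ψ (va E α η)) z = tn (aE J c q y.s (dM (D.W.Z c).I a) z) (ξ z)

/-- HSA: decaying forms are smooth variations, and conversely -/
def Hsa (_ : E.C → E.Y) : Prop := (∀ ha d a, δ < d → Dk J c R y.s ha d a →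
    ∃ α ∈ HA C, ∀ z, fa E x.t α z = tn (c1 (J.G c y.s).F a z) (ξ z)) ∧
  ∀ α ∈ HA C, ∃ a, ∃ α' ∈ HA C, Fo (D.W.Z c).I 1 a ∧ Off (oI D.W c R) a ∧
    MemLp (c1 (J.G c y.s).F a) 2 (J.G c y.s).F.μ ∧ Sq (J.G c y.s).F (dM (D.W.Z c).I a) ∧
    (∀ z, fa E x.t α' z = tn (c1 (J.G c y.s).F a z) (ξ z)) ∧
    ∀ z j, ⟪(α - α') z j, ξ z⟫_ℝ = 0

/-- RFL: normal variations have normal curvature rows -/
def Rfl : Prop := ∀ α ∈ HA C, (∀ z j, ⟪α z j, ξ z⟫_ℝ = 0) → ∀ η z j,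
  ⟪vC (Ld f x ψ (va E α η)) z j, ξ z⟫_ℝ = 0

/-- GAU: a variation in the slice whose abelian part is closed is not a gauge direction -/
def Gau (_ : E.C → E.Y) : Prop := ∀ α ∈ HA C, α ≠ 0 →
  Nk89.row 8 (C.xi (empty_subset _)) (ofV _ 9 _ α, 0) = 0 → ∀ a, Fo (D.W.Z c).I 1 a →
  (∀ z ∈ oI D.W c R, dM (D.W.Z c).I a z = 0) →
  (∀ z ∈ oI D.W c R, ∀ j, ⟪fa E x.t α z j - c1 (J.G c y.s).F a z j • ξ z, ξ z⟫_ℝ = 0) →
  NG (J.G c y.s).F x.cfg (oI D.W c R) ξ (fa E x.t α)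

/-- a kernel vector that breaks the reduction -/
structure Kn (α : (D.W.Z c).M → Fm (Option κ) E.o.m.A) (η : E.K) : Prop where
  mem : α ∈ HA C
  eq : Ld f x ψ (va E α η) = 0
  ng : NG (J.G c y.s).F x.cfg (oI D.W c R) ξ (fa E x.t α)

/-- RT: the terms of the cuts inside -/
def RchT : Prop := Stk σ q y x ψ f → ∀ α η, Kn C f α η → Ht (Ld f x ψ) ∅ ∅ (Hi J R)

/-- the abelian test forms are hit -/
def Ha (_ : Cr q y x ψ ξ) : Prop := ∀ g, Sm (D.W.Z c).I g → HasCompactSupport g →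
  Off (oI D.W c R) g → (∀ z, hs (J.G c y.s).F (J.B c).o z (g z) = g z) → ∀ e : E.Y,
    Tg ∅ (oI D.W c R) ∅ e → (∀ z, vC e z = tn (g z) (ξ z)) → e ∈ range (Ld f x ψ)

/-- RC: the curvature words inside -/
def RchC : Prop := Stk σ q y x ψ f → Ha f C → ∀ α η, Kn C f α η → Ht (Ld f x ψ) ∅ (oI D.W c R) ∅

variable (Lm) in
/-- **LEAF H-TAK** (pattern: `Taf6.taf`) -/
def HTak : Prop := Qab60.AllR Lm fun {_ D _ _ _ _} J c R _ Q => ∃ d > (0 : ℝ), ∀ β, OpB J β →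
  ∀ q σ s f a k, Ball β 0 q → Cz (D.W.Z c).I (oI D.W c R) f → HasCompactSupport f →
    ASj J c R q s f a → Fi J R s σ k → (∀ t ∈ Ioo (0 : ℝ) 1, Fin37.Pm J c (update s k t)) →
    ∀ H : ℝ → ℝ, (∀ t ∈ Ioo (0 : ℝ) 1, Hv J c R (θJ J Q) (ϖJ J Q) q (update s k t) f (H t)) →
    deriv H (s k) ≠ 0 → TAk J c R q s σ d (f + dM (D.W.Z c).I a)

end scene
end Crest.Agent.X212.Nr41
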