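import Crest.Agent.X212.Cqn41.Pd1
import Crest.Agent.X212.Dfl49.Ex
import Crest.Agent.X212.Dead36.Gen

/-!
# Row 212, RF-DF (helper41): D-SUR
-/

set_option autoImplicit false
set_option linter.unusedSectionVars false
noncomputable section
open scoped Manifold ContDiff Topology
open Set Filter Function MeasureTheory

namespace Crest.Agent.X212.Cqn41.Pd
open An M G75 Rf65 Nd18 Dfl49 Eqv71 Ins26 Pat85
open An.Job (Sol SolOn)
open Dead36 (ZO)

section gen
variable {E : Type} [NormedAddCommGroup E] [NormedSpace ℝ E] [FiniteDimensional ℝ E]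
  [MeasurableSpace E] [BorelSpace E]
  {HM : Type} [TopologicalSpace HM] {I : ModelWithCorners ℝ E HM} [I.Boundaryless]
  {M : Type} [TopologicalSpace M] [ChartedSpace HM M] [IsManifold I ∞ M]
  [MeasurableSpace M] [T2Space M] [BorelSpace M] [SecondCountableTopology M]
  {ι : Type} [Fintype ι] {lam : Type} [Fintype lam] {r n : ℕ}
  {B : Base M ι lam} {F : Fr I M ι} {O : Set M} {c : Cfg M ι lam r} {x : M}

theorem tD_zo (z : ZO F c O) (T : Tm M lam r n) (hx : x ∈ O) : c.tD B F T x = 0 := by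
  cases T <;> simp [Cfg.tD, z.sw _ x hx, cs]

theorem aw_zo (z : ZO F c O) (f : ∀ x ∈ O, c.m.Fg F c.W x = 0) (ξ : AW M) (hx : x ∈ O) :
    c.aw F ξ x = 0 := by
  obtain ⟨s, l⟩ := ξ
  cases s with
  | q u v => exact z.q0 _ v l x hx
  | cv =>
    exact z.la (fun x hx => Dead36.res_on z.cl z.bu z.ma (fun x hx => Dead36.res_on z.cl z.bu z.ma
      (fun x hx => by simp [f x hx]) hx) hx) l x hx

/-- the field terms vanish at a flat configuration without spinor -/
theorem tC_zo (z : ZO F c O) (f : ∀ x ∈ O, c.m.Fg F c.W x = 0) (T : Tm M lam r n) (hx : x ∈ O) :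
    c.tC B F T x = 0 := by
  cases T with
  | ad g g' ξ =>
    simp only [Cfg.tC, aw_zo z f ξ hx, smul_zero, ← Pi.zero_def, WithLp.toLp_zero, map_zero]
  | adj d s g g' u v l =>
    simp only [Cfg.tC, z.qj _ _ _ _ _ x hx, smul_zero, ← Pi.zero_def, WithLp.toLp_zero, map_zero]
  | adn f' g g' φ L =>
    have : c.aws F L x = 0 := List.sum_eq_zero fun _ k => by
      obtain ⟨ξ, -, rfl⟩ := List.mem_map.1 k
      exact aw_zo z f ξ hx
    simp only [Cfg.tC, this, smul_zero, ← Pi.zero_def, WithLp.toLp_zero, map_zero]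
  | _ => rfl

variable {E3 : Type} [NormedAddCommGroup E3] [NormedSpace ℝ E3] [FiniteDimensional ℝ E3]
  [MeasurableSpace E3] [BorelSpace E3]
  {H3 : Type} [TopologicalSpace H3] {I3 : ModelWithCorners ℝ E3 H3} [I3.Boundaryless]
  {Y : Type} [TopologicalSpace Y] [ChartedSpace H3 Y] [IsManifold I3 ∞ Y] [T2Space Y]
  [MeasurableSpace Y] [BorelSpace Y] [SecondCountableTopology Y] [CompactSpace Y]
  {κ : Type} [Fintype κ] {D : YD I3 Y κ lam} {β : YC Y κ lam} {ζ : Circle}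
  {B : Base M (Option κ) lam} {G : Geo I M (Option κ) lam} {K : Nk D B G}
  {c : Cfg M (Option κ) lam r} {l : Filter ℝ}

theorem lim_of_std (H : K.Std c β ζ l) : K.Lim c β ζ l :=
  let ⟨u, S, h1, h2, k⟩ := H
  have o : IsOpen (univ ×ˢ S : Set (Y × ℝ)) := isOpen_univ.prod k.op
  ⟨u, fun _ η hη => ⟨S, h1, h2, k.op, k.m,
    fun a => (((Neck67.Lb.const o 0).mono (by simpa using hη.le)).congr o fun x hx =>
      norm_le_zero_iff.1 (k.A a [] le_rfl x hx)).Dw,
    (((Neck67.Lb.const o 0).mono (by simpa using hη.le)).congr o fun x hx =>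
      norm_le_zero_iff.1 (k.P [] le_rfl x hx)).Dw⟩⟩

end gen

section job
variable {Wi : Type} {X : Mf 4} {A κ lam : Type} [Fintype A] [Fintype κ] [Fintype lam]
  [DecidableEq lam] {M : Mark X A κ} {W : World M} {N : ML M lam} {Λ : Lns W N}
  {A' h : Type} [Fintype A'] [DecidableEq A'] [Fintype h] {r n : ℕ}
  {J : Job Wi Λ A' h r n} {c : M.Cl} {s : A' → ℝ}

/-- without neck terms only the field terms remain -/
theorem τ_nil (hn : ∀ a, Nl J a) (q : Wi →₀ ℝ) : J.τ c q s =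
    fsum (fun w => (An.tmP (J.B c) (J.G c s).F ((J.tp c).tm (J.tw w))).smul (J.co w s)) q := by
  have a : J.τ0 c s = Ink3.pz := by
    simp only [Job.τ0, fun a ν => ((hn a).1.smul ν).q1 (I := (W.Z c).I) (B := J.B c) (G := J.G c s)
      (D := (J.xs a).D) (r := r) (n := n)]
    exact Ink3.pt_ext (fun _ _ => by simp [Pt.dsum, Ink3.pz]) (fun _ _ => by simp [Pt.dsum, Ink3.pz])
      fun _ _ => by simp [Pt.dsum, Ink3.pz]
  have b : J.τw c s = fun w => (An.tmP (J.B c) (J.G c s).F ((J.tp c).tm (J.tw w))).smul (J.co w s) :=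
    funext fun w => by
      simp only [Job.τw, (hn _).2, Pi.zero_apply, smul_zero, Ink3.fsum_zero]
      exact Ink3.pt_ext (fun _ _ => by simp [Pt.dsum, Pt.add, Ink3.pz])
        (fun _ _ => by simp [Pt.dsum, Pt.add, Ink3.pz]) fun _ _ => by simp [Pt.dsum, Pt.add, Ink3.pz]
  rw [Job.τ, a, b]
  exact Ink3.pt_ext (fun _ _ => zero_add _) (fun _ _ => zero_add _) fun _ _ => zero_add _

variable {O : Set (W.Z c).M} {x : Cfg (W.Z c).M (Option κ) (lam ⊕ lam) r} {z : (W.Z c).M}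

/-- flat configurations without spinor are solutions -/
theorem sol_flat (hn : ∀ a, Nl J a) (q : Wi →₀ ℝ) (Z : ZO (J.G c s).F x O)
    (f : ∀ z ∈ O, x.m.Fg (J.G c s).F x.W z = 0) (hz : z ∈ O) :
    x.eD (J.G c s) (J.τ c q s) z = 0 ∧ x.eC (J.B c) (J.G c s) (J.τ c q s) z = 0 := by
  rw [τ_nil hn, Cfg.eD, Cfg.eC, f z hz, Z.z z hz]
  refine ⟨?_, ?_⟩
  · have e : ∀ a, Wz78.nab (W.Z c).I (J.G c s).F.e x.W a x.Φ z = 0 := fun a => by
      rw [Wz78.nab_congr a ((Z.cl.2.eventually_mem hz).mono Z.z)]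
      simp [Wz78.nab]
    simp [Wz78.dir, e, fsum, Pt.smul, An.tmP, tD_zo Z _ hz]
  · simp [fsum, Pt.smul, An.tmP, tC_zo Z f _ hz, Md.mu, Md.q, rk1, ← Pi.zero_def]

end job

section scene
variable {κ lam : Type} [Fintype κ] [Fintype lam] [DecidableEq lam] {Lm : LM κ lam}
  {S : Scene Lm} {D : S.Dat} {i : S.L} {Wi : Type} {r n : ℕ}
  {J : Job Wi (D.Λ i) (S.A ⊕ Unit) S.ls r n} {c : S.M.Cl} {R : S.A} {j : ℕ} {n₀ : ℤ} {T : ℝ}

/-- **SUR** -/
theorem sur (h : HD J c R j n₀ T) (wl : WlStmt (J.xs R).D) : SurD J c R := fun σ hσ q y H => by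
  have hJ := h.jr.gx.ok
  have o := H.sol.ov
  obtain ⟨_, _, _, _, _, d⟩ := h.ds
  have ha : ∀ b, Act J.m c R (some b) (J.Θ y.s) := fun b =>
    ⟨d.np, hJ.memBr hσ o, hJ.memO hσ o, HD.mem h⟩
  have en : (pO J c (shX S {R}) σ R).En R true := ⟨_, rfl, hp_self R _⟩
  have cr := H.sol.crit R (HD.cyl h) true en
  obtain ⟨b, py⟩ := h.pj.py R (HD.cyl h)
  have bs := (wl _ b (hJ.xs R).1.yd (h.pj.nil R (HD.cyl h)).1 py).1 _ cr
  have hK := hJ.nk c R _ _ (ha false)
  have one := one_W (ha false) hK (HD.only h) le_rfl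
  have ct := (sur_W d (HD.only h) (ha false) hK le_rfl).2
  have fr := frs_W (W := D.W) (Λ := D.Λ i) d (HD.only h) J.m
  rw [← pc_in h] at one ct fr
  have cl := Cyl58.isClopen_pc D.W.toCaps (pc_hp h.c1 false)
  have e' : D.W.un c {hp R true} = (D.W.pc c (hp R false))ᶜ := (un_one _).trans (pc_compl h.c1)
  have hB := (D.Λ i).B_ok J.m c
  have hG := hJ.G_ok hσ o
  have a := Tmp64.admOn_univ.2 H.sol.adm
  have := Manifold.locallyCompact_of_finiteDimensional (M := (D.W.Z c).M) (D.W.Z c).I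
  obtain ⟨x, u, a', f, e, st⟩ := exists_std (K := J.K c R _ _ (ha false)) hB hG bs.adm
    ⟨fun z _ => bs.flat z, fun z _ => bs.zr z.1⟩ cl (isOpen_Te _ _) (l := atTop)
    (mem_of_superset (Ioi_mem_atTop 0) fun s hs => by simpa [pm] using hs) one.J one.sub ct fr
    (a.mono (subset_univ _))
  have k := e.cEq hB (a.mono (subset_univ _)) ((Tmp64.admOn_univ.2 a').mono (subset_univ _))
  rw [← e'] at k
  have p1 := pc_one h.c1 true
  have op := (Job.isClopen_un (W := D.W) p1).2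
  have g := (lg_refl hB hG op).of_ceq (ad0 H.sol.adm) (ad0 a') k
  have rl := fun l => Cnt93.rel_refl hB (hJ.cut_sub (c := c) (nb_out h l))
  let ψ := fun l => Cnt93.Rh (J.cut c l) (J.cut c l) (J.B c) (J.B c) u 1 (y.ψ l)
  have ev : ∀ l, (J.cut c l).Eqv (J.cut c l) (J.B c) (J.B c) u (y.ψ l) (ψ l) := fun l =>
    (Cnt93.eqv_iff g (rl l)).2 ⟨1, rfl⟩
  have H' := H.sol.re (x := x) (ψ := ψ) hJ hσ (h.jr.gx.loc.pok σ hσ c _ _ _ p1 Subset.rfl) (ad0 a')
    (fun z hz => f.Φ z (not_not.1 (e'.ge.mt hz)))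
    (ceq_symm_id hB hG op (ad0 H.sol.adm) (ad0 a') k) fun l _ => Cnt93.eqv_symm (ψ := id) g (rl l) rfl (ev l)
  have Z : ZO (J.G c y.s).F x (D.W.pc c (hp R false)) :=
    ⟨cl, Mp86.bumps_of_tame _ (hJ.tame hσ o).choose_spec, mc_W a'.conn, mc_adW a'.conn, f.Φ⟩
  have s := fun z hz => sol_flat (z := z) (fun a => h.jr.gx.nil a (by simp)) q Z f.F hz
  have kd : ∀ z ∈ D.W.pc c (hp R false), x.m.kd (J.B c) (J.G c y.s).F x.W z = 0 := fun z hz => by
    simp [Md.kd, f.F z hz]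
  have i1 : IntegrableOn (x.m.kd (J.B c) (J.G c y.s).F x.W) (D.W.pc c (hp R false)) (J.G c y.s).F.μ :=
    integrableOn_zero.congr_fun (fun z hz => (kd z hz).symm) cl.2.measurableSet
  have i2 : Integrable (x.m.kd (J.B c) (J.G c y.s).F x.W) (J.G c y.s).F.μ := by
    rw [← integrableOn_univ, ← union_compl_self (D.W.pc c (hp R false)), ← e']
    exact i1.union H'.int
  have cw : ∀ {a}, a ∈ c.1 → a = R := fun k => by rwa [h.c1] at k
  refine ⟨⟨y.s, x, J.unc c, ψ, fun a _ => y.β a true, fun a _ => y.ζ a true * 1⁻¹, 0, 0, 0⟩,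
    ⟨⟨H'.cell, H'.inf, ⟨a', fun z => (em _).elim (fun hz => (s z hz).1) fun hz => H'.D z (e'.ge hz),
      fun z => (em _).elim (fun hz => (s z hz).2) fun hz => H'.C z (e'.ge hz), H'.S⟩, Subset.rfl,
      fun l _ => H'.cut l ⟨trivial, nb_out h l⟩, by simp, fun a b hb => ?_, fun a k _ => ?_,
      fun a _ => .nil _ _, i2, ?_⟩, ⟨rfl, fun _ _ => rfl⟩, fun ⟨z, h1, h2⟩ => h2 (f.Φ z h1), f.F⟩,
    fun _ _ => rfl, u, 1, k, fun l _ => ev l⟩
  · obtain rfl := cw hb.2.2.2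
    cases b
    exacts [lim_of_std (st _), H'.lim a true hb en]
  · obtain rfl := cw k.1
    exact cr
  · have := integral_add_compl cl.2.measurableSet i2
    rw [setIntegral_eq_zero_of_forall_eq_zero kd, zero_add, ← pc_compl h.c1] at this
    rw [← H.lev]
    simp only [Pi.zero_def, indicator_zero, Finset.sum_const_zero, Nat.cast_zero, add_zero]
    exact this.symm.trans (setIntegral_congr_fun (Cyl58.isOpen_pc D.W.toCaps
      (pc_hp h.c1 true)).measurableSet fun z hz => g.kd ((un_one _).ge hz))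

variable (Lm) in
/-- **LEAF D-SUR** from `WL` (`Wl34.wl`) -/
theorem surStmt (wl : ∀ {Y : Mf 3} [CompactSpace Y.M] [ConnectedSpace Y.M]
    (D : YD Y.I Y.M κ (lam ⊕ lam)), WlStmt D) : SurStmt Lm := fun _ _ _ _ _ _ J _ R _ _ _ h =>
  have := J.conn_xs R
  sur h (wl _)

end scene

end Crest.Agent.X212.Cqn41.Pd
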