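import Crest.Agent.X212.Cqn41.Nq
import Crest.Agent.X212.Cyl12.Lim

/-!
# Row 212, CQ-NK (helper41): the leaf `NQJ`, no hypotheses
-/

set_option autoImplicit false
set_option linter.unusedSectionVars false
noncomputable section
open Set Function Filter Topology MeasureTheory
open scoped ContDiff Manifold

namespace Crest.Agent.X212.Cqn41
open An An.Job M Nd18 Cmp73

variable {Wi : Type} {X : Mf 4} {A κ lam : Type} [Fintype A] [Fintype κ] [Fintype lam]
  [DecidableEq lam] {M : Mark X A κ} {W : World M} {N : ML M lam}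
  {Λ : Lns W N} {A' h : Type} [Fintype A'] [DecidableEq A'] [Fintype h] {r n : ℕ}
  {J : Job Wi Λ A' h r n} {Adm : (Wi →₀ ℝ) → Prop}

/-- **LEAF NQJ** -/
theorem nqj (hJ : J.OK) : NQJ J Adm := nqj_of hJ fun _ _ _ _ _ _ hS _ _ _ _ h V h₀ =>
  ⟨Cyl12.qs hS.up.bk h V h₀, fun _ _ _ hl hη _ _ lb a => Cyl12.qa hS.up.bk h V h₀ hl hη lb a⟩

end Crest.Agent.X212.Cqn41
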