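import Crest.Agent.X212.Dfl49.Hom
import Crest.Agent.X212.Wz78.Gw

/-!
# Row 212, LN-CJ (helper41), file 0: parallel maps out of the line; contractions
-/

set_option autoImplicit false
set_option linter.unusedSectionVars false
noncomputable section
open Set Function Filter Topology
open scoped ContDiff Manifold InnerProductSpace

namespace Crest.Agent.X212.Cqn41
open An Sob92 Wz78 Dfl49
open Std94 (LF PL plx)

section ctr
variable {lam : Type} [Fintype lam] {V V' V'' : Type} [NormedAddCommGroup V] [NormedSpace ℝ V]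
  [NormedAddCommGroup V'] [NormedSpace ℝ V'] [NormedAddCommGroup V''] [NormedSpace ℝ V'']
  (β : V →L[ℝ] V' →L[ℝ] V'') {φ : CL (Eu lam) V} {ψ : CL (Eu lam) V'}

/-- the contraction over the line -/
def ctr (φ : CL (Eu lam) V) (ψ : CL (Eu lam) V') : V'' :=
  ∑ i, β (φ (stdOrthonormalBasis ℝ (Eu lam) i)) (ψ (stdOrthonormalBasis ℝ (Eu lam) i))

theorem ctr_rk (t : Eu lam) (v : V) :
    ∑ i, β (⟪t, stdOrthonormalBasis ℝ (Eu lam) i⟫_ℝ • v) (ψ (stdOrthonormalBasis ℝ (Eu lam) i)) =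
      β v (ψ t) := by
  conv_rhs => rw [← (stdOrthonormalBasis ℝ (Eu lam)).sum_repr' t]
  simp only [map_sum, map_smul, smul_apply, real_inner_comm t]

theorem ctr_lf {l il : En lam} {s : Eu lam} (h : LF l il s) (hφ : ∀ t, φ (l t) = φ t) :
    ctr β φ ψ = β (φ s) (ψ s) + β (φ (il s)) (ψ (il s)) := by
  rw [← ctr_rk β s, ← ctr_rk β (il s), ← Finset.sum_add_distrib]
  refine Finset.sum_congr rfl fun i _ => ?_
  rw [← hφ, h.dec, map_add, map_smul, map_smul, map_add, add_apply]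

theorem ctr_skw {a : En lam} (h : Skw a) : ctr β (φ ∘L a) ψ + ctr β φ (ψ ∘L a) = 0 := by
  have e : ∀ i, φ (a (stdOrthonormalBasis ℝ (Eu lam) i)) = ∑ k, ⟪-a (stdOrthonormalBasis ℝ _ k),
      stdOrthonormalBasis ℝ (Eu lam) i⟫_ℝ • φ (stdOrthonormalBasis ℝ (Eu lam) k) := fun i => by
    conv_lhs => rw [← (stdOrthonormalBasis ℝ (Eu lam)).sum_repr' (a _)]
    simp only [map_sum, map_smul, inner_neg_left, h _ _, neg_neg]
  simp only [ctr, ContinuousLinearMap.comp_apply, e, map_sum, _root_.sum_apply]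
  rw [Finset.sum_comm]
  simp only [ctr_rk, map_neg, Finset.sum_neg_distrib, neg_add_cancel]

end ctr

variable {E : Type} [NormedAddCommGroup E] [NormedSpace ℝ E] [FiniteDimensional ℝ E]
  [MeasurableSpace E] [BorelSpace E]
  {HM : Type} [TopologicalSpace HM] {I : ModelWithCorners ℝ E HM} [I.Boundaryless]
  {M : Type} [TopologicalSpace M] [ChartedSpace HM M] [IsManifold I ∞ M]
  [MeasurableSpace M] {ι : Type} [Fintype ι] {lam : Type} [Fintype lam]
  {B : Base M ι lam} {G : Geo I M ι lam} {Ω : Set M} {x : M}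
  {V V' V'' : Type} [NormedAddCommGroup V] [NormedSpace ℝ V]
  [NormedAddCommGroup V'] [NormedSpace ℝ V'] [NormedAddCommGroup V''] [NormedSpace ℝ V'']

section par
variable (β : V →L[ℝ] V' →L[ℝ] V'') {φ : M → CL (Eu lam) V} {ψ : M → CL (Eu lam) V'}

theorem sa_ctr (s : SA I φ x) (s' : SA I ψ x) : SA I (fun y => ctr β (φ y) (ψ y)) x :=
  SA.sum _ fun _ _ => ((s.app contMDiffAt_const).clm β).app (s'.app contMDiffAt_const)

/-- the contraction of parallel sections is parallel -/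
theorem nab_ctr {e : ι → (x : M) → TangentSpace I x} {A₀ : ι → M → En lam} {A : ι → M → CL V V}
    {A' : ι → M → CL V' V'} {A'' : ι → M → CL V'' V''} {a : ι} (sk : Skw (A₀ a x))
    (h : ∀ v w, A'' a x (β v w) = β (A a x v) w + β v (A' a x w)) (s : SA I φ x) (s' : SA I ψ x)
    (p : nab I e (hA A₀ A) a φ x = 0) (p' : nab I e (hA A₀ A') a ψ x = 0) :
    nab I e A'' a (fun y => ctr β (φ y) (ψ y)) x = 0 := by
  have c : ∀ t : Eu lam, SA I (fun _ : M => t) x := fun _ => contMDiffAt_const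
  rw [nab_hA, add_sub_assoc, add_eq_zero_iff_eq_neg] at p p'
  rw [← ctr_skw β (φ := φ x) (ψ := ψ x) sk, nab]
  unfold ctr
  rw [dv_sum' _ fun i => ((s.app (c _)).clm β).app (s'.app (c _)), map_sum,
    ← Finset.sum_add_distrib, ← Finset.sum_add_distrib]
  refine Finset.sum_congr rfl fun i _ => ?_
  rw [dv_bil β (s.app (c _)).md (s'.app (c _)).md, dv_app s.md (c _).md, dv_app s'.md (c _).md, p, p', h]
  simp only [dv_const, Pi.zero_apply, map_zero, add_zero, neg_apply, sub_apply, map_neg, map_sub,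
    ContinuousLinearMap.comp_apply]
  abel

end par

theorem ex_pt [CompleteSpace V] {F : Fr I M ι} {A : ι → M → CL V V} {Q : M → CL V V}
    (h : Flt F Ω A Q) (hx : x ∈ Ω) (hs : Sur {x} Ω) {v : V} (hv : Q x v = v) :
    ∃ t, t x = v ∧ ∀ y ∈ Ω, PA F A Q t y := by
  obtain ⟨U, hU, -, -, hl⟩ := h.exists_loc hx
  obtain ⟨s, s1, s2⟩ := hl x (mem_of_mem_nhds hU) v hv
  obtain ⟨u, t1, t2⟩ := hs _ _ h.ls s (by rintro _ rfl; exact mem_of_superset hU s2)
  exact ⟨u, (t2 rfl).trans s1, fun y hy => (t1 y hy).self_of_nhds⟩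

/-- a complex bundle `(range Q, J)` whose curvature is that of the line -/
structure Tw (B : Base M ι lam) (G : Geo I M ι lam) (Ω : Set M) (A : ι → M → CL V V)
    (Q J : M → CL V V) : Prop where
  op : IsOpen Ω
  sA : ∀ a, ∀ x ∈ Ω, SA I (A a) x
  pA : ∀ a, ∀ x ∈ Ω, ∑ b, G.F.P a b x • A b x = A a x
  sQ : ∀ x ∈ Ω, SA I Q x
  sJ : ∀ x ∈ Ω, SA I J x
  QQ : ∀ x ∈ Ω, ∀ v, Q x (Q x v) = Q x v
  QJ : ∀ x ∈ Ω, ∀ v, Q x v = v → Q x (J x v) = J x v
  JJ : ∀ x ∈ Ω, ∀ v, Q x v = v → J x (J x v) = -v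
  nQ : ∀ a, ∀ x ∈ Ω, ∀ v, Q x v = v → nabE I G.F.e A a Q x v = 0
  nJ : ∀ a, ∀ x ∈ Ω, ∀ v, Q x v = v → nabE I G.F.e A a J x v = 0
  cQ : ∀ a b, ∀ x ∈ Ω, ∀ v, Q x v = v →
    curv I G.F.e G.F.c A a b x v = fL B G x (a, b) • J x v

/-- complex linear maps from the line -/
structure Mm (l il : En lam) (Q J : CL V V) (φ : CL (Eu lam) V) : Prop where
  Q : ∀ s, Q (φ s) = φ s
  l : ∀ s, φ (l s) = φ s
  il : ∀ s, φ (il s) = J (φ s)

/-- `φ ↦ X φ Y` -/
def cc (X : CL V V) (Y : En lam) : CL (CL (Eu lam) V) (CL (Eu lam) V) :=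
  ContinuousLinearMap.compL ℝ _ _ _ X ∘L (ContinuousLinearMap.compL ℝ _ _ _).flip Y

/-- the projector onto `Mm` -/
def mq (l il : En lam) (Q J : CL V V) : CL (CL (Eu lam) V) (CL (Eu lam) V) :=
  (1 / 2 : ℝ) • (cc Q l - cc (J * Q) (l * il))

theorem mq_apply (l il : En lam) (Q J : CL V V) (φ : CL (Eu lam) V) (s : Eu lam) :
    mq l il Q J φ s = (1 / 2 : ℝ) • (Q (φ (l s)) - J (Q (φ (l (il s))))) := rfl

variable {A : ι → M → CL V V} {Q J : M → CL V V}

namespace Tw
variable (h : Tw B G Ω A Q J) (hB : B.OK I)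
include h hB

theorem mm (hx : x ∈ Ω) (φ : CL (Eu lam) V) :
    Mm (B.l x) B.il (Q x) (J x) (mq (B.l x) B.il (Q x) (J x) φ) := by
  have ll : ∀ s, B.l x (B.l x s) = B.l x s := DFunLike.congr_fun (hB.lidem x)
  have il : ∀ s, B.il (B.l x s) = B.l x (B.il s) := DFunLike.congr_fun (hB.ill x)
  have ii : ∀ s, B.il (B.il s) = -s := DFunLike.congr_fun hB.ilsq
  refine ⟨fun s => ?_, fun s => ?_, fun s => ?_⟩ <;>
    simp only [mq_apply, map_smul, map_sub, map_neg, ll, il, ii, h.QQ x hx,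
      h.QJ x hx _ (h.QQ x hx _), h.JJ x hx _ (h.QQ x hx _)]
  module

theorem mq_iff (hx : x ∈ Ω) {φ : CL (Eu lam) V} :
    mq (B.l x) B.il (Q x) (J x) φ = φ ↔ Mm (B.l x) B.il (Q x) (J x) φ :=
  ⟨fun e => e ▸ h.mm hB hx φ, fun k => ContinuousLinearMap.ext fun s => by
    simp only [mq_apply, k.l, k.Q, k.il, h.QJ x hx _ (k.Q _), h.JJ x hx _ (k.Q _)]
    module⟩

theorem sa_mq (hx : x ∈ Ω) : SA I (fun y => mq (B.l y) B.il (Q y) (J y)) x :=
  SA.smul contMDiffAt_const ((((h.sQ x hx).clm _).clm_comp (SA.clm _ (hB.sl x))).sub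
    ((((h.sJ x hx).mul (h.sQ x hx)).clm _).clm_comp (SA.clm _ (SA.mul (hB.sl x) contMDiffAt_const))))

theorem flt (hG : G.OK B) : Flt G.F Ω (hA G.a A) fun y => mq (B.l y) B.il (Q y) (J y) := by
  refine ⟨h.op, fun a x hx => sa_hA (hG.con.sm a x) (h.sA a x hx), fun a x hx => ?_,
    fun _ => h.sa_mq hB, fun a x hx => ContinuousLinearMap.ext fun T => ?_,
    fun a b x hx => ContinuousLinearMap.ext fun T => ?_⟩
  · simp only [hA, smul_sub, Finset.sum_sub_distrib, ← map_smul, ← map_sum, h.pA a x hx]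
    rw [hG.P, hG.con.proj]
  · have ev := h.op.eventually_mem hx
    have s : SA I (fun y => mq (B.l y) B.il (Q y) (J y) T) x := (h.sa_mq hB hx).app contMDiffAt_const
    have i := ev.mono fun y hy => h.mm hB hy T
    have := nab_app' (e := G.F.e) (A := hA G.a A) a (h.sa_mq hB hx) s
    rw [nab_congr a (v := fun y => mq (B.l y) B.il (Q y) (J y) T) ((i.and ev).mono
      fun y hy => (h.mq_iff hB hy.2).2 hy.1)] at this
    have c1 : SA I (fun _ : M => (1 : En lam)) x := contMDiffAt_const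
    have c2 : SA I (fun _ : M => (1 : CL V V)) x := contMDiffAt_const
    have k := (h.mq_iff hB hx).2 ⟨fun v => (itw_nab (e := G.F.e) (A := G.a) (A' := A) s c1
        (h.sQ x hx) (i.mono fun _ k v => (k.Q v).symm) a
        (fun v => by rw [h.nQ a x hx _ (i.self_of_nhds.Q _)]; simp [nabE]) v).symm,
      itw_nab (e := G.F.e) (A := G.a) (A' := A) s (hB.sl x) c2 (i.mono fun _ k => k.l) a
        (fun v => by rw [show nabE I G.F.e G.a a B.l x = 0 from hG.par a x]; simp [nabE]),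
      itw_nab (e := G.F.e) (A := G.a) (A' := A) (R := fun _ => B.il) s contMDiffAt_const (h.sJ x hx)
        (i.mono fun _ k => k.il) a
        fun v => by rw [h.nJ a x hx _ (i.self_of_nhds.Q _)]; simp [nabE, hG.il]⟩
    generalize nab I G.F.e (hA G.a A) a (fun y => mq (B.l y) B.il (Q y) (J y) T) x = Z at this k
    rw [k, right_eq_add] at this
    rw [mul_apply_eq_comp, this, zero_apply]
  · have k := h.mm hB hx T
    rw [mul_apply_eq_comp, curv_hA (fun a => hG.con.sm a x) fun a => h.sA a x hx, zero_apply]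
    generalize mq (B.l x) B.il (Q x) (J x) T = φ at k
    ext1 s
    rw [sub_apply, ContinuousLinearMap.comp_apply, ContinuousLinearMap.comp_apply, h.cQ a b x hx _ (k.Q s),
      ← k.l (curv I G.F.e G.F.c G.a a b x s), ← mul_apply_eq_comp (B.l x), ← (frm G.F).curv_par
      (fun a => hG.con.sm a x) (hB.sl x) (fun a => .of_forall (hG.par a)), curvL_eq hB hG,
      smul_apply, map_smul, mul_apply_eq_comp, k.il, k.l, sub_self, zero_apply]

/-- **a parallel complex linear map out of the line, with a prescribed value** -/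
theorem ex [CompleteSpace V] (hG : G.OK B) (hx : x ∈ Ω) (hs : Sur {x} Ω) {s : Eu lam}
    (f : LF (B.l x) B.il s) {v : V} (hv : Q x v = v) : ∃ φ : M → CL (Eu lam) V, φ x s = v ∧
      ∀ y ∈ Ω, SA I φ y ∧ Mm (B.l y) B.il (Q y) (J y) (φ y) ∧
        ∀ a, nab I G.F.e (hA G.a A) a φ y = 0 := by
  have il : ∀ s, B.l x (B.il s) = B.il (B.l x s) := fun s => (DFunLike.congr_fun (hB.ill x) s).symm
  have ii : ∀ s, B.il (B.il s) = -s := DFunLike.congr_fun hB.ilsq
  obtain ⟨φ, e, p⟩ := ex_pt (h.flt hB hG) hx hs (v := (innerSL ℝ s).smulRight v +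
    (innerSL ℝ (B.il s)).smulRight (J x v)) ((h.mq_iff hB hx).2 ⟨fun t => by
      simp [hv, h.QJ x hx v hv], fun t => by
      simp only [add_apply, ContinuousLinearMap.smulRight_apply, innerSL_apply_apply,
        ← hB.lsym x _ t, il, f.ls], fun t => by
      simp only [add_apply, ContinuousLinearMap.smulRight_apply, innerSL_apply_apply, map_add,
        map_smul, h.JJ x hx v hv, hB.ilsk _ _, ii, inner_neg_right]
      module⟩)
  refine ⟨φ, ?_, fun y hy => ⟨(p y hy).sm, (h.mq_iff hB hy).1 (p y hy).mem, (p y hy).par⟩⟩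
  have o : ⟪B.il s, s⟫_ℝ = 0 := by
    have := hB.ilsk s s
    rw [real_inner_comm (B.il s) s] at this
    linarith [real_inner_comm (B.il s) s]
  simp [e, o, f.n1]

end Tw

end Crest.Agent.X212.Cqn41
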