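import Crest.Agent.X212.Cqn41.Cj0

/-!
# Row 212, LN-CJ (helper41), file 1: algebra at a point
-/

set_option autoImplicit false
set_option linter.unusedSectionVars false
noncomputable section
open Set Function Filter Topology
open scoped ContDiff Manifold InnerProductSpace

namespace Crest.Agent.X212.Cqn41
open An Sob92 Wz78 Dfl49
open Std94 (LF PL plx PMx Itx)
open Pj41 (CIso ad_trn)

section line
variable {lam : Type} [Fintype lam] {l il l' il' k : En lam} {s : Eu lam}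

/-- the inner product -/
def ipL : Eu lam →L[ℝ] Eu lam →L[ℝ] ℝ := innerSL ℝ

theorem ipL_apply (v w : Eu lam) : ipL v w = ⟪v, w⟫_ℝ := rfl

theorem ctr_ip (h : PL l il) (f : LF l' il' s) (m : Mm l' il' l (-il) k) :
    ctr ipL k k = 2 * ‖k s‖ ^ 2 := by
  rw [ctr_lf _ f m.l, ipL_apply, ipL_apply, m.il, real_inner_self_eq_norm_sq,
    real_inner_self_eq_norm_sq, neg_apply, norm_neg, h.norm_il, two_mul]

theorem iso_of (h : PL l il) (f : LF l' il' s) (m : Mm l' il' l (-il) k) (n : ‖k s‖ = 1) :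
    trn k * k = l' ∧ k * trn k = l := by
  have g := h.lf n (m.Q s)
  have o : ⟪il (k s), k s⟫_ℝ = 0 := by
    have := h.sk (k s) (k s)
    linarith [real_inner_comm (il (k s)) (k s)]
  have e : ∀ v, k v = ⟪s, v⟫_ℝ • k s - ⟪il' s, v⟫_ℝ • il (k s) := fun v => by
    rw [← m.l, f.dec, map_add, map_smul, map_smul, m.il, neg_apply, smul_neg, sub_eq_add_neg]
  have e' : ∀ w, trn k w = ⟪k s, w⟫_ℝ • s - ⟪il (k s), w⟫_ℝ • il' s := fun w =>
    ext_inner_right ℝ fun v => by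
      rw [Eqv71.inner_trn, e v]
      simp only [inner_sub_left, inner_sub_right, real_inner_smul_left, real_inner_smul_right,
        real_inner_comm w]
      ring
  refine ⟨ContinuousLinearMap.ext fun v => ?_, ContinuousLinearMap.ext fun v => ?_⟩
  · rw [mul_apply_eq_comp, e', e v, f.dec]
    simp only [inner_sub_right, real_inner_smul_right, real_inner_self_eq_norm_sq, g.n1, g.n2, o,
      real_inner_comm (il (k s)) (k s)]
    module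
  · rw [mul_apply_eq_comp, e', map_sub, map_smul, map_smul, m.il, g.dec, neg_apply, smul_neg,
      sub_neg_eq_add]

end line

section alg
variable {κ : Type} [Fintype κ]

/-- relations between the letters -/
structure Rel (p J ξ η j₀ j₁ : En κ) : Prop where
  JJ : ∀ v, J (J v) = -v
  ξξ : ∀ v, ξ (ξ v) = -p v
  ξJ : ∀ v, ξ (J v) = J (ξ v)
  pJ : ∀ v, p (J v) = J (p v)
  pξ : ∀ v, p (ξ v) = ξ v
  ξp : ∀ v, ξ (p v) = ξ v
  pp : ∀ v, p (p v) = p v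
  J₀ : ∀ v, j₀ (J v) = -J (j₀ v)
  J₁ : ∀ v, j₁ (J v) = -J (j₁ v)
  ξ₀ : ∀ v, j₀ (ξ v) = ξ (j₀ v)
  ξ₁ : ∀ v, j₁ (ξ v) = ξ (j₁ v)
  p₀ : ∀ v, p (j₀ v) = j₀ v
  p₁ : ∀ v, p (j₁ v) = j₁ v
  q₀ : ∀ v, j₀ (p v) = j₀ v
  q₁ : ∀ v, j₁ (p v) = j₁ v
  s₀ : ∀ v, j₀ (j₀ v) = p v
  s₁ : ∀ v, j₁ (j₁ v) = p v
  ηJ : ∀ v, η (J v) = J (η v)
  ηξ : ∀ v, η (ξ v) = -ξ (η v)
  η₀ : ∀ v, η (j₀ v) = j₀ (η v)
  η₁ : ∀ v, η (j₁ v) = j₁ (η v)
  pη : ∀ v, p (η v) = η v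
  ηp : ∀ v, η (p v) = η v

/-- the antilinear isomorphism -/
def uu (J ξ η j₀ j₁ : En κ) : En κ :=
  (1 / 2 : ℝ) • (η * (j₀ + j₁) + ξ * η * (J * j₀ - J * j₁))

theorem uu_apply (J ξ η j₀ j₁ : En κ) (v : Eu κ) : uu J ξ η j₀ j₁ v =
    (1 / 2 : ℝ) • (η (j₀ v + j₁ v) + ξ (η (J (j₀ v) - J (j₁ v)))) := rfl

variable {p J ξ η η' j₀ j₁ : En κ}

/-- normal ordering -/
local macro "nf " R:term:max S:term:max : tactic => `(tactic| simp only [uu_apply, map_add, map_sub,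
  map_smul, map_neg, neg_neg, ($R).JJ, ($R).ξξ, ($R).ξJ, ($R).pJ, ($R).pξ, ($R).ξp, ($R).pp, ($R).J₀,
  ($R).J₁, ($R).ξ₀, ($R).ξ₁, ($R).p₀, ($R).p₁, ($R).q₀, ($R).q₁, ($R).s₀, ($R).s₁, ($R).ηJ, ($R).ηξ,
  ($R).η₀, ($R).η₁, ($R).pη, ($R).ηp, ($S).ηJ, ($S).ηξ, ($S).η₀, ($S).η₁, ($S).pη, ($S).ηp])

namespace Rel
variable (R : Rel p J ξ η j₀ j₁)
include R

theorem uJ (v : Eu κ) : uu J ξ η j₀ j₁ (J v) = -J (uu J ξ η j₀ j₁ v) := by nf R R; module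

theorem uξ (v : Eu κ) : uu J ξ η j₀ j₁ (ξ v) = -ξ (uu J ξ η j₀ j₁ v) := by nf R R; module

theorem up (v : Eu κ) : uu J ξ η j₀ j₁ (p v) = uu J ξ η j₀ j₁ v := by nf R R

theorem uj (v : Eu κ) : uu J ξ η j₀ j₁ (j₁ v) = j₀ (uu J ξ η j₀ j₁ v) := by nf R R; module

omit R in
theorem uρ {ρ : En κ} (h : ∀ v, J (ρ v) = ρ (J v)) (h₁ : ∀ v, ξ (ρ v) = ρ (ξ v))
    (h₂ : ∀ v, η (ρ v) = ρ (η v)) (h₃ : ∀ v, j₀ (ρ v) = ρ (j₀ v)) (h₄ : ∀ v, j₁ (ρ v) = ρ (j₁ v))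
    (v : Eu κ) : uu J ξ η j₀ j₁ (ρ v) = ρ (uu J ξ η j₀ j₁ v) := by
  simp only [uu_apply, map_add, map_sub, map_smul, h, h₁, h₂, h₃, h₄]

theorem iso (S : Rel p J ξ (trn η) j₀ j₁) (kJ : Skw J) (kξ : Skw ξ) (k₀ : Sym j₀) (k₁ : Sym j₁)
    (e : ∀ v, trn η (η v) = p v) (e' : ∀ v, η (trn η v) = p v) : CIso (uu J ξ η j₀ j₁) p p := by
  have t : ∀ w, Pj41.ad (uu J ξ η j₀ j₁) w = (1 / 2 : ℝ) • (j₀ (trn η w) + j₁ (trn η w) +
      (j₀ (J (trn η (ξ w))) - j₁ (J (trn η (ξ w))))) := fun w => ext_inner_right ℝ fun v => by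
    simp only [Pj41.inner_ad_left, uu_apply, real_inner_smul_left, real_inner_smul_right,
      inner_add_left, inner_add_right, inner_sub_left, inner_sub_right, map_add, map_sub, k₀ _ _,
      k₁ _ _, kJ _ _, Eqv71.inner_trn, kξ _ _, neg_neg]
  refine ⟨ContinuousLinearMap.ext fun v => ?_, ContinuousLinearMap.ext fun v => ?_,
    ContinuousLinearMap.ext R.up⟩ <;> rw [ContinuousLinearMap.comp_apply, t]
  · nf R S
    simp only [e]
    nf R S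
    module
  · nf R S
    simp only [e']
    nf R S
    module

end Rel
end alg

end Crest.Agent.X212.Cqn41
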