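import Crest.Agent.X212.Cqn41.Defs

/-!
# Row 212, CQ-NK (helper41): calculus of convergent literal fields
-/

set_option autoImplicit false
set_option linter.unusedSectionVars false
noncomputable section
open Set Function Filter Topology MeasureTheory
open scoped ContDiff Manifold InnerProductSpace NNReal

namespace Crest.Agent.X212.Cqn41
open An Cmp73 Eqv71 Nd18 Dgr80 Shi84
open Abel74 (Lh CvB)
open M (NkS NkC)
open Wz78 (nab SA)
open Wrd81 (wd)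
open ContinuousLinearMap (adjoint)

theorem exists_nf : ∃ φ : ℝ → ℝ, ContDiff ℝ ∞ φ ∧ ∀ x, 0 ≤ x → φ x = (√(1 + x))⁻¹ := by
  have p : ∀ x : ℝ, 0 < 1 + x * Real.smoothTransition (2 * x + 2) := fun x => by
    have a := Real.smoothTransition.nonneg (2 * x + 2)
    have b := Real.smoothTransition.le_one (2 * x + 2)
    rcases le_or_gt x (-1) with h | h
    · rw [Real.smoothTransition.zero_of_nonpos (by linarith)]; simp
    · rcases a.eq_or_lt with e | e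
      · rw [← e]; simp
      · nlinarith [mul_pos e (show 0 < x + 1 by linarith)]
  refine ⟨fun x => (√(1 + x * Real.smoothTransition (2 * x + 2)))⁻¹, ?_, fun x hx => ?_⟩
  · exact ((contDiff_const.add (contDiff_id.mul (Real.smoothTransition.contDiff.comp
      ((contDiff_const.mul contDiff_id).add contDiff_const)))).sqrt fun x => (p x).ne').inv
      fun x => (Real.sqrt_pos.2 (p x)).ne'
  · simp only [Real.smoothTransition.one_of_one_le (show 1 ≤ 2 * x + 2 by linarith), mul_one]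

/-- `tp` as a bilinear map -/
def tpL {V U : Type} [NormedAddCommGroup V] [InnerProductSpace ℝ V] [CompleteSpace V]
    [NormedAddCommGroup U] [InnerProductSpace ℝ U] [CompleteSpace U] (r : CL U (CL V V)) :
    CL V (CL V U) :=
  (adjoint (𝕜 := ℝ) (E := U) (F := V)).toContinuousLinearEquiv.toContinuousLinearMap ∘L r.flip

variable {E : Type} [NormedAddCommGroup E] [NormedSpace ℝ E] [FiniteDimensional ℝ E]
  [MeasurableSpace E] [BorelSpace E]
  {HM : Type} [TopologicalSpace HM] {I : ModelWithCorners ℝ E HM} [I.Boundaryless]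
  {E₀ : Type} [NormedAddCommGroup E₀] [NormedSpace ℝ E₀] [FiniteDimensional ℝ E₀]
  [MeasurableSpace E₀] [BorelSpace E₀]
  {H₀ : Type} [TopologicalSpace H₀] {I₀ : ModelWithCorners ℝ E₀ H₀} [I₀.Boundaryless]
  {E' : Type} [NormedAddCommGroup E'] [NormedSpace ℝ E'] [FiniteDimensional ℝ E']
  [MeasurableSpace E'] [BorelSpace E']
  {H' : Type} [TopologicalSpace H'] {I' : ModelWithCorners ℝ E' H'} [I'.Boundaryless]
  {M : Type} [TopologicalSpace M] [ChartedSpace H₀ M] [IsManifold I₀ ∞ M] [MeasurableSpace M]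
  [BorelSpace M] [T2Space M] [SecondCountableTopology M] {lam α J : Type} [Fintype lam]
  {X : α → Type} [∀ n, TopologicalSpace (X n)] [∀ n, ChartedSpace HM (X n)]
  [∀ n, IsManifold I ∞ (X n)] [∀ n, MeasurableSpace (X n)] [∀ n, BorelSpace (X n)]
  [∀ n, T2Space (X n)] [∀ n, SecondCountableTopology (X n)]
  {Z : α → Type} [∀ n, TopologicalSpace (Z n)] [∀ n, ChartedSpace H' (Z n)]
  [∀ n, IsManifold I' ∞ (Z n)] [∀ n, MeasurableSpace (Z n)] [∀ n, BorelSpace (Z n)]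
  [∀ n, T2Space (Z n)] [∀ n, SecondCountableTopology (Z n)] {r : ℕ}


variable {ι : Type} [Fintype ι]

/-! ### one manifold -/

section one
variable {V : Type} [NormedAddCommGroup V] [InnerProductSpace ℝ V] {F : Fr I₀ M ι}
  {A : ι → M → V →L[ℝ] V} {s t : M → V} {O : Set M}

theorem res_loc (hB : Mp86.Bumps I₀ F.e F.dv) (hA : Mp86.Mc I₀ A) (hO : IsClopen O)
    (hs : ∃ w, F.IsRes A s w) (ht : ∃ w, F.IsRes A t w) (e : EqOn s t O) :
    EqOn (F.res A s) (F.res A t) O := fun x hx => by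
  have := congrFun (Mp86.isRes_unique hB hA (isRes_ind hO (Mp86.res_spec hs))
    (indicator_congr e ▸ isRes_ind hO (Mp86.res_spec ht))) x
  rwa [indicator_of_mem hx, indicator_of_mem hx] at this

theorem res_loc' [FiniteDimensional ℝ V] (hT : ∃ C, F.Tame C) (hA : Mp86.Mc I₀ A) (hO : IsClopen O)
    (hs : Sb I₀ s) (ht : Sb I₀ t) (e : EqOn s t O) : EqOn (F.res A s) (F.res A t) O :=
  let ⟨_, h⟩ := hT
  res_loc (Mp86.bumps_of_tame _ h) hA hO (Mon62.exists_res_sm h hA.sm hA.sk hs.sm hs.bd)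
    (Mon62.exists_res_sm h hA.sm hA.sk ht.sm ht.bd) e

theorem cur_loc [CompleteSpace V] {U : Type} [NormedAddCommGroup U] [InnerProductSpace ℝ U]
    [CompleteSpace U] (ρ : CL U (CL V V)) (hO : IsOpen O) {a b : M → V} (e : EqOn s t O)
    (e' : EqOn a b O) : EqOn (cur F A ρ s a) (cur F A ρ t b) O := fun x hx => by
  simp only [cur, e hx, e' hx, Wz78.nab_congr _ (e.eventuallyEq_of_mem (hO.mem_nhds hx)),
    Wz78.nab_congr _ (e'.eventuallyEq_of_mem (hO.mem_nhds hx))]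

theorem Sb.comp {N : Type} [NormedAddCommGroup N] [NormedSpace ℝ N] [FiniteDimensional ℝ N]
    {f : M → N} (h : Sb I₀ f) {φ : N → ℝ} (hφ : ContDiff ℝ ∞ φ) : Sb I₀ fun x => φ (f x) :=
  let ⟨C, hC⟩ := h.bd
  ⟨hφ.contMDiff.comp h.sm, ((isCompact_closedBall (0 : N) C).exists_bound_of_continuousOn
    hφ.continuous.continuousOn).imp fun _ k x => k _ (mem_closedBall_zero_iff.2 (hC x))⟩

theorem sb_proj {κ : Type} [Fintype κ] {q : M → En κ} (sm : Sm I₀ q) (h1 : ∀ x, Sym (q x))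
    (h2 : ∀ x, q x * q x = q x) : Sb I₀ q := ⟨sm, 1, fun x => norm_proj (h1 x) (h2 x)⟩

/-- the adjoint representation is intertwined -/
theorem me_adR {M' : Type} {m : Md M ι lam} {m' : Md M' ι lam} {x : M} {x' : M'} {U v u}
    (e : ME m x m' x' U v u) {a : m.A} (ha : a ∈ m.gS x) (b : m.A) :
    tp (adR _) (cj u a) (cj u b) = cj u (tp (adR _) a b) := ext_inner_right ℝ fun ξ => by
  have e1 : ∀ w, trn u (u (opL a w)) = opL a w := fun w =>
    (congrArg (fun T : En _ => T _) e.uu).trans (congrArg (fun T : En _ => T w) ha.2.1)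
  have e2 : ∀ w, opL a (trn u (u w)) = opL a w := fun w => by
    have h2 := congrArg trn (show m.p x ∘L opL a = opL a from ha.2.1)
    rw [trn_comp, trn_of_skw ha.1, ContinuousLinearMap.neg_comp, neg_inj, ← e.uu, trn_comp,
      trn_trn] at h2
    exact congrArg (fun T : En _ => T w) h2
  rw [inner_tp, inner_cj, inner_cj, inner_tp, adR_apply, adR_apply, Wz78.adc_apply, Wz78.adc_apply,
    cj_hsL]
  congr 2
  ext1 w
  simp only [opL_cj, trn_trn, ContinuousLinearMap.comp_apply, sub_apply, mul_apply_eq_comp, map_sub,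
    e1, e2]

end one

/-- the current pulls back -/
theorem pul_cur {B : Base M ι lam} {G : Geo I₀ M ι lam} {M' : Type} [TopologicalSpace M']
    [ChartedSpace H' M'] [IsManifold I' ∞ M'] [MeasurableSpace M'] [BorelSpace M'] [T2Space M']
    {B' : Base M' ι lam} {G' : Geo I' M' ι lam} {O' φ ψ U v} (k : KG B G B' G' univ O' φ ψ U v)
    {V V' W W' : Type} [NormedAddCommGroup V] [InnerProductSpace ℝ V] [CompleteSpace V]
    [NormedAddCommGroup V'] [InnerProductSpace ℝ V'] [CompleteSpace V'] [NormedAddCommGroup W]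
    [InnerProductSpace ℝ W] [CompleteSpace W] [NormedAddCommGroup W'] [InnerProductSpace ℝ W']
    [CompleteSpace W'] {A : ι → M → CL V V} {A' : ι → M' → CL V' V'} {T : M → CL V' V}
    (t : IT G' B I₀ O' ψ (fun y a b => U (ψ y) b a) A' A fun y => T (ψ y)) {ρ : CL W (CL V V)}
    {ρ' : CL W' (CL V' V')} {S : CL W' W} {a b : M' → V'} (ha : Sm I' a) (hb : Sm I' b) (x : M)
    (h1 : ∀ w, tp ρ (T x (a (φ x))) (T x w) = S (tp ρ' (a (φ x)) w))
    (h2 : ∀ w, tp ρ (T x (b (φ x))) (T x w) = S (tp ρ' (b (φ x)) w)) :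
    cur G.F A ρ (fun x => T x (a (φ x))) (fun x => T x (b (φ x))) x =
      ridx (fun i j => U x j i) S (cur G'.F A' ρ' a b (φ x)) := by
  have hx := k.inv.maps (mem_univ x)
  have n : ∀ {a : M' → V'}, Sm I' a → ∀ i, nab I₀ G.F.e A i (fun x => T x (a (φ x))) x =
      ∑ j, U x j i • T x (nab I' G'.F.e A' j a (φ x)) := fun ha i => by
    simpa only [k.inv.linv x trivial] using k.symm.toLG.nab hx ⟨fun a y => t.mc'.sm a y, t.pj⟩
      (t.sT _ hx) (t.it _ hx) (ha _) (pul_sm k t ha _)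
      (Eventually.mono (k.inv.opn'.mem_nhds hx) fun z hz => by rw [k.inv.rinv z hz]) i
  refine PiLp.ext fun i => ?_
  have tl : ∀ (a : V) (f : ι → V), tp ρ a (∑ j, U x j i • f j) = ∑ j, U x j i • tp ρ a (f j) :=
    fun a f => by simp only [tp, map_sum, map_smul]
  simp only [cur, ridx_apply, n ha, n hb, tl, h1, h2, map_add, smul_add, Finset.sum_add_distrib]

/-! ### complements to the calculus of `Cmp73` -/

variable {g : Gs I I₀ M ι lam X} {c : ∀ n, Cfg (X n) ι lam r}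

section q
variable (k : g.Bk c) {s : ∀ n, X n → (c n).m.V} {s' : ∀ b : Cfg M ι lam r, M → b.m.V}
  {ξ η : ∀ n, X n → (c n).m.A} {ξ' η' : ∀ b : Cfg M ι lam r, M → b.m.A}
  {f f₁ : ∀ n, X n → ℝ} {f' f₁' : Cfg M ι lam r → M → ℝ} {b : Cfg M ι lam r}
  {u : ∀ n, M → CL (c n).m.V b.m.V}

theorem qs_comp (h : g.QS c f f') {φ : ℝ → ℝ} (hφ : ContDiff ℝ ∞ φ) :
    g.QS c (fun n x => φ (f n x)) fun b x => φ (f' b x) := by
  refine ⟨fun x => (PF.nem (h.pf x) isClosed_univ (fun _ _ => trivial) (fun _ _ => hφ.contDiffAt)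
    (Gs.QS.one.pf x)).congr fun _ _ => (mul_one _).symm, ?_, fun b u l =>
      ⟨hφ.contMDiff.comp (h.lim b u l).1, (h.lim b u l).2.post_smooth hφ⟩⟩
  obtain ⟨C, hC⟩ := h.bd
  obtain ⟨K, hK⟩ := (isCompact_closedBall (0 : ℝ) C).exists_bound_of_continuousOn
    hφ.continuous.continuousOn
  exact ⟨K, hC.mono fun n hn x => hK _ (mem_closedBall_zero_iff.2 (hn x))⟩

theorem qs_add (h : g.QS c f f') (h' : g.QS c f₁ f₁') :
    g.QS c (fun n x => f n x + f₁ n x) fun b x => f' b x + f₁' b x :=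
  ⟨fun x => (h.pf x).add (h'.pf x), h.bd.add h'.bd, fun b u k =>
    ⟨(h.lim b u k).1.add (h'.lim b u k).1, (h.lim b u k).2.add (h'.lim b u k).2⟩⟩

theorem qs_cst (z : ℝ) : g.QS c (fun _ _ => z) fun _ _ => z :=
  Gs.QS.cst (C := |z|) (fun _ _ _ => tendsto_const_nhds) (.of_forall fun _ => le_rfl)

theorem qs_sum {κ : Type*} (T : Finset κ) {w : κ → ∀ n, X n → ℝ} {w' : κ → Cfg M ι lam r → M → ℝ}
    (h : ∀ i ∈ T, g.QS c (w i) (w' i)) :
    g.QS c (fun n x => ∑ i ∈ T, w i n x) fun b x => ∑ i ∈ T, w' i b x := by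
  classical
  induction T using Finset.induction_on with
  | empty => exact qs_cst 0
  | insert a T ha ih =>
    simp only [Finset.sum_insert ha]
    exact qs_add (h a (by simp)) (ih fun i hi => h i (by simp [hi]))

include k

theorem qa_inner (h : g.QA c ξ ξ') (h' : g.QA c η η') :
    g.QS c (fun n x => ⟪ξ n x, η n x⟫_ℝ) fun b x => ⟪ξ' b x, η' b x⟫_ℝ :=
  ⟨fun x => (h.pf x).two (h'.pf x) fun _ _ _ _ _ a b => Wt.inner (k.gx x).kA a b cn_P,
    h.bd.mul h'.bd fun _ _ => norm_inner_le_norm _ _, fun b u l =>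
    ⟨((innerSL ℝ : b.m.A →L[ℝ] b.m.A →L[ℝ] ℝ).contDiff.contMDiff.comp (h.lim b u l).sm).clm_apply
      (h'.lim b u l).sm, ((h.lim b u l).cv.bil (innerSL ℝ) (h'.lim b u l).cv).congr
      (fun _ hy => (l.lim.nr k.ok k.adm hy).mono fun _ hq =>
        (hq.me.inner_cj _ (h'.p _ _)).symm) fun _ _ => rfl⟩⟩

theorem qv_pp (h : g.QV c s s') :
    g.QV c (fun n x => (c n).m.pp (g.B n) x (s n x)) fun b x => b.m.pp g.B₀ x (s' b x) :=
  h.map k (T := fun n => (c n).m.pp (g.B n)) (T' := fun b => b.m.pp g.B₀) (fun x => (k.gx x).cb_pp)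
    (.cst fun n _ => norm_proj (Wz78.pp_sym (k.ok.B _) (k.adm n).ok _)
      (Wz78.pp_pp (k.ok.B _) (k.adm n).ok _))
    (fun n x v _ => p_pp (k.adm n).ok x v) fun _ _ l =>
      have := Wz78.sm_pp l.lim.adm.ok k.ok.B₀
      ⟨this, _, Cv.fixed' this, fun n _ _ hq => hq.me.pp hq.be (k.ok.B n) k.ok.B₀ (k.adm n).ok _⟩

theorem qv_sb (h : g.QV c s s') (l : g.LB c b u) : Sb I₀ (s' b) :=
  ⟨(h.lim b u l).sm, h.bd.imp fun _ hC => (h.lim b u l).le l.lim k.ok k.adm h.p hC⟩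

theorem qa_sb (h : g.QA c ξ ξ') (l : g.LB c b u) : Sb I₀ (ξ' b) :=
  ⟨(h.lim b u l).sm, h.bd.imp fun _ hC => (h.lim b u l).le l.lim k.ok k.adm h.p hC⟩

theorem lh₀ (l : g.LB c b u) : Lh b g.B₀ g.G₀ :=
  ⟨k.ok.B₀, k.ok.G₀, k.tame, l.lim.adm.ok, l.lim.adm.conn, l.lim.adm.sm, l.lim.adm.pos,
    (qv_sb k (Gs.QV.Φ k) l).bd, l.bf⟩

theorem la_curV (l : g.LB c b u) {t : ∀ n, X n → (c n).m.V} {s₁ t₁ : M → b.m.V}
    (h : g.LV c b (g.S c) u s s₁) (h' : g.LV c b (g.S c) u t t₁) (sm : ∀ n, Sm I (s n))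
    (sm' : ∀ n, Sm I (t n)) (a : ι) :
    g.LA c b (g.S c) u (fun n x => cur (g.G n).F (c n).W opL (s n) (t n) x a)
      fun x => cur g.G₀.F b.W opL s₁ t₁ x a := by
  have e : ∀ {s t : ∀ n, X n → (c n).m.V} {s₁ t₁ : M → b.m.V}, g.LV c b (g.S c) u s s₁ →
      g.LV c b (g.S c) u t t₁ → g.LA c b (g.S c) u (fun n x => tp opL (s n x) (t n x))
        fun x => tp opL (s₁ x) (t₁ x) := fun h h' =>
    ⟨sm_tp h.sm h'.sm, (h.cv.bil (tpL opL) h'.cv).congr (fun _ _ => .of_forall fun q =>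
      (ext_inner_right ℝ fun ξ => by
        rw [inner_cj, inner_tp, opL_cj, trn_trn]
        exact ((inner_tp _ _ _ _).trans (inner_trn' _ _ _).symm).symm)) fun _ _ => rfl⟩
  exact (e h (h'.nab l.lim k.ok k.adm sm' a)).add (e h' (h.nab l.lim k.ok k.adm sm a))

theorem la_curA (l : g.LB c b u) {s₁ t₁ : M → b.m.A} (h : g.LA c b (g.S c) u ξ s₁)
    (h' : g.LA c b (g.S c) u η t₁) (sm : ∀ n, Sm I (ξ n)) (sm' : ∀ n, Sm I (η n))
    (m : ∀ n x, ξ n x ∈ (c n).m.gS x) (m' : ∀ n x, η n x ∈ (c n).m.gS x) (a : ι) :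
    g.LA c b (g.S c) u (fun n x => cur (g.G n).F (WA c n) (adR _) (ξ n) (η n) x a)
      fun x => cur g.G₀.F (b.m.adW b.W) (adR _) s₁ t₁ x a := by
  have e : ∀ {s t : ∀ n, X n → (c n).m.A} {s₁ t₁ : M → b.m.A}, g.LA c b (g.S c) u s s₁ →
      g.LA c b (g.S c) u t t₁ → (∀ n x, s n x ∈ (c n).m.gS x) →
      g.LA c b (g.S c) u (fun n x => tp (adR _) (s n x) (t n x))
        fun x => tp (adR _) (s₁ x) (t₁ x) := fun h h' m =>
    ⟨sm_tp h.sm h'.sm, (h.cv.bil (tpL (adR _)) h'.cv).congr (fun _ hy =>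
      (l.lim.nr k.ok k.adm hy).mono fun q hq => (me_adR hq.me (m _ _) _).symm) fun _ _ => rfl⟩
  exact (e h (h'.nab l.lim k.ok k.adm sm' a) m).add (e h' (h.nab l.lim k.ok k.adm sm a) m')

end q

/-! ### functions -/

namespace Up
variable {p : Up I' J Z g c} {f f₁ : ∀ n, Z n → ℝ} {t t₁ : J → Cfg M ι lam r → M → ℝ}

theorem PS.congr (h : p.PS f t) (e : ∀ n x, f₁ n x = f n x) (e' : ∀ j b x, t₁ j b x = t j b x) :
    p.PS f₁ t₁ := by
  rwa [show f₁ = f from funext₂ e, show t₁ = t from funext₃ e']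

theorem PS.mul (h : p.PS f t) (h' : p.PS f₁ t₁) :
    p.PS (fun n x => f n x * f₁ n x) fun j b x => t j b x * t₁ j b x :=
  let ⟨_, a1, a2⟩ := h.ex; let ⟨_, b1, b2⟩ := h'.ex
  ⟨fun n => (h.sb n).smul (h'.sb n), ⟨_, a1.mul b1, fun b u l j _ hx =>
    congrArg₂ (· * ·) (a2 b u l j hx) (b2 b u l j hx)⟩,
    fun b u l j => (h.sb' b u l j).smul (h'.sb' b u l j)⟩

theorem PS.comp (h : p.PS f t) {φ : ℝ → ℝ} (hφ : ContDiff ℝ ∞ φ) :
    p.PS (fun n x => φ (f n x)) fun j b x => φ (t j b x) :=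
  let ⟨_, a1, a2⟩ := h.ex
  ⟨fun n => Sb.comp (h.sb n) hφ, ⟨_, qs_comp a1 hφ, fun b u l j _ hx => congrArg φ (a2 b u l j hx)⟩,
    fun b u l j => Sb.comp (h.sb' b u l j) hφ⟩

theorem PS.cst (z : ℝ) : p.PS (fun _ _ => z) fun _ _ _ => z :=
  ⟨fun _ => sb_const z, ⟨_, qs_cst z, fun _ _ _ _ _ _ => rfl⟩, fun _ _ _ _ => sb_const z⟩

theorem PC.ps {t : J → M → ℝ} (h : p.PC f t) : p.PS f fun j _ => t j :=
  let ⟨_, a1, a2⟩ := h.ex
  ⟨fun n => .of_cb (h.cb n), ⟨_, a1.qs, fun _ _ _ => a2⟩, fun _ _ _ => h.sb'⟩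

/-! ### spinors -/

variable (k : p.OK) {s s₁ : ∀ n, Z n → (p.y n).m.V} {a a₁ : J → ∀ b : Cfg M ι lam r, M → b.m.V}
  {ξ ξ₁ : ∀ n, Z n → (p.y n).m.A} {η η₁ : J → ∀ b : Cfg M ι lam r, M → b.m.A}

namespace PV

theorem congr (h : p.PV s a) (e : ∀ n x, s₁ n x = s n x) (e' : ∀ j b x, a₁ j b x = a j b x) :
    p.PV s₁ a₁ := by
  rwa [show s₁ = s from funext fun n => funext (e n),
    show a₁ = a from funext fun j => funext fun b => funext (e' j b)]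

/-- the limits only matter at the limit configurations -/
theorem congr' (h : p.PV s a) (e : ∀ n x, s₁ n x = s n x)
    (e' : ∀ b u, g.LB c b u → ∀ j x, a₁ j b x = a j b x) : p.PV s₁ a₁ := by
  obtain rfl : s₁ = s := funext fun n => funext (e n)
  obtain ⟨_, a1, a2⟩ := h.ex
  exact ⟨h.sb, h.m, ⟨_, a1, fun b u l j x hx => (a2 b u l j hx).trans (e' b u l j x).symm⟩,
    fun b u l j => funext (e' b u l j) ▸ h.sb' b u l j⟩

theorem add (h : p.PV s a) (h' : p.PV s₁ a₁) :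
    p.PV (fun n x => s n x + s₁ n x) fun j b x => a j b x + a₁ j b x :=
  let ⟨_, a1, a2⟩ := h.ex; let ⟨_, b1, b2⟩ := h'.ex
  ⟨fun n => (h.sb n).add (h'.sb n), fun n x => by rw [map_add, h.m, h'.m],
    ⟨_, (a1.add b1).congr (fun _ _ => map_add ..) fun _ _ => rfl, fun b u l j _ hx =>
      congrArg₂ (· + ·) (a2 b u l j hx) (b2 b u l j hx)⟩,
    fun b u l j => (h.sb' b u l j).add (h'.sb' b u l j)⟩

theorem smul (hf : p.PS f t) (h : p.PV s a) :
    p.PV (fun n x => f n x • s n x) fun j b x => t j b x • a j b x :=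
  let ⟨_, a1, a2⟩ := hf.ex; let ⟨_, b1, b2⟩ := h.ex
  ⟨fun n => (hf.sb n).smul (h.sb n), fun n x => by rw [map_smul, h.m],
    ⟨_, (Gs.QV.smul a1 b1).congr (fun _ _ => map_smul ..) fun _ _ => rfl, fun b u l j _ hx =>
      congrArg₂ (· • ·) (a2 b u l j hx) (b2 b u l j hx)⟩,
    fun b u l j => (hf.sb' b u l j).smul (h.sb' b u l j)⟩

theorem sub (h : p.PV s a) (h' : p.PV s₁ a₁) :
    p.PV (fun n x => s n x - s₁ n x) fun j b x => a j b x - a₁ j b x :=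
  (h.add (smul (.cst (-1)) h')).congr (fun _ _ => by rw [neg_one_smul, sub_eq_add_neg])
    fun _ _ _ => by rw [neg_one_smul, sub_eq_add_neg]

theorem op (h : p.PV s a) {T : ∀ n, Z n → En (Fin (p.y n).m.N)} {T₁ : ∀ n, X n → En (Fin (c n).m.N)}
    {T' : ∀ b : Cfg M ι lam r, M → En (Fin b.m.N)} {T₀ : J → ∀ b : Cfg M ι lam r, M → En (Fin b.m.N)}
    (sb : ∀ n, Sb I' (T n)) (m : ∀ n x w, (p.y n).m.p x w = w → (p.y n).m.p x (T n x w) = T n x w)
    (e : ∀ n x w, trn (p.u n x) (T n (p.φ n x) w) = T₁ n x (trn (p.u n x) w))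
    (q : ∀ {s s'}, g.QV c s s' → g.QV c (fun n x => T₁ n x (s n x)) fun b x => T' b x (s' b x))
    (ag : p.Ag T' T₀) (sb' : Sb' g c T₀) :
    p.PV (fun n x => T n x (s n x)) fun j b x => T₀ j b x (a j b x) :=
  let ⟨_, a1, a2⟩ := h.ex
  ⟨fun n => (sb n).app (h.sb n), fun n x => m n x _ (h.m n x),
    ⟨_, (q a1).congr (fun n x => e n x _) fun _ _ => rfl, fun b u l j _ hx =>
      congrArg₂ (fun (T : En _) w => T w) (ag b u l j hx) (a2 b u l j hx)⟩,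
    fun b u l j => (sb' b u l j).app (h.sb' b u l j)⟩

include k

theorem zero : p.PV 0 0 :=
  ⟨fun _ => sb_const 0, fun _ _ => map_zero _, ⟨_, (Gs.QV.zero k.bk).congr (fun _ _ => map_zero _)
    fun _ _ => rfl, fun _ _ _ _ _ _ => rfl⟩, fun _ _ _ _ => sb_const 0⟩

theorem sum {κ : Type*} (T : Finset κ) {w : κ → ∀ n, Z n → (p.y n).m.V}
    {w' : κ → J → ∀ b : Cfg M ι lam r, M → b.m.V} (h : ∀ i ∈ T, p.PV (w i) (w' i)) :
    p.PV (fun n x => ∑ i ∈ T, w i n x) fun j b x => ∑ i ∈ T, w' i j b x := by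
  classical
  induction T using Finset.induction_on with
  | empty => exact zero k
  | insert a T ha ih =>
    simp only [Finset.sum_insert ha]
    exact (h a (by simp)).add (ih fun i hi => h i (by simp [hi]))

theorem Φ : p.PV (fun n => (p.y n).Φ) fun _ b => b.Φ :=
  ⟨fun n => ⟨(k.lh n).sm, (k.lh n).bΦ⟩, fun n x => by rw [← (k.lh n).pos x, p_pp (k.lh n).ok],
    ⟨_, (Gs.QV.Φ k.bk).congr (fun n => congrFun (k.pb n).pΦ) fun _ _ => rfl,
      fun _ _ _ _ _ _ => rfl⟩, fun _ _ l _ => qv_sb k.bk (Gs.QV.Φ k.bk) l⟩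

theorem inner (h : p.PV s a) (h' : p.PV s₁ a₁) :
    p.PS (fun n x => ⟪s n x, s₁ n x⟫_ℝ) fun j b x => ⟪a j b x, a₁ j b x⟫_ℝ :=
  let ⟨_, a1, a2⟩ := h.ex; let ⟨_, b1, b2⟩ := h'.ex
  ⟨fun n => (h.sb n).inner (h'.sb n), ⟨_, (a1.inner k.bk b1).congr (fun n x =>
    ((((k.pb n).me x).inner _ _).trans (by rw [h'.m])).symm) fun _ _ => rfl, fun b u l j _ hx =>
      congrArg₂ (fun v w => ⟪v, w⟫_ℝ) (a2 b u l j hx) (b2 b u l j hx)⟩,
    fun b u l j => (h.sb' b u l j).inner (h'.sb' b u l j)⟩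

theorem nf (h : p.PV s a) :
    p.PS (fun n x => (√(1 + ‖s n x‖ ^ 2))⁻¹) fun j b x => (√(1 + ‖a j b x‖ ^ 2))⁻¹ :=
  let ⟨_, h1, h2⟩ := exists_nf
  ((h.inner k h).comp h1).congr (fun _ _ => by rw [real_inner_self_eq_norm_sq, h2 _ (sq_nonneg _)])
    fun _ _ _ => by rw [real_inner_self_eq_norm_sq, h2 _ (sq_nonneg _)]

theorem im (h : p.PV s a) : p.PV (fun n x => (p.y n).m.J (s n x)) fun j b x => b.m.J (a j b x) :=
  h.op (T := fun n _ => (p.y n).m.J) (T₁ := fun n _ => (c n).m.J) (T' := fun b _ => b.m.J)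
    (T₀ := fun _ b _ => b.m.J) (fun _ => sb_const _)
    (fun n x w hw => by rw [← mul_apply_eq_comp, ← (k.lh n).ok.Jp, mul_apply_eq_comp, hw])
    (fun n x _ => (((k.pb n).me x).J_apply _).symm) (fun h => h.J k.bk) (fun _ _ _ _ _ _ => rfl)
    fun _ _ _ _ => sb_const _

theorem pm (h : p.PV s a) :
    p.PV (fun n x => (p.y n).m.pm (p.B n) x (s n x)) fun j b x => b.m.pm g.B₀ x (a j b x) :=
  h.op (T := fun n => (p.y n).m.pm (p.B n)) (T₁ := fun n => (c n).m.pm (g.B n))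
    (T' := fun b => b.m.pm g.B₀) (T₀ := fun _ b => b.m.pm g.B₀)
    (fun n => sb_proj (Wz78.sm_pm (k.lh n).ok (k.lh n).hB) (Wz78.pm_sym (k.lh n).hB (k.lh n).ok)
      (Wz78.pm_pm (k.lh n).hB (k.lh n).ok))
    (fun n x w _ => by rw [← mul_apply_eq_comp, Wz78.p_pm (k.lh n).ok])
    (fun n x _ => have k := k.pb n; ((k.me x).pm (k.be x) k.lm.hB' k.lm.hB k.lm.ok' _).symm)
    (fun h => h.pm k.bk) (fun _ _ _ _ _ _ => rfl) fun _ _ l _ => have k := lh₀ k.bk l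
      sb_proj (Wz78.sm_pm k.ok k.hB) (Wz78.pm_sym k.hB k.ok) (Wz78.pm_pm k.hB k.ok)

theorem pp (h : p.PV s a) :
    p.PV (fun n x => (p.y n).m.pp (p.B n) x (s n x)) fun j b x => b.m.pp g.B₀ x (a j b x) :=
  h.op (T := fun n => (p.y n).m.pp (p.B n)) (T₁ := fun n => (c n).m.pp (g.B n))
    (T' := fun b => b.m.pp g.B₀) (T₀ := fun _ b => b.m.pp g.B₀)
    (fun n => sb_proj (Wz78.sm_pp (k.lh n).ok (k.lh n).hB) (Wz78.pp_sym (k.lh n).hB (k.lh n).ok)
      (Wz78.pp_pp (k.lh n).hB (k.lh n).ok))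
    (fun n x w _ => p_pp (k.lh n).ok x w)
    (fun n x _ => have k := k.pb n; ((k.me x).pp (k.be x) k.lm.hB' k.lm.hB k.lm.ok' _).symm)
    (fun h => qv_pp k.bk h) (fun _ _ _ _ _ _ => rfl) fun _ _ l _ => have k := lh₀ k.bk l
      sb_proj (Wz78.sm_pp k.ok k.hB) (Wz78.pp_sym k.hB k.ok) (Wz78.pp_pp k.hB k.ok)

theorem j (h : p.PV s a) {σ : ∀ n, Z n → Eu lam} {σ' : J → M → Eu lam} (hσ : p.PL σ σ') :
    p.PV (fun n x => (p.y n).m.j x (σ n x) (s n x)) fun i b x => b.m.j x (σ' i x) (a i b x) :=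
  let ⟨σ₁, σ₂, a1, a2, a3⟩ := hσ.ex
  h.op (T := fun n x => (p.y n).m.j x (σ n x)) (T₁ := fun n x => (c n).m.j x (σ₁ n x))
    (T' := fun b x => b.m.j x (σ₂ x)) (T₀ := fun i b x => b.m.j x (σ' i x))
    (fun n => sb_j (k.lh n).hB (k.lh n).ok (hσ.sb n))
    (fun n x w _ => by rw [← mul_apply_eq_comp, (k.lh n).ok.pj]) (fun n x => (k.pb n).j (a1 n) x)
    (fun h => h.j k.bk a2) (fun b _ _ i x hx => congrArg (b.m.j x) (a3 i hx))
    fun _ _ l i => sb_j k.bk.ok.B₀ l.lim.adm.ok (hσ.sb' i)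

theorem cl (h : p.PV s a) {d : J → M → ℝ} (hd : p.PD f d) :
    p.PV (fun n x => (∑ i, (p.G n).F.D i (f n) x • (p.y n).m.ρ i x) (s n x))
      fun j b x => (∑ i, g.G₀.F.D i (d j) x • b.m.ρ i x) (a j b x) := by
  obtain ⟨f', a1, a2⟩ := hd.ex
  refine h.op (T₁ := fun n x => ∑ i, (g.G n).F.D i (fun x => f n (p.φ n x)) x • (c n).m.ρ i x)
    (T' := fun b x => ∑ i, g.G₀.F.D i f' x • b.m.ρ i x)
    (fun n => Sb.sum _ fun i _ => (Sb.of_cb ((hd.cd n).2 i)).smul (sb_ρ (k.lh n).hB (k.lh n).ok i))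
    (fun n x w _ => ?_) (fun n x w => ?_) (fun h => ?_)
    (fun b _ _ j x hx => Finset.sum_congr rfl fun i _ => by rw [a2 j i hx])
    fun _ _ l j => Sb.sum _ fun i _ => (hd.sb' j i).smul (sb_ρ k.bk.ok.B₀ l.lim.adm.ok i)
  · simp only [_root_.sum_apply, smul_apply, map_sum, map_smul, ← mul_apply_eq_comp,
      ((k.lh n).ok.cl x).pl]
  · have k := k.pb n
    have e := fun a w => congrArg (fun T : CL (p.y n).m.V (c n).m.V => T w)
      ((k.me x).ρ' (k.be x) k.lm.ok' a)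
    simp only [ContinuousLinearMap.comp_apply, _root_.sum_apply, smul_apply] at e
    simp only [_root_.sum_apply, smul_apply, k.D (f := fun x => f n (p.φ n x)) (fun _ _ => rfl)
      (hd.cd n).1, map_sum, map_smul, ← e, Finset.smul_sum, Finset.sum_smul, smul_smul]
    rw [Finset.sum_comm]
    simp only [mul_comm]
  · simpa only [_root_.sum_apply, smul_apply] using h.cl k.bk a1

theorem rs (h : p.PV s a) (n : α) : Rs (g.G n).F (c n).W (p.pv s n)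
    (p.pv (fun n => (p.G n).F.res (p.y n).W (s n)) n) ∧ ∀ x, (c n).m.p x
      (p.pv (fun n => (p.G n).F.res (p.y n).W (s n)) n x) =
        p.pv (fun n => (p.G n).F.res (p.y n).W (s n)) n x :=
  have b := k.pb n
  ⟨pul_rs (T := fun x => trn (p.u n x)) b.kg (b.lm.symm b.kg.inv).it b.dn
    (fun x => ((b.me x).norm (h.m n _)).ge) (Abel74.rs_res (k.lh n).tame (mc_W (k.lh n).conn)
      ⟨(h.sb n).sm, (h.sb n).bd⟩), fun x => (b.me x).pu_apply b.lm.ok' _⟩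

theorem res (h : p.PV s a) :
    p.PV (fun n => (p.G n).F.res (p.y n).W (s n)) fun j b => g.G₀.F.res b.W (a j b) :=
  let ⟨_, a1, a2⟩ := h.ex
  ⟨fun _ => sb_res .., fun n => (k.lh n).res_p (h.m n),
    ⟨_, a1.res k.bk (fun n => (h.rs k n).1) fun n => (h.rs k n).2, fun b u l j =>
      res_loc' k.bk.tame (mc_W l.lim.adm.conn) (k.cl j) (qv_sb k.bk a1 l) (h.sb' b u l j)
        (a2 b u l j)⟩, fun _ _ _ _ => sb_res ..⟩

end PV

/-! ### sections of `g` -/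

namespace PA

theorem congr (h : p.PA ξ η) (e : ∀ n x, ξ₁ n x = ξ n x) (e' : ∀ j b x, η₁ j b x = η j b x) :
    p.PA ξ₁ η₁ := by
  rwa [show ξ₁ = ξ from funext fun n => funext (e n),
    show η₁ = η from funext fun j => funext fun b => funext (e' j b)]

theorem smul (hf : p.PS f t) (h : p.PA ξ η) :
    p.PA (fun n x => f n x • ξ n x) fun j b x => t j b x • η j b x :=
  let ⟨_, a1, a2⟩ := hf.ex; let ⟨_, b1, b2⟩ := h.ex
  ⟨fun n => (hf.sb n).smul (h.sb n), fun n x => Submodule.smul_mem _ _ (h.m n x),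
    ⟨_, (Gs.QA.smul a1 b1).congr (fun _ _ => map_smul ..) fun _ _ => rfl, fun b u l j _ hx =>
      congrArg₂ (· • ·) (a2 b u l j hx) (b2 b u l j hx)⟩,
    fun b u l j => (hf.sb' b u l j).smul (h.sb' b u l j)⟩

include k

theorem inner (h : p.PA ξ η) (h' : p.PA ξ₁ η₁) :
    p.PS (fun n x => ⟪ξ n x, ξ₁ n x⟫_ℝ) fun j b x => ⟪η j b x, η₁ j b x⟫_ℝ :=
  let ⟨_, a1, a2⟩ := h.ex; let ⟨_, b1, b2⟩ := h'.ex
  ⟨fun n => (h.sb n).inner (h'.sb n), ⟨_, (qa_inner k.bk a1 b1).congr (fun n x =>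
    (((k.pb n).me x).inner_cj _ (h'.m n _)).symm) fun _ _ => rfl, fun b u l j _ hx =>
      congrArg₂ (fun v w => ⟪v, w⟫_ℝ) (a2 b u l j hx) (b2 b u l j hx)⟩,
    fun b u l j => (h.sb' b u l j).inner (h'.sb' b u l j)⟩

theorem q (h : p.PV s a) (h' : p.PV s₁ a₁) :
    p.PA (fun n x => (p.y n).m.q x (s n x) (s₁ n x)) fun j b x => b.m.q x (a j b x) (a₁ j b x) :=
  let ⟨_, a1, a2⟩ := h.ex; let ⟨_, b1, b2⟩ := h'.ex
  ⟨fun n => let ⟨e1, e2⟩ := (k.lh n).sbd_q ⟨(h.sb n).sm, (h.sb n).bd⟩ ⟨(h'.sb n).sm, (h'.sb n).bd⟩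
    ⟨e1, e2⟩, fun _ _ => Wz78.q_mem .., ⟨_, (Gs.QA.q k.bk a1 b1).congr
      (fun n => congrFun ((k.pb n).q _ _)) fun _ _ => rfl, fun b u l j x hx =>
        congrArg₂ (b.m.q x) (a2 b u l j hx) (b2 b u l j hx)⟩, fun b u l j =>
    let ⟨e1, e2⟩ := (lh₀ k.bk l).sbd_q ⟨(h.sb' b u l j).sm, (h.sb' b u l j).bd⟩
      ⟨(h'.sb' b u l j).sm, (h'.sb' b u l j).bd⟩; ⟨e1, e2⟩⟩

theorem rs (h : p.PA ξ η) (n : α) : Rs (g.G n).F (WA c n) (p.pa ξ n)
    (p.pa (fun n => (p.G n).F.res ((p.y n).m.adW (p.y n).W) (ξ n)) n) ∧ ∀ x,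
      p.pa (fun n => (p.G n).F.res ((p.y n).m.adW (p.y n).W) (ξ n)) n x ∈ (c n).m.gS x :=
  have b := k.pb n
  ⟨pul_rs (T := fun x => cj (trn (p.u n x))) b.kg (b.lm.symm b.kg.inv).it_ad b.dn
    (fun x => (b.nA (h.m n _)).ge) (Abel74.rs_res (k.lh n).tame (mc_adW (k.lh n).conn)
      ⟨(h.sb n).sm, (h.sb n).bd⟩), fun x =>
    (b.me x).cj_mem (b.be x) b.lm.ok' b.lm.ok ((k.lh n).res_g (h.m n) _)⟩

theorem res (h : p.PA ξ η) : p.PA (fun n => (p.G n).F.res ((p.y n).m.adW (p.y n).W) (ξ n))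
    fun j b => g.G₀.F.res (b.m.adW b.W) (η j b) :=
  let ⟨_, a1, a2⟩ := h.ex
  ⟨fun _ => sb_res .., fun n => (k.lh n).res_g (h.m n),
    ⟨_, a1.res k.bk (fun n => (h.rs k n).1) fun n => (h.rs k n).2, fun b u l j =>
      res_loc' k.bk.tame (mc_adW l.lim.adm.conn) (k.cl j) (qa_sb k.bk a1 l) (h.sb' b u l j)
        (a2 b u l j)⟩, fun _ _ _ _ => sb_res ..⟩

/-- curvature seeds -/
theorem cv {K : ℝ≥0} {w : ∀ n, Z n → ℝ} (hw : g.WR fun n => w n ∘ p.φ n) {d e : ∀ n, Z n → ℝ}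
    {f' d' e' : J → M → ℝ} (hf : p.PC f f') (hd : p.PD d d') (he : p.PD e e')
    (hb : ∀ n, CvB (p.y n) (p.G n).F K (w n) (f n) (d n) (e n)) :
    p.PA (fun n => (p.y n).sd (p.G n).F (.cv (f n) (d n) (e n)))
      fun j b => b.sd g.G₀.F (.cv (f' j) (d' j) (e' j)) := by
  obtain ⟨f₀, a1, a2⟩ := hf.ex
  obtain ⟨d₀, b1, b2⟩ := hd.ex
  obtain ⟨e₀, c1, c2⟩ := he.ex
  have h := fun n => (k.lh n).sd (s := .cv (f n) (d n) (e n)) ⟨hf.cb n, hd.cd n, he.cd n⟩ (hb n)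
  have h' := fun n => ((k.pb n).aw (ξ := ⟨.cv (fun x => f n (p.φ n x)) (fun x => d n (p.φ n x))
    fun x => e n (p.φ n x), []⟩) (ξ' := ⟨.cv (f n) (d n) (e n), []⟩)
    ⟨.cv (fun _ _ => rfl) (fun _ _ => rfl) fun _ _ => rfl, .nil⟩ ⟨hf.cb n, hd.cd n, he.cd n⟩
    ⟨_, (h n).2, rfl⟩).2
  choose s₀ h1 h2 using h'
  choose u₁ h1 using h1
  refine ⟨fun _ => sb_res .., fun n => (h n).1.2, ⟨_, (Gs.QA.cv k.bk hw a1 b1 c1 h1).congr
    (fun n => congrFun (h2 n)) fun _ _ => rfl, fun b u l j => ?_⟩, fun _ _ _ _ => sb_res ..⟩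
  have i := lh₀ k.bk l
  have F : ∀ s, Sb I₀ fun x => b.m.Fg g.G₀.F b.W x s := fun s =>
    ⟨Wz78.sm_Fg i.hG i.conn (Std94.sm_pg i.hB i.ok) s, i.bF.imp fun _ b x =>
      (PiLp.norm_apply_le _ s).trans (b x)⟩
  have o : ∀ {f f'}, g.FC c f f' → Sb I₀ (f' : M → ℝ) := fun h => ⟨h.sm, h.le k.bk.ok⟩
  refine res_loc' i.tame (mc_adW i.conn) (k.cl j) (sb_res ..) (sb_res ..)
    (res_loc' i.tame (mc_adW i.conn) (k.cl j)
      (Sb.sum _ fun s _ => (((o a1).smul (o (b1 _))).smul (o (c1 _))).smul (F s))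
      (Sb.sum _ fun s _ => (((hf.sb' j).smul (hd.sb' j _)).smul (he.sb' j _)).smul (F s))
      fun _ hx => Finset.sum_congr rfl fun s _ => ?_)
  rw [a2 j hx, b2 j _ hx, c2 j _ hx]

end PA
end Up

end Crest.Agent.X212.Cqn41
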