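import Crest.Agent.X212.Shi84.Pul
import Crest.Agent.X212.Abel74.Lit
import Crest.Agent.X212.Cmp73.Qw
import Crest.Agent.X212.M.Nkc

/-!
# Row 212, CQ-NK (helper41): convergence of neck terms, definitions

The literal fields live on tame manifolds `Z n`, their pull-backs to `X n` converge, and the limit
agrees on the clopen set `O j` with the literal field number `j` on `M`.
-/

set_option autoImplicit false
set_option linter.unusedSectionVars false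
noncomputable section
open Set Function Filter Topology MeasureTheory
open scoped ContDiff Manifold InnerProductSpace NNReal

namespace Crest.Agent.X212.Cqn41
open An Cmp73 Eqv71 Nd18 Dgr80 Shi84
open Abel74 (Lh CvB)
open M (NkS NkC)

variable {E : Type} [NormedAddCommGroup E] [NormedSpace ℝ E] [FiniteDimensional ℝ E]
  [MeasurableSpace E] [BorelSpace E]
  {HM : Type} [TopologicalSpace HM] {I : ModelWithCorners ℝ E HM} [I.Boundaryless]
  {E₀ : Type} [NormedAddCommGroup E₀] [NormedSpace ℝ E₀] [FiniteDimensional ℝ E₀]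
  [MeasurableSpace E₀] [BorelSpace E₀]
  {H₀ : Type} [TopologicalSpace H₀] {I₀ : ModelWithCorners ℝ E₀ H₀} [I₀.Boundaryless]
  {E' : Type} [NormedAddCommGroup E'] [NormedSpace ℝ E'] [FiniteDimensional ℝ E']
  [MeasurableSpace E'] [BorelSpace E']
  {H' : Type} [TopologicalSpace H'] {I' : ModelWithCorners ℝ E' H'} [I'.Boundaryless]
  {M : Type} [TopologicalSpace M] [ChartedSpace H₀ M] [IsManifold I₀ ∞ M] [MeasurableSpace M]
  [BorelSpace M] [T2Space M] [SecondCountableTopology M] {lam α J : Type} [Fintype lam]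
  {X : α → Type} [∀ n, TopologicalSpace (X n)] [∀ n, ChartedSpace HM (X n)]
  [∀ n, IsManifold I ∞ (X n)] [∀ n, MeasurableSpace (X n)] [∀ n, BorelSpace (X n)]
  [∀ n, T2Space (X n)] [∀ n, SecondCountableTopology (X n)]
  {Z : α → Type} [∀ n, TopologicalSpace (Z n)] [∀ n, ChartedSpace H' (Z n)]
  [∀ n, IsManifold I' ∞ (Z n)] [∀ n, MeasurableSpace (Z n)] [∀ n, BorelSpace (Z n)]
  [∀ n, T2Space (Z n)] [∀ n, SecondCountableTopology (Z n)] {r : ℕ}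

section up
variable {ι : Type} [Fintype ι]

variable (I' Z J) in
/-- the configurations `c n` are pulled back from `y n`; clopen parts `O j` of the limit -/
structure Up (g : Gs I I₀ M ι lam X) (c : ∀ n, Cfg (X n) ι lam r) where
  B : ∀ n, Base (Z n) ι lam
  G : ∀ n, Geo I' (Z n) ι lam
  y : ∀ n, Cfg (Z n) ι lam r
  O' : ∀ n, Set (Z n)
  φ : ∀ n, X n → Z n
  ψ : ∀ n, Z n → X n
  U : ∀ n, X n → ι → ι → ℝ
  v : ∀ n, X n → CL (Eu lam) (Eu lam)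
  u : ∀ n, X n → CL (c n).m.V (y n).m.V
  O : J → Set M

variable (g : Gs I I₀ M ι lam X) (c : ∀ n, Cfg (X n) ι lam r)

/-- the properties of a class of families of one-forms (LEAF CU) -/
structure CUx (𝒰 : (∀ n, X n → Fm ι (c n).m.A) → Prop) : Prop where
  zero : 𝒰 0
  add : ∀ {η θ}, 𝒰 η → 𝒰 θ → 𝒰 fun n x => η n x + θ n x
  sub : ∀ {η θ}, 𝒰 η → 𝒰 θ → 𝒰 fun n x => η n x - θ n x
  curV : ∀ {s s' l l'} {a b : ∀ n, X n → (c n).m.V}, g.QV c s s' → g.QV c l l' →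
    (∀ n, Rs (g.G n).F (c n).W (s n) (a n) ∧ ∀ x, (c n).m.p x (a n x) = a n x) →
    (∀ n, Rs (g.G n).F (c n).W (l n) (b n) ∧ ∀ x, (c n).m.p x (b n x) = b n x) →
    𝒰 fun n => cur (g.G n).F (c n).W opL (a n) (b n)
  curA : ∀ {s s' l l'} {a b : ∀ n, X n → (c n).m.A}, g.QA c s s' → g.QA c l l' →
    (∀ n, Rs (g.G n).F (WA c n) (s n) (a n) ∧ ∀ x, a n x ∈ (c n).m.gS x) →
    (∀ n, Rs (g.G n).F (WA c n) (l n) (b n) ∧ ∀ x, b n x ∈ (c n).m.gS x) →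
    𝒰 fun n => cur (g.G n).F (WA c n) (adR (Fin (c n).m.N)) (a n) (b n)
  hc : ∀ {η} {t : ι → ∀ n, X n → ℝ} {t' : ι → M → ℝ}, 𝒰 η → (∀ a, g.FC c (t a) (t' a)) →
    g.HC c fun n x => (-8 : ℝ) • (c n).m.p2 (g.B n) x (WithLp.toLp 2 fun s => t s.1 n x • η n x s.2)

namespace Up
variable {g c} (p : Up I' J Z g c)

structure OK : Prop where
  bk : g.Bk c
  pb : ∀ n, PB (g.B n) (g.G n) (p.B n) (p.G n) (p.O' n) (p.φ n) (p.ψ n) (p.U n) (p.v n) (c n) (p.y n)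
    (p.u n)
  lh : ∀ n, Lh (p.y n) (p.B n) (p.G n)
  cl : ∀ j, IsClopen (p.O j)

/-- pull-backs -/
abbrev pv (s : ∀ n, Z n → (p.y n).m.V) : ∀ n, X n → (c n).m.V := fun n => pV (p.φ n) (p.u n) (s n)

abbrev pa (s : ∀ n, Z n → (p.y n).m.A) : ∀ n, X n → (c n).m.A := fun n => pA (p.φ n) (p.u n) (s n)

abbrev p1 (s : ∀ n, Z n → Fm ι (p.y n).m.A) : ∀ n, X n → Fm ι (c n).m.A := fun n x =>
  ridx (fun a b => p.U n x b a) (cj (trn (p.u n x))) (s n (p.φ n x))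

abbrev pc (s : ∀ n, Z n → Fm (ι × ι) (p.y n).m.A) : ∀ n, X n → Fm (ι × ι) (c n).m.A := fun n =>
  pC (p.φ n) (p.U n) (p.u n) (s n)

/-- agreement on the clopen parts at all limit configurations -/
def Ag {N : Cfg M ι lam r → Type} (s : ∀ b, M → N b) (t : J → ∀ b, M → N b) : Prop :=
  ∀ b u, g.LB c b u → ∀ j, EqOn (s b) (t j b) (p.O j)

variable (g c) in
/-- smooth and bounded at all limit configurations -/
def Sb' {N : Cfg M ι lam r → Type} [∀ b, NormedAddCommGroup (N b)] [∀ b, NormedSpace ℝ (N b)]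
    (t : J → ∀ b, M → N b) : Prop := ∀ b u, g.LB c b u → ∀ j, Sb I₀ (t j b)

/-- functions -/
structure PS (f : ∀ n, Z n → ℝ) (t : J → Cfg M ι lam r → M → ℝ) : Prop where
  sb : ∀ n, Sb I' (f n)
  ex : ∃ f', g.QS c (fun n x => f n (p.φ n x)) f' ∧ p.Ag f' t
  sb' : Sb' g c t

/-- coefficient functions -/
structure PC (f : ∀ n, Z n → ℝ) (t : J → M → ℝ) : Prop where
  cb : ∀ n, (p.G n).F.Cb (f n)
  ex : ∃ f', g.FC c (fun n x => f n (p.φ n x)) f' ∧ ∀ j, EqOn f' (t j) (p.O j)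
  sb' : ∀ j, Sb I₀ (t j)

/-- functions with convergent differentials -/
structure PD (f : ∀ n, Z n → ℝ) (t : J → M → ℝ) : Prop where
  cd : ∀ n, (p.G n).F.Cd (f n)
  ex : ∃ f', g.FD c (fun n x => f n (p.φ n x)) f' ∧
    ∀ j a, EqOn (g.G₀.F.D a f') (g.G₀.F.D a (t j)) (p.O j)
  sb' : ∀ j a, Sb I₀ (g.G₀.F.D a (t j))

/-- sections of the line -/
structure PL (f : ∀ n, Z n → Eu lam) (t : J → M → Eu lam) : Prop where
  sb : ∀ n, Sb I' (f n)
  ex : ∃ f₁ f', (∀ n, SR univ (p.φ n) (p.v n) (f₁ n) (f n)) ∧ g.FC c f₁ f' ∧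
    ∀ j, EqOn f' (t j) (p.O j)
  sb' : ∀ j, Sb I₀ (t j)

/-- spinor fields -/
structure PV (s : ∀ n, Z n → (p.y n).m.V) (t : J → ∀ b : Cfg M ι lam r, M → b.m.V) : Prop where
  sb : ∀ n, Sb I' (s n)
  m : ∀ n x, (p.y n).m.p x (s n x) = s n x
  ex : ∃ s', g.QV c (p.pv s) s' ∧ p.Ag s' t
  sb' : Sb' g c t

/-- sections of `g` -/
structure PA (s : ∀ n, Z n → (p.y n).m.A) (t : J → ∀ b : Cfg M ι lam r, M → b.m.A) : Prop where
  sb : ∀ n, Sb I' (s n)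
  m : ∀ n x, s n x ∈ (p.y n).m.gS x
  ex : ∃ s', g.QA c (p.pa s) s' ∧ p.Ag s' t
  sb' : Sb' g c t

variable (𝒰 : (∀ n, X n → Fm ι (c n).m.A) → Prop)

/-- one-forms -/
structure P1 (η : ∀ n, Z n → Fm ι (p.y n).m.A) (θ : J → ∀ b : Cfg M ι lam r, M → Fm ι b.m.A) :
    Prop where
  cu : 𝒰 (p.p1 η)
  ex : ∀ b u, g.LB c b u → ∃ η' : M → Fm ι b.m.A,
    (∀ a, g.LA c b (g.S c) u (fun n x => p.p1 η n x a) fun x => η' x a) ∧
      ∀ j, EqOn η' (θ j b) (p.O j)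

/-- seeds -/
structure PSe (S : ∀ n, Sed (Z n) ι lam r) (S' : J → Sed M ι lam r) : Prop where
  s : p.PA (fun n => (S n).s (p.y n)) fun j b => (S' j).s b
  A : ∀ ⦃l m⦄, p.PA l m → p.P1 𝒰 (fun n => (S n).sA (p.y n) (l n)) fun j b => (S' j).sA b (m j b)
  P : ∀ ⦃l m⦄, p.PA l m → p.PV (fun n => (S n).sP (p.y n) (l n)) fun j b => (S' j).sP b (m j b)

/-- densities -/
structure PDn (d : ∀ n, Den (Z n) ι lam r) (d' : J → Den M ι lam r) : Prop where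
  h : p.PS (fun n => (d n).h (p.y n)) fun j b => (d' j).h b
  A : ∀ ⦃f t⦄, p.PS f t → p.P1 𝒰 (fun n => (d n).gA (p.y n) (f n)) fun j b => (d' j).gA b (t j b)
  P : ∀ ⦃f t⦄, p.PS f t → p.PV (fun n => (d n).gP (p.y n) (f n)) fun j b => (d' j).gP b (t j b)

end Up

/-- finite sums of perturbations -/
def psum {m : ℕ} [Fintype J] (τ : J → Pt M ι lam r m) : Pt M ι lam r m where
  D b x := ∑ j, (τ j).D b x
  C b x := ∑ j, (τ j).C b x
  S b i := ∑ j, (τ j).S b i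

end up

section nk
variable {E3 : Type} [NormedAddCommGroup E3] [NormedSpace ℝ E3] [FiniteDimensional ℝ E3]
  [MeasurableSpace E3] [BorelSpace E3]
  {H3 : Type} [TopologicalSpace H3] {I3 : ModelWithCorners ℝ E3 H3} [I3.Boundaryless]
  {Y : Type} [TopologicalSpace Y] [ChartedSpace H3 Y] [IsManifold I3 ∞ Y] [T2Space Y]
  [MeasurableSpace Y] [BorelSpace Y] [SecondCountableTopology Y] [CompactSpace Y]
  {κ : Type} [Fintype κ] {g : Gs I I₀ M (Option κ) lam X} {c : ∀ n, Cfg (X n) (Option κ) lam r}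
  [Fintype J]

/-- a neck `K n` on `Z n`, its pull-back `K₁ n` and its limits `K' j` at the times `s j n` -/
structure NU (p : Up I' J Z g c) (D : YD I3 Y κ lam) where
  K : ∀ n, Nk D (p.B n) (p.G n)
  K₁ : ∀ n, Nk D (g.B n) (g.G n)
  K' : J → Nk D g.B₀ g.G₀
  s : J → α → ℝ

namespace NU
variable {p : Up I' J Z g c} {D : YD I3 Y κ lam} (ν : NU p D)

structure OK : Prop where
  up : p.OK
  r : ∀ n, NkR univ univ (p.φ n) (ν.K₁ n) (ν.K n) 0
  tg : ∀ n, (ν.K n).ψ.target ⊆ p.O' n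
  σ : ∀ n (f : Y → Eu lam), SR univ (p.φ n) (p.v n) ((ν.K₁ n).ext f) ((ν.K n).ext f)
  S : NkS g ν.K₁ ν.K' ν.s
  dj : Pairwise (Disjoint on p.O)
  sub : ∀ j, (ν.K' j).ψ.target ⊆ p.O j

/-- LEAF CYC: the cyclic seeds converge -/
def CYC (𝒰 : (∀ n, X n → Fm (Option κ) (c n).m.A) → Prop) : Prop :=
  ∀ d : Cyc79.Cy Y, d.OK D.F →
    p.PSe 𝒰 (fun n => ((ν.K n).cyc d).sed (p.G n).F) fun j => ((ν.K' j).cyc d).sed g.G₀.F

/-- LEAF EW: the windows of the smoothed energy are bounded and converge -/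
structure EW (N : ND Y lam) : Prop where
  bd : ∃ C, ∀ᶠ n in (g.l : Filter α), ∀ t,
    wn (p.G n).F.μ (ν.K n).τ N.δ (N.ew (ν.K n) (p.y n)) t ≤ C
  cv : ∀ b u, g.LB c b u → ∀ j t, Tendsto
    (fun n => wn (p.G n).F.μ (ν.K n).τ N.δ (N.ew (ν.K n) (p.y n)) (t + ν.s j n)) g.l
    (𝓝 (wn g.G₀.F.μ (ν.K' j).τ N.δ (N.ew (ν.K' j) b) t))

/-- LEAF CVB: bounds for the curvature seeds -/
def CV (f : ∀ n, Z n → ℝ) (a a' : Option (Y → ℝ)) : Prop :=
  ∃ (K : ℝ≥0) (w : ∀ n, Z n → ℝ), (g.WR fun n => w n ∘ p.φ n) ∧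
    ∀ n, CvB (p.y n) (p.G n).F K (w n) (f n) ((ν.K n).fn a) ((ν.K n).fn a')

def CVT : YT Y → Prop
  | .cv _ _ f a a' _ => ν.CV (fun n => (ν.K n).ext f) a a'
  | _ => True

/-- the perturbations `τ n` on `Z n` converge to the sum of the `τ' j` -/
abbrev QN {m : ℕ} (p : Up I' J Z g c) (τ : ∀ n, Pt (Z n) (Option κ) lam r m)
    (τ' : J → Pt M (Option κ) lam r m) : Prop :=
  g.QT c (p.pv fun n => (τ n).D (p.y n)) (p.pc fun n => (τ n).C (p.y n)) (fun n => (τ n).S (p.y n))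
    (psum τ')

/-- the statement for `q1` -/
def Q1 (m : ℕ) : Prop := ∀ 𝒰, CUx g c 𝒰 → ν.CYC 𝒰 → ∀ N : ND Y lam, N.OK D →
  ∀ (z : α → ℝ) z₀, Tendsto z g.l (𝓝 z₀) →
    QN p (m := m) (fun n => (N.smul (z n)).q1 (ν.K n)) fun j => (N.smul z₀).q1 (ν.K' j)

/-- the statement for `q2` -/
def Q2 (m : ℕ) : Prop := ∀ N : ND Y lam, N.OK D → ν.EW N → ∀ T : YT Y, T.OK I3 → ν.CVT T →
  QN p (m := m) (fun n => N.q2 (ν.K n) T) fun j => N.q2 (ν.K' j) T

end NU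
end nk

end Crest.Agent.X212.Cqn41
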