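import Crest.Agent.X212.Cqn41.Clc

/-!
# Row 212, CQ-NK (helper41): words, densities and seeds
-/

set_option autoImplicit false
set_option linter.unusedSectionVars false
noncomputable section
open Set Function Filter Topology MeasureTheory
open scoped ContDiff Manifold InnerProductSpace NNReal

namespace Crest.Agent.X212.Cqn41
open An Cmp73 Eqv71 Nd18 Dgr80 Shi84
open Abel74 (Lh CvB)
open M (NkS NkC)
open Wz78 (nab SA)
open Wrd81 (wd)
open ContinuousLinearMap (adjoint)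

theorem tp_opL {κ κ' : Type} [Fintype κ] [DecidableEq κ] [Fintype κ'] [DecidableEq κ']
    (u : CL (Eu κ) (Eu κ')) (a b : Eu κ) : tp opL (u a) (u b) = cj u (tp opL a b) :=
  ext_inner_right ℝ fun ξ => by
    rw [inner_tp, inner_cj, inner_tp, opL_cj, trn_trn]
    exact (inner_trn' _ _ _).symm

theorem cu_congr {α : Type} {X V : α → Type} {𝒰 : (∀ n, X n → V n) → Prop} {a b : ∀ n, X n → V n}
    (h : 𝒰 a) (e : ∀ n x, b n x = a n x) : 𝒰 b := by
  rwa [show b = a from funext fun n => funext (e n)]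

variable {E : Type} [NormedAddCommGroup E] [NormedSpace ℝ E] [FiniteDimensional ℝ E]
  [MeasurableSpace E] [BorelSpace E]
  {HM : Type} [TopologicalSpace HM] {I : ModelWithCorners ℝ E HM} [I.Boundaryless]
  {E₀ : Type} [NormedAddCommGroup E₀] [NormedSpace ℝ E₀] [FiniteDimensional ℝ E₀]
  [MeasurableSpace E₀] [BorelSpace E₀]
  {H₀ : Type} [TopologicalSpace H₀] {I₀ : ModelWithCorners ℝ E₀ H₀} [I₀.Boundaryless]
  {E' : Type} [NormedAddCommGroup E'] [NormedSpace ℝ E'] [FiniteDimensional ℝ E']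
  [MeasurableSpace E'] [BorelSpace E']
  {H' : Type} [TopologicalSpace H'] {I' : ModelWithCorners ℝ E' H'} [I'.Boundaryless]
  {M : Type} [TopologicalSpace M] [ChartedSpace H₀ M] [IsManifold I₀ ∞ M] [MeasurableSpace M]
  [BorelSpace M] [T2Space M] [SecondCountableTopology M] {lam α J : Type} [Fintype lam]
  {X : α → Type} [∀ n, TopologicalSpace (X n)] [∀ n, ChartedSpace HM (X n)]
  [∀ n, IsManifold I ∞ (X n)] [∀ n, MeasurableSpace (X n)] [∀ n, BorelSpace (X n)]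
  [∀ n, T2Space (X n)] [∀ n, SecondCountableTopology (X n)]
  {Z : α → Type} [∀ n, TopologicalSpace (Z n)] [∀ n, ChartedSpace H' (Z n)]
  [∀ n, IsManifold I' ∞ (Z n)] [∀ n, MeasurableSpace (Z n)] [∀ n, BorelSpace (Z n)]
  [∀ n, T2Space (Z n)] [∀ n, SecondCountableTopology (Z n)] {r : ℕ}


variable {ι : Type} [Fintype ι] {g : Gs I I₀ M ι lam X} {c : ∀ n, Cfg (X n) ι lam r}

theorem la_congr {b : Cfg M ι lam r} {u : ∀ n, M → CL (c n).m.V b.m.V} {S : Set M}
    {s t : ∀ n, X n → (c n).m.A} {s' t' : M → b.m.A} (h : g.LA c b S u s s')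
    (e : ∀ n x, t n x = s n x) (e' : ∀ x, t' x = s' x) : g.LA c b S u t t' := by
  rwa [show t = s from funext fun n => funext (e n), funext e']

namespace Up
variable {p : Up I' J Z g c} {𝒰 : (∀ n, X n → Fm ι (c n).m.A) → Prop}
  {f : ∀ n, Z n → ℝ} {t : J → Cfg M ι lam r → M → ℝ}
  {s s₁ : ∀ n, Z n → (p.y n).m.V} {a a₁ : J → ∀ b : Cfg M ι lam r, M → b.m.V}
  {ξ ξ₁ : ∀ n, Z n → (p.y n).m.A} {η η₁ : J → ∀ b : Cfg M ι lam r, M → b.m.A}
  {θ θ₁ : ∀ n, Z n → Fm ι (p.y n).m.A} {ϑ ϑ₁ : J → ∀ b : Cfg M ι lam r, M → Fm ι b.m.A}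
  (k : p.OK) (hU : CUx g c 𝒰)

/-! ### one-forms -/

namespace P1
include hU

theorem add (h : p.P1 𝒰 θ ϑ) (h' : p.P1 𝒰 θ₁ ϑ₁) :
    p.P1 𝒰 (fun n x => θ n x + θ₁ n x) fun j b x => ϑ j b x + ϑ₁ j b x :=
  ⟨cu_congr (hU.add h.cu h'.cu) fun _ _ => map_add .., fun b u l =>
    let ⟨x, a1, a2⟩ := h.ex b u l; let ⟨y, b1, b2⟩ := h'.ex b u l
    ⟨fun z => x z + y z, fun i => la_congr ((a1 i).add (b1 i))
      (fun _ _ => by simp only [p1, map_add, PiLp.add_apply]) fun _ => rfl,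
      fun j _ hx => congrArg₂ (· + ·) (a2 j hx) (b2 j hx)⟩⟩

theorem sub (h : p.P1 𝒰 θ ϑ) (h' : p.P1 𝒰 θ₁ ϑ₁) :
    p.P1 𝒰 (fun n x => θ n x - θ₁ n x) fun j b x => ϑ j b x - ϑ₁ j b x :=
  ⟨cu_congr (hU.sub h.cu h'.cu) fun _ _ => map_sub .., fun b u l =>
    let ⟨x, a1, a2⟩ := h.ex b u l; let ⟨y, b1, b2⟩ := h'.ex b u l
    ⟨fun z => x z - y z, fun i => ⟨(a1 i).sm.sub (b1 i).sm, ((a1 i).cv.sub (b1 i).cv).congr
      (fun _ _ => .of_forall fun _ => by simp only [p1, map_sub, PiLp.sub_apply]) fun _ _ => rfl⟩,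
      fun j _ hx => congrArg₂ (· - ·) (a2 j hx) (b2 j hx)⟩⟩

include k

theorem zero : p.P1 𝒰 0 0 :=
  ⟨cu_congr hU.zero fun _ _ => map_zero _, fun b u l =>
    ⟨0, fun _ => la_congr ((Gs.QA.zero k.bk).lim b u l) (fun _ _ => by simp [p1]) fun _ => rfl,
      fun _ _ _ => rfl⟩⟩

theorem sum {κ : Type*} (T : Finset κ) {w : κ → ∀ n, Z n → Fm ι (p.y n).m.A}
    {w' : κ → J → ∀ b : Cfg M ι lam r, M → Fm ι b.m.A} (h : ∀ i ∈ T, p.P1 𝒰 (w i) (w' i)) :
    p.P1 𝒰 (fun n x => ∑ i ∈ T, w i n x) fun j b x => ∑ i ∈ T, w' i j b x := by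
  classical
  induction T using Finset.induction_on with
  | empty => exact zero k hU
  | insert a T ha ih =>
    simp only [Finset.sum_insert ha]
    exact (h a (by simp)).add hU (ih fun i hi => h i (by simp [hi]))

theorem curV (h : p.PV s a) (h' : p.PV s₁ a₁) : p.P1 𝒰 (fun n => cur (p.G n).F (p.y n).W opL
    ((p.G n).F.res (p.y n).W (s n)) ((p.G n).F.res (p.y n).W (s₁ n))) fun j b =>
      cur g.G₀.F b.W opL (g.G₀.F.res b.W (a j b)) (g.G₀.F.res b.W (a₁ j b)) := by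
  obtain ⟨_, a1, -⟩ := h.ex
  obtain ⟨_, b1, -⟩ := h'.ex
  obtain ⟨x, c1, c2⟩ := (h.res k).ex
  obtain ⟨y, d1, d2⟩ := (h'.res k).ex
  have e := fun n z => pul_cur (T := fun x => trn (p.u n x)) (k.pb n).kg
    ((k.pb n).lm.symm (k.pb n).kg.inv).it (ρ := opL) (ρ' := opL) (S := cj (trn (p.u n z)))
    ((h.res k).sb n).sm ((h'.res k).sb n).sm z
    (tp_opL _ _) (tp_opL _ _)
  refine ⟨?_, fun b u l => ⟨cur g.G₀.F b.W opL (x b) (y b), fun i => la_congr (la_curV k.bk l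
    (c1.lim b u l) (d1.lim b u l) (fun n => (h.rs k n).1.sm) (fun n => (h'.rs k n).1.sm) i)
    (fun n z => by rw [p1, ← e]) fun _ => rfl, fun j => cur_loc _ (k.cl j).2 (c2 b u l j) (d2 b u l j)⟩⟩
  exact cu_congr (hU.curV a1 b1 (h.rs k) (h'.rs k)) fun n z => (e n z).symm

theorem curA (h : p.PA ξ η) (h' : p.PA ξ₁ η₁) : p.P1 𝒰 (fun n => cur (p.G n).F
    ((p.y n).m.adW (p.y n).W) (adR _) ((p.G n).F.res ((p.y n).m.adW (p.y n).W) (ξ n))
      ((p.G n).F.res ((p.y n).m.adW (p.y n).W) (ξ₁ n))) fun j b => cur g.G₀.F (b.m.adW b.W) (adR _)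
      (g.G₀.F.res (b.m.adW b.W) (η j b)) (g.G₀.F.res (b.m.adW b.W) (η₁ j b)) := by
  obtain ⟨_, a1, -⟩ := h.ex
  obtain ⟨_, b1, -⟩ := h'.ex
  obtain ⟨x, c1, c2⟩ := (h.res k).ex
  obtain ⟨y, d1, d2⟩ := (h'.res k).ex
  have e := fun n z => pul_cur (T := fun x => cj (trn (p.u n x))) (k.pb n).kg
    ((k.pb n).lm.symm (k.pb n).kg.inv).it_ad (ρ := adR _) (ρ' := adR _) (S := cj (trn (p.u n z)))
    ((h.res k).sb n).sm ((h'.res k).sb n).sm z (me_adR ((k.pb n).me z) ((h.res k).m n _))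
    (me_adR ((k.pb n).me z) ((h'.res k).m n _))
  refine ⟨?_, fun b u l => ⟨cur g.G₀.F (b.m.adW b.W) (adR _) (x b) (y b), fun i => la_congr
    (la_curA k.bk l (c1.lim b u l) (d1.lim b u l) (fun n => (h.rs k n).1.sm)
      (fun n => (h'.rs k n).1.sm) c1.p d1.p i) (fun n z => by rw [p1, ← e]) fun _ => rfl,
    fun j => cur_loc _ (k.cl j).2 (c2 b u l j) (d2 b u l j)⟩⟩
  exact cu_congr (hU.curA a1 b1 (h.rs k) (h'.rs k)) fun n z => (e n z).symm

end P1

/-! ### the engine -/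

section eng
variable {V : α → Type} [∀ n, NormedAddCommGroup (V n)] [∀ n, InnerProductSpace ℝ (V n)]
  [∀ n, CompleteSpace (V n)] {V' : Cfg M ι lam r → Type} [∀ b, NormedAddCommGroup (V' b)]
  [∀ b, InnerProductSpace ℝ (V' b)] [∀ b, CompleteSpace (V' b)]
  {P : (∀ n, Z n → V n) → (J → ∀ b, M → V' b) → Prop}
  {A : ∀ n, ι → Z n → CL (V n) (V n)} {A' : ∀ b, ι → M → CL (V' b) (V' b)}
  {ρ : ∀ n, CL (p.y n).m.A (CL (V n) (V n))} {ρ' : ∀ b : Cfg M ι lam r, CL b.m.A (CL (V' b) (V' b))}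

variable (P) in
/-- convergent letters -/
inductive SLc : (∀ n, SL (Z n) (V n)) → (J → ∀ b, SL M (V' b)) → Prop
  | op {T : ∀ n, Z n → CL (V n) (V n)} {T' : J → ∀ b, M → CL (V' b) (V' b)} : (∀ ⦃s t⦄, P s t →
      P (fun n x => T n x (s n x)) (fun j b x => T' j b x (t j b x)) ∧
      P (fun n x => adjoint (T n x) (s n x)) fun j b x => adjoint (T' j b x) (t j b x)) →
      SLc (fun n => .op (T n)) fun j b => .op (T' j b)
  | G : SLc (fun _ => .G) fun _ _ => .G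

variable (hr : ∀ ⦃s t⦄, P s t → P (fun n => (p.G n).F.res (A n) (s n))
    fun j b => g.G₀.F.res (A' b) (t j b)) {σ : Type} {e : σ → ∀ n, SL (Z n) (V n)}
  {e' : σ → J → ∀ b, SL M (V' b)} {s₀ : ∀ n, Z n → V n} {t₀ : J → ∀ b, M → V' b}
include hr

theorem wd_of (h : P s₀ t₀) : ∀ {w : List σ}, (∀ i ∈ w, SLc P (e i) (e' i)) →
    P (fun n => wd (sl (p.G n).F (A n)) (s₀ n) (w.map (e · n)))
      fun j b => wd (sl g.G₀.F (A' b)) (t₀ j b) (w.map (e' · j b))
  | [], _ => h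
  | i :: w, hw => by
    have ih := wd_of h fun j hj => hw j (List.mem_cons_of_mem _ hj)
    have := hw i List.mem_cons_self
    simp only [List.map_cons, Wrd81.wd_cons]
    generalize e i = a, e' i = a' at this
    cases this with
    | op H => exact (H ih).1
    | G => exact hr ih

theorem bk_of : ∀ {w : List σ}, (∀ i ∈ w, SLc P (e i) (e' i)) → ∀ {l m}, P l m →
    P (fun n => bk (p.G n).F (A n) (w.map (e · n)) (l n))
      fun j b => bk g.G₀.F (A' b) (w.map (e' · j b)) (m j b)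
  | [], _, _, _, h => h
  | i :: w, hw, l, m, h => by
    have := hw i List.mem_cons_self
    refine bk_of (fun j hj => hw j (List.mem_cons_of_mem _ hj))
      (l := fun n => slT (p.G n).F (A n) (e i n) (l n))
      (m := fun j b => slT g.G₀.F (A' b) (e' i j b) (m j b)) ?_
    generalize e i = a, e' i = a' at this
    cases this with
    | op H => exact (H h).2
    | G => exact hr h

include k hU in
theorem gc_of (hc : ∀ ⦃s t l m⦄, P s t → P l m → p.P1 𝒰 (fun n => cur (p.G n).F (A n) (ρ n)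
      ((p.G n).F.res (A n) (s n)) ((p.G n).F.res (A n) (l n))) fun j b => cur g.G₀.F (A' b) (ρ' b)
      (g.G₀.F.res (A' b) (t j b)) (g.G₀.F.res (A' b) (m j b))) (h₀ : P s₀ t₀) :
    ∀ {w : List σ}, (∀ i ∈ w, SLc P (e i) (e' i)) → ∀ {l m}, P l m →
      p.P1 𝒰 (fun n => gc (p.G n).F (A n) (ρ n) (s₀ n) (w.map (e · n)) (l n))
        fun j b => gc g.G₀.F (A' b) (ρ' b) (t₀ j b) (w.map (e' · j b)) (m j b)
  | [], _, _, _, _ => P1.zero k hU
  | i :: w, hw, l, m, h => by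
    have hw' := fun j hj => hw j (List.mem_cons_of_mem _ hj)
    have ih := @gc_of hc h₀ w hw'
    have := hw i List.mem_cons_self
    simp only [List.map_cons]
    generalize e i = a, e' i = a' at this
    cases this with
    | op H => exact ih (H h).2
    | G => exact (ih (hr h)).sub hU (hc (wd_of hr h₀ hw') h)

end eng

/-! ### letters -/

theorem slc_mulV (hf : p.PS f t) : SLc p.PV (fun n => ltS (p.G n).F (p.y n) (.mul (f n)))
    fun j b => ltS g.G₀.F b (.mul (t j b)) :=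
  .op fun _ _ h => ⟨h.smul hf, (h.smul hf).congr (fun _ _ => adj_smul_one _ _)
    fun _ _ _ => adj_smul_one _ _⟩

theorem slc_mulA (hf : p.PS f t) :
    SLc p.PA (fun n => laS (p.y n) (.mul (f n))) fun j b => laS b (.mul (t j b)) :=
  .op fun _ _ h => ⟨h.smul hf, (h.smul hf).congr (fun _ _ => adj_smul_one _ _)
    fun _ _ _ => adj_smul_one _ _⟩

include k

theorem slc_cl {d : J → M → ℝ} (hd : p.PD f d) : SLc p.PV (fun n => ltS (p.G n).F (p.y n) (.cl (f n)))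
    fun j b => ltS g.G₀.F b (.cl (d j)) :=
  .op fun _ _ h => ⟨h.cl k hd, ((h.cl k hd).smul (.cst (-1))).congr'
    (fun n _ => adj_cl (k.lh n).ok _ _ _) fun _ _ l _ _ => adj_cl l.lim.adm.ok _ _ _⟩

theorem slc_im : SLc p.PV (fun n => ltS (p.G n).F (p.y n) .im) fun _ b => ltS g.G₀.F b .im :=
  .op fun _ _ h => ⟨h.im k, ((h.im k).smul (.cst (-1))).congr'
    (fun n _ => adj_J (k.lh n).ok _) fun _ _ l _ _ => adj_J l.lim.adm.ok _⟩

theorem PV.nP : p.PV (fun n => nP (p.y n)) fun _ b => nP b := (PV.Φ k).smul ((PV.Φ k).nf k)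

theorem PV.dn (h : p.PV s a) : p.PV (fun n => dn (p.y n) (s n)) fun j b => dn b (a j b) :=
  have e := (PV.Φ k).nf k
  (h.smul e).sub ((PV.Φ k).smul ((e.comp (contDiff_id.pow 3)).mul ((PV.Φ k).inner k h)))

section wd
variable {σ : Type} {w z : List σ} {e : σ → ∀ n, Lt (Z n)} {e' : σ → J → Cfg M ι lam r → Lt M}
  {d : σ → ∀ n, La (Z n)} {d' : σ → J → Cfg M ι lam r → La M}

variable (p w e e') in
omit k in
/-- convergent spinor words -/
def cW : Prop := ∀ i ∈ w, SLc p.PV (fun n => ltS (p.G n).F (p.y n) (e i n))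
  fun j b => ltS g.G₀.F b (e' i j b)

variable (p w d d') in
omit k in
/-- convergent adjoint words -/
def cV : Prop := ∀ i ∈ w, SLc p.PA (fun n => laS (p.y n) (d i n)) fun j b => laS b (d' i j b)

theorem cW.sw (h : p.cW w e e') : p.PV (fun n => (p.y n).sw (p.G n).F (w.map (e · n)))
    fun j b => b.sw g.G₀.F (w.map (e' · j b)) := by
  simpa only [sw_eq, List.map_map, Function.comp_def] using
    wd_of (fun _ _ => PV.res k) (PV.Φ k) h

theorem cW.nw (h : p.cW w e e') : p.PV (fun n => nw (p.G n).F (p.y n) (w.map (e · n)))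
    fun j b => nw g.G₀.F b (w.map (e' · j b)) := by
  simpa only [nw_eq, List.map_map, Function.comp_def] using
    wd_of (fun _ _ => PV.res k) (PV.nP k) h

theorem cW.swP (h : p.cW w e e') (hs : p.PV s a) :
    p.PV (fun n => swP (p.G n).F (p.y n) (w.map (e · n)) (s n))
      fun j b => swP g.G₀.F b (w.map (e' · j b)) (a j b) := by
  simpa only [Dgr80.swP, List.map_map, Function.comp_def] using
    (bk_of (fun _ _ => PV.res k) h hs).dn k

theorem cV.la (h : p.cV w d d') (hs : p.PA ξ η) :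
    p.PA (fun n => wd ((p.y n).la (p.G n).F) (ξ n) (w.map (d · n)))
      fun j b => wd (b.la g.G₀.F) (η j b) (w.map (d' · j b)) := by
  simpa only [la_eq, List.map_map, Function.comp_def] using wd_of (fun _ _ => PA.res k) hs h

include hU

theorem cW.swA (h : p.cW w e e') (hs : p.PV s a) :
    p.P1 𝒰 (fun n => swA (p.G n).F (p.y n) (w.map (e · n)) (s n))
      fun j b => swA g.G₀.F b (w.map (e' · j b)) (a j b) := by
  simpa only [Dgr80.swA, List.map_map, Function.comp_def] using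
    gc_of k hU (fun _ _ => PV.res k) (fun _ _ _ _ => P1.curV k hU) (PV.nP k) h hs

/-- densities of spinor words -/
theorem den_sw {e' : σ → J → Lt M} (hw : p.cW w e fun i j _ => e' i j)
    (hz : p.cW z e fun i j _ => e' i j) {T : ∀ n, Pk (Z n) lam} {T' : J → Pk M lam}
    (hT : ∀ ⦃s a⦄, p.PV s a → p.PV (fun n x => pk (p.y n) (T n) x (s n x))
      fun j b x => pk b (T' j) x (a j b x)) :
    p.PDn 𝒰 (fun n => Den.sw (p.G n).F (T n) (w.map (e · n)) (z.map (e · n)))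
      fun j => Den.sw g.G₀.F (T' j) (w.map (e' · j)) (z.map (e' · j)) :=
  ⟨(hT (hw.nw k)).inner k (hz.nw k), fun _ _ hf => (hw.swA k hU ((hT (hz.nw k)).smul hf)).add hU
    (hz.swA k hU ((hT (hw.nw k)).smul hf)), fun _ _ hf =>
    (hw.swP k ((hT (hz.nw k)).smul hf)).add (hz.swP k ((hT (hw.nw k)).smul hf))⟩

variable {S S₁ : ∀ n, Sed (Z n) ι lam r} {S' S₁' : J → Sed M ι lam r}

theorem PSe.wd (h : p.PSe 𝒰 S S') {d' : σ → J → La M} (hw : p.cV w d fun i j _ => d' i j) :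
    p.PSe 𝒰 (fun n => (S n).wd (p.G n).F (w.map (d · n)))
      fun j => (S' j).wd g.G₀.F (w.map (d' · j)) := by
  refine ⟨hw.la k h.s, fun l m hl => ?_, fun l m hl => ?_⟩
  · simpa only [Sed.wd, List.map_map, Function.comp_def] using (gc_of k hU (fun _ _ => PA.res k)
      (fun _ _ _ _ => P1.curA k hU) h.s hw hl).add hU (h.A (bk_of (fun _ _ => PA.res k) hw hl))
  · simpa only [Sed.wd, List.map_map, Function.comp_def] using
      h.P (bk_of (fun _ _ => PA.res k) hw hl)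

theorem PSe.den (h : p.PSe 𝒰 S S') (h' : p.PSe 𝒰 S₁ S₁') :
    p.PDn 𝒰 (fun n => Den.sed (S n) (S₁ n)) fun j => Den.sed (S' j) (S₁' j) :=
  ⟨h.s.inner k h'.s, fun _ _ hf => (h.A (h'.s.smul hf)).add hU (h'.A (h.s.smul hf)),
    fun _ _ hf => (h.P (h'.s.smul hf)).add (h'.P (h.s.smul hf))⟩

end wd
end Up

end Crest.Agent.X212.Cqn41
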