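import Crest.Agent.X212.Cqn41.Q2
import Crest.Agent.X212.Shi84.Nc
import Crest.Agent.X212.Dgr80.Wk
import Crest.Agent.X212.Nka63.A

/-!
# Row 212, CQ-NK (helper41): integrable densities
-/

set_option autoImplicit false
set_option linter.unusedSectionVars false
noncomputable section
open Set Function Filter Topology MeasureTheory
open scoped ContDiff Manifold InnerProductSpace NNReal

namespace Crest.Agent.X212.Cqn41
open An Cmp73 Eqv71 Nd18 Dgr80 Shi84
open Abel74 (Lh CvB)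
open M (NkS NkC)
open Wz78 (nab SA)
open Wrd81 (wd)
open ContinuousLinearMap (adjoint)

open Mp86 (Dom)

variable {E : Type} [NormedAddCommGroup E] [NormedSpace ℝ E] [FiniteDimensional ℝ E]
  [MeasurableSpace E] [BorelSpace E]
  {HM : Type} [TopologicalSpace HM] {I : ModelWithCorners ℝ E HM} [I.Boundaryless]
  {E₀ : Type} [NormedAddCommGroup E₀] [NormedSpace ℝ E₀] [FiniteDimensional ℝ E₀]
  [MeasurableSpace E₀] [BorelSpace E₀]
  {H₀ : Type} [TopologicalSpace H₀] {I₀ : ModelWithCorners ℝ E₀ H₀} [I₀.Boundaryless]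
  {E' : Type} [NormedAddCommGroup E'] [NormedSpace ℝ E'] [FiniteDimensional ℝ E']
  [MeasurableSpace E'] [BorelSpace E']
  {H' : Type} [TopologicalSpace H'] {I' : ModelWithCorners ℝ E' H'} [I'.Boundaryless]
  {M : Type} [TopologicalSpace M] [ChartedSpace H₀ M] [IsManifold I₀ ∞ M] [MeasurableSpace M]
  [BorelSpace M] [T2Space M] [SecondCountableTopology M] {lam α J : Type} [Fintype lam]
  {X : α → Type} [∀ n, TopologicalSpace (X n)] [∀ n, ChartedSpace HM (X n)]
  [∀ n, IsManifold I ∞ (X n)] [∀ n, MeasurableSpace (X n)] [∀ n, BorelSpace (X n)]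
  [∀ n, T2Space (X n)] [∀ n, SecondCountableTopology (X n)]
  {Z : α → Type} [∀ n, TopologicalSpace (Z n)] [∀ n, ChartedSpace H' (Z n)]
  [∀ n, IsManifold I' ∞ (Z n)] [∀ n, MeasurableSpace (Z n)] [∀ n, BorelSpace (Z n)]
  [∀ n, T2Space (Z n)] [∀ n, SecondCountableTopology (Z n)] {r : ℕ}


section gen
variable {ι : Type} [Fintype ι]

section pull
variable {B : Base M ι lam} {G : Geo I₀ M ι lam} {M' : Type} [TopologicalSpace M']
  [ChartedSpace H' M'] [IsManifold I' ∞ M'] [MeasurableSpace M'] [BorelSpace M'] [T2Space M']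
  [SecondCountableTopology M'] {B' : Base M' ι lam} {G' : Geo I' M' ι lam} {O' : Set M'} {φ : M → M'} {ψ : M' → M}
  {U : M → ι → ι → ℝ} {v : M → CL (Eu lam) (Eu lam)} {f : M' → ℝ} {C : ℝ}

theorem lb_pull (k : KG B G B' G' univ O' φ ψ U v) (h : LB G'.F.μ f C) (f0 : ∀ z, 0 ≤ f z) :
    LB G.F.μ (fun x => f (φ x)) C := by
  have e := k.μ
  rw [Measure.restrict_univ] at e
  refine ⟨Integrable.comp_aemeasurable (e ▸ h.1.restrict) (continuous_iff_continuousAt.2 fun x =>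
    (k.rot.sφ x trivial).continuousAt).aemeasurable, ?_⟩
  rw [← setIntegral_univ, ← k.integral]
  exact (setIntegral_le_integral h.1 (.of_forall f0)).trans h.2

theorem lop_eq (h : M → ℝ) (x : M) :
    Mp86.Lop I₀ G.F.e G.F.dv h x = -Wz78.lap I₀ G.F.e G.F.dv (fun _ _ => 0) h x := by
  have e : ∀ (a : ι) (u : M → ℝ), nab I₀ G.F.e (fun _ _ => 0) a u = Sob92.dv I₀ (G.F.e a) u :=
    fun _ _ => funext fun _ => add_zero _
  simp only [Mp86.Lop, Wz78.lap, e, neg_neg]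

theorem dom_pull (k : KG B G B' G' univ O' φ ψ U v) (h : Dom G'.F C f) :
    Dom G.F C fun x => f (φ x) := by
  obtain ⟨h, h1, h2⟩ := h
  have s : Sm I₀ fun x => h (φ x) := fun x => k.rot.sa_comp (mem_univ x) (h1 _)
  refine ⟨_, s, fun x => ?_⟩
  rw [lop_eq, ← ContinuousLinearMap.id_apply (R₁ := ℝ) (Wz78.lap ..), ← k.toLG.lap
    (T := fun _ => .id ℝ ℝ) (A' := fun _ _ => 0) (mem_univ x) (fun _ => contMDiffAt_const)
    ⟨fun _ _ => contMDiffAt_const, fun _ _ => by simp⟩ contMDiffAt_const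
    (fun y _ a => by simp [Eqv71.pb, dv_cst]) (s x) (h1 _) (.of_forall fun _ => rfl), ← lop_eq]
  exact h2 _

variable {c : Cfg M ι lam r} {y : Cfg M' ι lam r} {u : M → CL c.m.V y.m.V}

theorem p_nt (h : Ad0 c B G) (τ : M → ℝ) (x : M) :
    c.m.p x (nt G.F c.W τ c.Φ x) = nt G.F c.W τ c.Φ x := by
  simp only [nt, map_sum, map_smul, fun a => (h.conn.cc.p_nab a (h.sm x)).symm, p_Φ h]

theorem norm_nt (k : PB B G B' G' O' φ ψ U v c y u) (h : Ad0 c B G) (sm : Sm I' y.Φ) {τ : M → ℝ}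
    {τ' : M' → ℝ} (d : DR G.F G'.F univ φ U τ τ') (x : M) :
    ‖nt G'.F y.W τ' y.Φ (φ x)‖ = ‖nt G.F c.W τ c.Φ x‖ := by
  rw [← (k.lm.me x trivial).norm (p_nt h τ x)]
  simp only [nt, k.kg.toLG.nab (mem_univ x) k.lm.cn'.cc.toCon (k.lm.su x trivial)
    (k.lm.itw x trivial) (h.sm x) (sm _) (.of_forall k.Φ), Finset.smul_sum, smul_smul, map_sum,
    map_smul, ← d.rev k.kg.toLG (mem_univ x), Finset.sum_smul]
  rw [Finset.sum_comm]

end pull

variable {g : Gs I I₀ M ι lam X} {c : ∀ n, Cfg (X n) ι lam r} {f : ∀ n, X n → ℝ}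

theorem nc_fin {A : Set M} (hA : A.Finite) (h : ∀ x ∈ A, NC g f x) : ∀ ε > 0, ∃ N, IsOpen N ∧
    A ⊆ N ∧ ∀ᶠ n in (g.l : Filter α), li g f n N ≤ ENNReal.ofReal ε := by
  induction A, hA using Set.Finite.induction_on with
  | empty => exact fun _ _ => ⟨∅, isOpen_empty, Subset.rfl, .of_forall fun _ => by simp [li]⟩
  | insert _ _ ih =>
    intro ε hε
    obtain ⟨N, n1, n2⟩ := h _ (mem_insert ..) _ (half_pos hε)
    obtain ⟨N', m1, m2, m3⟩ := ih (fun x hx => h x (mem_insert_of_mem _ hx)) _ (half_pos hε)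
    refine ⟨interior N ∪ N', isOpen_interior.union m1, insert_subset (.inl (mem_interior_iff_mem_nhds.2
      n1)) (m2.trans subset_union_right), (n2.and m3).mono fun n hn => ?_⟩
    rw [li, union_inter_distrib_right, image_union, ← add_halves ε,
      ENNReal.ofReal_add (half_pos hε).le (half_pos hε).le]
    exact (lintegral_union_le ..).trans (add_le_add ((li_mono interior_subset).trans hn.1) hn.2)

/-- **integrals of densities which do not concentrate** -/
theorem int_nc (k : g.Bk c) {ρ : ∀ n, X n → ℝ} {ρ' f' : M → ℝ} (hρ : g.FK c ρ ρ')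
    (c1 : ∀ n, Continuous (ρ n)) (c2 : ∀ n, Continuous (f n)) (c3 : Continuous f')
    (f0 : ∀ n x, 0 ≤ f n x) (i : ∀ n, Integrable (f n) (g.G n).F.μ) {b u} (l : g.LB c b u)
    (cv : Cv I₀ g.l (g.S c)ᶜ (fun n x => f n (g.ψ n x)) f') (nc : ∀ x ∉ g.P, NC g f x) :
    Tendsto (fun n => ∫ x, ρ n x * f n x ∂(g.G n).F.μ) g.l (𝓝 (∫ x, ρ' x * f' x ∂g.G₀.F.μ)) := by
  obtain ⟨K, hK, hP, k1, k2⟩ := hρ.K
  obtain ⟨C, hC⟩ := hρ.bd
  obtain ⟨L, hL⟩ := hK.exists_bound_of_continuousOn c3.continuousOn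
  obtain ⟨T, sT, T1, T2⟩ : ∃ T : ℝ → ℝ, ContDiff ℝ ∞ T ∧ (∀ s ≤ L + 1, T s = s) ∧
      ∀ s, 0 ≤ s → T s ∈ Icc 0 s ∧ T s ≤ |L| + 2 := by
    refine ⟨fun s => s * ct none (some (L + 2)) 0 s, contDiff_id.mul contDiff_ct, fun s hs =>
      (congrArg (s * ·) (ct_one ⟨by simp, by rintro _ ⟨⟩; linarith⟩)).trans (mul_one s),
      fun s hs => ?_⟩
    have := mul_le_of_le_one_right hs (ct_mem (p := none) (q := some (L + 2)) (d := 0) (s := s)).2
    refine ⟨⟨mul_nonneg hs ct_mem.1, this⟩, (le_total s (L + 2)).elim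
      (fun e => by linarith [le_abs_self L]) fun e => ?_⟩
    dsimp only
    rw [Nka63.ct_zero' fun k => by linarith [(Nka63.mem_Dq.1 k).2 _ rfl], mul_zero]
    positivity
  have cT : ∀ n, Continuous fun x => T (f n x) := fun n => sT.continuous.comp (c2 n)
  have e := k.int _ l.lim.P l.lim.fin (fun n x => ((ρ n x * T (f n x) : ℝ) : ℂ))
    (fun x => ((ρ' x * T (f' x) : ℝ) : ℂ)) K (C * (|L| + 2)) hK hP
    (fun n => Complex.continuous_ofReal.comp ((c1 n).mul (cT n)))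
    (Complex.continuous_ofReal.comp (hρ.sm.continuous.mul (sT.continuous.comp c3)))
    (((hρ.cv.mono le_rfl Gs.sub_S).mul (cv.post_smooth sT)).clm Complex.ofRealCLM)
    (fun x hx => by simp [k1 x hx]) ((hC.and k2).mono fun n hn => ⟨fun x =>
      (Complex.norm_real _).trans_le ((norm_mul_le ..).trans (mul_le_mul (hn.1 x)
        ((Real.norm_of_nonneg (T2 _ (f0 n x)).1.1).trans_le (T2 _ (f0 n x)).2) (norm_nonneg _)
        ((norm_nonneg _).trans (hn.1 x)))), fun x hx => by simp [hn.2 x hx]⟩)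
  replace e := (Complex.continuous_re.tendsto _).comp e
  simp only [integral_complex_ofReal, Function.comp_def, Complex.ofReal_re] at e
  rw [integral_congr_ae (g := fun x => ρ' x * f' x) (.of_forall fun x => by
    by_cases hx : x ∈ K
    · rw [T1 _ (by linarith [(le_abs_self _).trans (hL x hx)])]
    · simp only [k1 x hx, zero_mul])] at e
  refine Metric.tendsto_nhds.2 fun ε hε => ?_
  have q : 0 < ε / (1 + |C|) := by positivity
  obtain ⟨N, n1, n2, n3⟩ := nc_fin (l.lim.fin K hK) (fun x hx => nc x (hP hx.2)) _ q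
  filter_upwards [hC, k2, n3, Metric.tendsto_nhds.1 e _ q, cv.unif l.lim.op (hK.diff n1)
    (fun x hx a => hx.2 (n2 ⟨a, hx.1⟩)) one_pos, ev_compact hK
      (p := fun n x => x ∈ (g.ψ n).source) fun x hx => k.ok.src x (hP hx)] with n h1 h2 h3 h4 h5 h6
  have j := (i n).mono' (cT n).aestronglyMeasurable (.of_forall fun x =>
    (Real.norm_of_nonneg (T2 _ (f0 n x)).1.1).trans_le (T2 _ (f0 n x)).1.2)
  have m := (c1 n).aestronglyMeasurable (μ := (g.G n).F.μ)
  refine (dist_triangle _ _ _).trans_lt ((add_lt_add_of_le_of_lt (b := |C| * (ε / (1 + |C|))) ?_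
    h4).trans_eq (by field_simp; ring))
  rw [dist_eq_norm, ← integral_sub ((i n).bdd_mul m (.of_forall h1)) (j.bdd_mul m (.of_forall h1))]
  refine (norm_integral_le_lintegral_norm _).trans (ENNReal.toReal_le_of_le_ofReal (by positivity) ?_)
  rw [ENNReal.ofReal_mul (abs_nonneg _)]
  refine le_trans ?_ (mul_le_mul_right h3 _)
  rw [li, ← lintegral_const_mul' _ _ ENNReal.ofReal_ne_top]
  refine le_trans (lintegral_mono fun z => ?_) (lintegral_indicator_le ..)
  by_cases hz : z ∈ g.ψ n '' (N ∩ (g.ψ n).source)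
  · rw [indicator_of_mem hz, ← ENNReal.ofReal_mul (abs_nonneg _), ← mul_sub, norm_mul]
    have := (T2 _ (f0 n z)).1
    exact ENNReal.ofReal_le_ofReal (mul_le_mul ((h1 z).trans (le_abs_self _))
      (abs_le.2 ⟨by linarith [this.2, f0 n z], sub_le_self _ this.1⟩) (norm_nonneg _) (abs_nonneg _))
  · by_cases hz' : z ∈ g.ψ n '' K
    · obtain ⟨y, hy, rfl⟩ := hz'
      have := h5 y ⟨hy, fun a => hz ⟨y, ⟨a, h6 y hy⟩, rfl⟩⟩
      simp [T1 _ (show f n (g.ψ n y) ≤ L + 1 by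
        linarith [(le_abs_self _).trans (hL y hy), (le_abs_self _).trans_lt this])]
    · simp [h2 z hz']

/-- Fatou's lemma -/
theorem lb_lim (k : g.Bk c) {f' : M → ℝ} {C : ℝ} (c3 : Continuous f') (f0 : ∀ n x, 0 ≤ f n x)
    (f1 : ∀ x, 0 ≤ f' x) (i : ∀ n, LB (g.G n).F.μ (f n) C) {b u} (l : g.LB c b u)
    (cv : Cv I₀ g.l (g.S c)ᶜ (fun n x => f n (g.ψ n x)) f') : LB g.G₀.F.μ f' |C| := by
  have e := k.fat _ l.lim.P l.lim.fin (fun n x => ENNReal.ofReal (f n x)) _ f' (ENNReal.ofReal |C|) cv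
    (fun _ _ => .of_forall fun _ => le_rfl) (.of_forall fun n => by
      rw [← ofReal_integral_eq_lintegral_ofReal (i n).1 (.of_forall (f0 n))]
      exact ENNReal.ofReal_le_ofReal ((i n).2.trans (le_abs_self _)))
  have j : Integrable f' g.G₀.F.μ := ⟨c3.aestronglyMeasurable,
    (hasFiniteIntegral_iff_ofReal (.of_forall f1)).2 (e.trans_lt ENNReal.ofReal_lt_top)⟩
  rw [← ofReal_integral_eq_lintegral_ofReal j (.of_forall f1)] at e
  exact ⟨j, (ENNReal.ofReal_le_ofReal_iff (abs_nonneg _)).1 e⟩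

end gen

variable {E3 : Type} [NormedAddCommGroup E3] [NormedSpace ℝ E3] [FiniteDimensional ℝ E3]
  [MeasurableSpace E3] [BorelSpace E3]
  {H3 : Type} [TopologicalSpace H3] {I3 : ModelWithCorners ℝ E3 H3} [I3.Boundaryless]
  {Y : Type} [TopologicalSpace Y] [ChartedSpace H3 Y] [IsManifold I3 ∞ Y] [T2Space Y]
  [MeasurableSpace Y] [BorelSpace Y] [SecondCountableTopology Y] [CompactSpace Y]
  {κ : Type} [Fintype κ] {D : YD I3 Y κ lam}


theorem tail2 {B : Base M (Option κ) lam} {G : Geo I₀ M (Option κ) lam} (K : Nk D B G) {δ C : ℝ}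
    {h : M → ℝ} (hδ : 0 < δ) (i : LB G.F.μ h C) (h0 : ∀ x, 0 ≤ h x) {ε R : ℝ} (hε : 0 < ε)
    (hR : ∀ s, R ≤ |s| → b δ s ≤ ε * b (δ / 2) s) (t : ℝ) :
    dist (wn G.F.μ K.τ δ (fun x => K.χ x * h x) t)
      (∫ x, bR δ (R + 1) (K.tm x - t) * K.cut 1 (K.tm x) * h x ∂G.F.μ) ≤ ε * δ * |C| := by
  have cχ := (sm_cut K one_pos).sm.continuous
  have cτ := K.sm_τ.continuous.sub (continuous_const (y := t))
  have a : ∀ {β : ℝ → ℝ}, Continuous β → (∀ s, |β s| ≤ δ) →
      Integrable (fun x => β (K.τ x - t) * K.χ x * h x) G.F.μ := fun hβ k =>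
    i.1.bdd_mul ((hβ.comp cτ).mul cχ).aestronglyMeasurable (.of_forall fun x =>
      (norm_mul_le_of_le (k _) ((Real.norm_of_nonneg ct_mem.1).trans_le ct_mem.2)).trans_eq (mul_one δ))
  have b0 : ∀ s, |b δ s| ≤ δ := fun s => (abs_of_pos (b_pos hδ s)).trans_le (b_le hδ s)
  simp only [← time_cut K (fun s => bR δ (R + 1) (s - t)) le_rfl]
  rw [dist_eq_norm, show wn G.F.μ K.τ δ (fun x => K.χ x * h x) t =
    ∫ x, b δ (K.τ x - t) * K.χ x * h x ∂G.F.μ by simp only [wn, smul_eq_mul, mul_assoc]]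
  refine (congrArg norm (integral_sub (a (continuous_b δ) b0) (a (β := bR δ (R + 1))
    ((continuous_b δ).mul contDiff_ct.continuous) fun s => (norm_mul_le_of_le (b0 s)
      ((Real.norm_of_nonneg ct_mem.1).trans_le ct_mem.2)).trans_eq (mul_one δ))).symm).trans_le
    ((norm_integral_le_of_norm_le (i.1.const_mul (ε * δ)) (.of_forall fun x => ?_)).trans ?_)
  · rw [← sub_mul, ← sub_mul, bR, ← mul_one_sub, norm_mul, Real.norm_of_nonneg (h0 x)]
    refine mul_le_mul_of_nonneg_right ((norm_mul_le_of_le (r₁ := ε * δ) ?_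
      ((Real.norm_of_nonneg ct_mem.1).trans_le ct_mem.2)).trans_eq (mul_one _)) (h0 x)
    rcases le_total R |K.τ x - t| with e | e
    · refine (norm_mul_le_of_le ((abs_of_pos (b_pos hδ _)).trans_le ((hR _ e).trans
        (mul_le_mul_of_nonneg_left ((b_le (half_pos hδ) _).trans (half_le_self hδ.le)) hε.le)))
        ((Real.norm_of_nonneg (sub_nonneg.2 ct_mem.2)).trans_le (sub_le_self _ ct_mem.1))).trans_eq
        (mul_one _)
    · rw [ct_one ⟨by rintro _ ⟨⟩; linarith [(abs_le.1 e).1], by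
        rintro _ ⟨⟩; linarith [(abs_le.1 e).2]⟩, sub_self, mul_zero, norm_zero]
      positivity
  · rw [integral_const_mul]
    exact mul_le_mul_of_nonneg_left (i.2.trans (le_abs_self C)) (by positivity)

variable {g : Gs I I₀ M (Option κ) lam X} {c : ∀ n, Cfg (X n) (Option κ) lam r} [Fintype J]
  {p : Up I' J Z g c} {ν : NU p D}

/-- **windows of integrable densities converge** -/
theorem NU.OK.win2 (h : ν.OK) {f : ∀ n, X n → ℝ} {f' : M → ℝ} {δ C : ℝ} (hδ : 0 < δ)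
    (c2 : ∀ n, Continuous (f n)) (c3 : Continuous f') (f0 : ∀ n x, 0 ≤ f n x) (f1 : ∀ x, 0 ≤ f' x)
    (i : ∀ n, LB (g.G n).F.μ (f n) C) {b u} (l : g.LB c b u)
    (cv : Cv I₀ g.l (g.S c)ᶜ (fun n x => f n (g.ψ n x)) f') (nc : ∀ x ∉ g.P, NC g f x) (j : J)
    (t₀ : ℝ) : Tendsto
    (fun n => wn (g.G n).F.μ (ν.K₁ n).τ δ (fun x => (ν.K₁ n).χ x * f n x) (t₀ + ν.s j n)) g.l
    (𝓝 (wn g.G₀.F.μ (ν.K' j).τ δ (fun x => (ν.K' j).χ x * f' x) t₀)) := by
  obtain ⟨A, hA⟩ := bd_bR hδ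
  refine Metric.tendsto_nhds.2 fun ε hε => ?_
  have q : 0 < ε / (1 + 2 * δ * |C|) := by positivity
  obtain ⟨R, hR⟩ := b_tail hδ q
  have z : ∀ {p q : Option ℝ} {a : ℝ}, ∀ s ∉ Dp p q (1 / 2), a * ct p q 1 s = 0 := fun s k => by
    rw [ct_zero fun e => k (Dp_mono (by norm_num) e), mul_zero]
  have bd := fun p q s => ((hA (R + 1)).shift (-s)).mul (bd_ct.choose_spec p q 1)
  simp only [← sub_eq_add_neg] at bd
  have fk := (h.S.one j).time h.up.bk.ok c
    (β := fun n s => bR δ (R + 1) (s - (t₀ + ν.s j n)) * (ν.K₁ n).cut 1 s)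
    (β' := fun s => bR δ (R + 1) (s - t₀) * (ν.K' j).cut 1 s) (fun _ => (bd ..).1)
    (.of_forall fun _ => bd ..) (fun _ s k => z s k) (bd ..).1 (fun s k => z s k) (fun s => by
      simpa only [add_sub_add_right_eq_sub] using
        ((h.S.one j).cut 1 tendsto_const_nhds).const_mul _) (R := |t₀| + (R + 1))
    (.of_forall fun n s hs => by
      rw [bR_zero, zero_mul]
      rw [show s - (t₀ + ν.s j n) = s - ν.s j n - t₀ by ring]
      linarith [abs_sub_abs_le_abs_sub (s - ν.s j n) t₀])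
  have e := int_nc h.up.bk fk (fun n => (bd ..).1.continuous.comp (ν.K₁ n).cont) c2 c3 f0
    (fun n => (i n).1) l cv nc
  filter_upwards [Metric.tendsto_nhds.1 e _ q] with n h2
  have t1 := tail2 (ν.K₁ n) hδ (i n) (f0 n) q hR (t₀ + ν.s j n)
  have t2 := tail2 (ν.K' j) hδ (lb_lim h.up.bk c3 f0 f1 i l cv) f1 q hR t₀
  rw [dist_comm, abs_abs] at t2
  refine (dist_triangle4 _ _ _ _).trans_lt ((add_lt_add_of_lt_of_le
    (add_lt_add_of_le_of_lt t1 h2) t2).trans_eq ?_)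
  field_simp
  ring

end Crest.Agent.X212.Cqn41
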