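import Crest.Agent.X212.Cqn41.Ew
import Crest.Agent.X212.Cqn41.Cyc
import Crest.Agent.X212.Cmp73.Top

/-!
# Row 212, CQ-NK (helper41): the inputs of the neck terms of a job
-/

set_option autoImplicit false
set_option linter.unusedSectionVars false
noncomputable section
open Set Function Filter Topology MeasureTheory
open scoped ContDiff Manifold

namespace Crest.Agent.X212.Cqn41
open An An.Job M Nd18 Cmp73

variable {Wi : Type} {X : Mf 4} {A κ lam : Type} [Fintype A] [Fintype κ] [Fintype lam]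
  [DecidableEq lam] {M : Mark X A κ} {W : World M} {N : ML M lam}
  {Λ : Lns W N} {A' h : Type} [Fintype A'] [DecidableEq A'] [Fintype h] {r n : ℕ}
  {J : Job Wi Λ A' h r n} {Adm : (Wi →₀ ℝ) → Prop}

theorem psh {α : Type} {c c₀ : M.Cl} {F : Fam J α c c₀} {S : F.Sc} (s : F.Src S) {a : A}
    {e : Option Bool} (ha : F.Ac a e) (O : LJ c₀ a J.m F.p₀ e → Set (W.Z c₀).M) :
    (S.nu ha O).Psh := by
  cases s with
  | cy => exact fun _ _ _ => rfl
  | pn hJ k h' e H O' =>
    intro i f x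
    by_cases hx : W.xd k x ∈ (J.K c a _ _ (ha i)).ψ.target
    · exact (Nka63.push_of_mem _ _ hx).trans (Eq.trans (by rfl)
        (Nka63.push_of_mem ((F.pn hJ k h' e H O').K a _ i (ha i)) _ ⟨trivial, hx⟩).symm)
    · exact (Nka63.push_of_notMem _ _ hx).trans
        (Nka63.push_of_notMem ((F.pn hJ k h' e H O').K a _ i (ha i)) _ fun k => hx k.2).symm

theorem nqj_of (hJ : J.OK) (hl : AllS J Adm fun _ _ _ _ S => CyL S.g S.x) : NQJ J Adm :=
  fun α c c₀ F hF S hS a e ha O h => by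
  classical
  obtain ⟨_, _, hb⟩ := hF.bd
  obtain ⟨x⟩ : Nonempty (W.Z c).M := inferInstance
  have k : (S.nu ha O).AP _ (fun _ => x) _ _ :=
    ⟨fun i => (hb i).g, fun i => (hb i).nk a e (ha i), hS.wr fun _ => x⟩
  exact ⟨h.cyc_of (hJ.xs a).1.yd (psh hS.src ha O) (.of_forall fun i => (hb i).g.wts.l4)
    (hl α c c₀ F hF S hS), h.ew k (hJ.xs a).2, fun _ => k.cvt⟩

end Crest.Agent.X212.Cqn41
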