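import Crest.Agent.X212.Nt64.Ntg

/-! Row 212, NT-R: the codimension drop on a set that is open along lines. -/

set_option autoImplicit false
open Set Function Filter Topology

namespace Crest.Agent.X212.Nr41
open Nt64

variable {X Y : Type} [NormedAddCommGroup X] [NormedSpace ℝ X] [CompleteSpace X]
  [NormedAddCommGroup Y] [NormedSpace ℝ Y] [CompleteSpace Y]
  {F : Type} [NormedAddCommGroup F] [NormedSpace ℝ F] [FiniteDimensional ℝ F]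
  {P : Type} [AddCommGroup P] [Module ℝ P]

theorem ntgS (L : X →L[ℝ] Y) (D : P →ₗ[ℝ] X →L[ℝ] Y) (c : F →L[ℝ] Y)
    (hc : Surjective (L.coprod c)) (𝒮 : Set P) (h0 : 0 ∈ 𝒮)
    (ho : ∀ p ∈ 𝒮, ∀ p', ∀ᶠ t in 𝓝 (0 : ℝ), p + t • p' ∈ 𝒮)
    (hs : ∀ p ∈ 𝒮, ¬Surjective (L + D p : X →L[ℝ] Y) →
      ∃ p' v, (L + D p) v = 0 ∧ D p' v ∉ range (L + D p : X →L[ℝ] Y)) :
    ∃ p, ∀ᶠ ε in 𝓝[≠] (0 : ℝ), Surjective (L + ε • D p : X →L[ℝ] Y) := by
  have := FiniteDimensional.complete ℝ F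
  obtain ⟨C, C0, hC⟩ := (L.coprod c).exists_preimage_norm_le hc
  have key : ∀ (n : ℕ) (G : Type) [NormedAddCommGroup G] [NormedSpace ℝ G] [FiniteDimensional ℝ G]
      (d : G →L[ℝ] Y) (p : P), Module.finrank ℝ G = n → p ∈ 𝒮 → ‖D p‖ < 1 / 4 / C →
      Surjective ((L + D p).coprod d) →
      ∃ p', ‖D p'‖ < 1 / 4 / C ∧ Surjective (L + D p' : X →L[ℝ] Y) := fun n => by
    induction n using Nat.strong_induction_on with
    | _ n i =>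
      intro G _ _ _ d p hn hS hp hd
      by_cases k : Surjective (L + D p : X →L[ℝ] Y)
      · exact ⟨p, hp, k⟩
      obtain ⟨p', v, h1, h2⟩ := hs p hS k
      obtain ⟨K, h3, h4⟩ := drop hd h1 h2
      have h5 : ∀ᶠ t in 𝓝 (0 : ℝ), ‖D p + t • D p'‖ < 1 / 4 / C :=
        (by fun_prop : Continuous fun t : ℝ => ‖D p + t • D p'‖).continuousAt.eventually_lt
          continuousAt_const (by simpa using hp)
      obtain ⟨t, h6, h7, h8⟩ := (h4.and (nhdsWithin_le_nhds (h5.and (ho p hS p')))).exists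
      exact i _ (hn ▸ h3) K _ (p + t • p') rfl h8 (by simpa using h7) (by simpa [add_assoc] using h6)
  obtain ⟨p, h1, h2⟩ := key _ F c 0 rfl h0 (by simpa using C0) (by simpa using hc)
  exact ⟨p, line hC C0.le (by rw [mul_comm]; exact (le_div_iff₀ C0).1 h1.le) h2⟩

/-- with a closed subspace `Z` of targets that is complementary at `0` -/
theorem ntgZ (L : X →L[ℝ] Y) (D : P →ₗ[ℝ] X →L[ℝ] Y) (c : F →L[ℝ] Y)
    (hc : Surjective (L.coprod c)) (Z : Submodule ℝ Y) (hZ : IsClosed (Z : Set Y))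
    (hL : ∀ e, ∃ v, L v - e ∈ Z) (𝒮 : Set P) (h0 : 0 ∈ 𝒮)
    (ho : ∀ p ∈ 𝒮, ∀ p', ∀ᶠ t in 𝓝 (0 : ℝ), p + t • p' ∈ 𝒮)
    (hs : ∀ p ∈ 𝒮, (∀ p' v, (L + D p) v = 0 → D p' v ∈ range (L + D p : X →L[ℝ] Y)) →
      ∀ e ∈ Z, e ∈ range (L + D p : X →L[ℝ] Y)) :
    ∃ p, ∀ᶠ ε in 𝓝[≠] (0 : ℝ), Surjective (L + ε • D p : X →L[ℝ] Y) := by
  have := hZ.completeSpace_coe
  refine ntgS L D c hc {p ∈ 𝒮 | Surjective ((L + D p).coprod Z.subtypeL)} ⟨h0, fun e => ?_⟩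
    (fun p hp p' => ?_) fun p hp k => ?_
  · obtain ⟨v, hv⟩ := hL e
    exact ⟨(v, -⟨_, hv⟩), by simp⟩
  · filter_upwards [ho p hp.1 p', ev_surj hp.2 (D p')] with t h1 h2
    exact ⟨h1, fun e => let ⟨v, f, k⟩ := h2 e; ⟨(v, f), by simpa [add_assoc] using k⟩⟩
  · by_contra! H
    refine k fun e => ?_
    obtain ⟨⟨v, z⟩, rfl⟩ := hp.2 e
    obtain ⟨w, hw⟩ := hs p hp.1 H z z.2
    exact ⟨v + w, by rw [map_add, hw]; rfl⟩

end Crest.Agent.X212.Nr41
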