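import Crest.Agent.X212.Cqn41.Nr0
import Crest.Agent.X212.Cqn41.NrA
import Crest.Agent.X212.Cyl58.Oud
import Crest.Agent.X212.Nt66.Ln

/-!
# Row 212, NT-R: targets
-/

set_option autoImplicit false
set_option linter.unusedSectionVars false
noncomputable section
open scoped Manifold ContDiff Topology InnerProductSpace Real
open MeasureTheory Set Function Filter

namespace Crest.Agent.X212.Nr41
open An M Nd18 Mod61 Nk89 Cht98 Rf65 Pte3 Qab60 Prm93 Num57 Sob92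
open An.Job (Sol)
open Dr59 (dM)
open Nt66 (sp rf rx NG)

section job
variable {Wi : Type} {X : Mf 4} {A κ lam : Type} [Fintype A] [Fintype κ] [Fintype lam]
  [DecidableEq lam] {M : Mark X A κ} {W : World M} {N : ML M lam} {Λ : Lns W N}
  {A' h : Type} [Fintype A'] [DecidableEq A'] [Fintype h] {r n : ℕ}
  {J : Job Wi Λ A' h r n} {c : M.Cl} {p : Prt A A' h} {U : Type} [Fintype U] {δ : ℝ} {b : Bp J c}
  {E : EC b p U δ} {O O' : Set (W.Z c).M} {Hs : Set h}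

variable (E O O' Hs) in
/-- the targets as a subspace -/
def tgS : Submodule ℝ E.Y where
  carrier := {e | Tg O O' Hs e}
  zero_mem' := ⟨fun z _ => congrFun val_zero z, fun z _ => congrFun val_zero z, rfl,
    fun _ _ => ⟨rfl, rfl⟩⟩
  add_mem' := fun {u v} hu hv =>
    ⟨fun z k => (congrFun (val_add _ _) z).trans (by rw [Pi.add_apply, hu.D z k, hv.D z k, add_zero]),
      fun z k => (congrFun (val_add _ _) z).trans (by rw [Pi.add_apply, hu.C z k, hv.C z k, add_zero]),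
      show u.1.2.2 + v.1.2.2 = 0 by rw [hu.S, hv.S, add_zero],
      fun i k => ⟨show u.2.1 i + v.2.1 i = 0 by rw [(hu.T i k).1, (hv.T i k).1, add_zero],
        show u.2.2 i + v.2.2 i = 0 by rw [(hu.T i k).2, (hv.T i k).2, add_zero]⟩⟩
  smul_mem' := fun a u hu =>
    ⟨fun z k => (congrFun (val_smul _ _) z).trans (by rw [Pi.smul_apply, hu.D z k, smul_zero]),
      fun z k => (congrFun (val_smul _ _) z).trans (by rw [Pi.smul_apply, hu.C z k, smul_zero]),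
      show a • u.1.2.2 = 0 by rw [hu.S, smul_zero],
      fun i k => ⟨show a • u.2.1 i = 0 by rw [(hu.T i k).1, smul_zero],
        show a • u.2.2 i = 0 by rw [(hu.T i k).2, smul_zero]⟩⟩

theorem closed_tg : IsClosed (tgS E O O' Hs : Set E.Y) := by
  have : (tgS E O O' Hs : Set E.Y) =
      (⋂ z ∈ Oᶜ, {e : E.Y | (b.F p U δ).F0.ev 8 E.o.Pm z e.1.1 = 0}) ∩
      ((⋂ z ∈ O'ᶜ, {e : E.Y | (b.F p U δ).F0.ev 8 E.o.P2 z e.1.2.1 = 0}) ∩
        ({e : E.Y | e.1.2.2 = 0} ∩ ⋂ i ∈ {i : p.H | i.1 ∉ Hs},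
          {e : E.Y | e.2.1 i = 0} ∩ {e : E.Y | e.2.2 i = 0})) := by
    ext e
    simp only [mem_inter_iff, mem_iInter, mem_ofPred_eq]
    exact ⟨fun k => ⟨k.D, k.C, k.S, k.T⟩, fun k => ⟨k.1, k.2.1, k.2.2.1, k.2.2.2⟩⟩
  rw [this]
  refine (isClosed_biInter fun _ _ => isClosed_eq (by fun_prop) continuous_const).inter
    ((isClosed_biInter fun _ _ => isClosed_eq (by fun_prop) continuous_const).inter
      ((isClosed_eq (by fun_prop) continuous_const).inter (isClosed_biInter fun _ _ =>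
        (isClosed_eq (by fun_prop) continuous_const).inter
          (isClosed_eq (by fun_prop) continuous_const))))

variable {L : E.C →L[ℝ] E.Y}

theorem rg_add {u v : E.Y} (hu : u ∈ range L) (hv : v ∈ range L) : u + v ∈ range L :=
  let ⟨a, ha⟩ := hu; let ⟨a', ha'⟩ := hv; ⟨a + a', by rw [map_add, ha, ha']⟩

theorem Ht.DC (h1 : Ht L O ∅ ∅) (h2 : Ht L ∅ O' Hs) : Ht L O O' Hs := fun e k => by
  have : e = ((e.1.1, 0, 0), 0) + ((0, e.1.2), e.2) :=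
    Prod.ext (Prod.ext (add_zero _).symm (zero_add _).symm) (zero_add _).symm
  rw [this]
  exact rg_add (h1 _ ⟨k.D, fun z _ => congrFun val_zero z, rfl, fun _ _ => ⟨rfl, rfl⟩⟩)
    (h2 _ ⟨fun z _ => congrFun val_zero z, k.C, k.S, k.T⟩)

theorem Ht.CT (h1 : Ht L O O' ∅) (h2 : Ht L ∅ ∅ Hs) : Ht L O O' Hs := fun e k => by
  have : e = (e.1, 0) + (0, e.2) := Prod.ext (add_zero _).symm (zero_add _).symm
  rw [this]
  exact rg_add (h1 _ ⟨k.D, k.C, k.S, fun _ _ => ⟨rfl, rfl⟩⟩)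
    (h2 _ ⟨fun z _ => congrFun val_zero z, fun z _ => congrFun val_zero z, rfl, k.T⟩)

theorem vC_add (u v : E.Y) (z) : vC (u + v) z = vC u z + vC v z := congrFun (val_add _ _) z
theorem vC_sub (u v : E.Y) (z) : vC (u - v) z = vC u z - vC v z := congrFun (val_sub _ _) z
theorem vC_smul (a : ℝ) (v : E.Y) (z) : vC (a • v) z = a • vC v z := congrFun (val_smul _ _) z

theorem va_sub (H : (b.F p U δ).OK) {α α' : (W.Z c).M → Fm (Option κ) E.o.m.A}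
    (k : α ∈ Mod61.Hs (b.F p U δ).F0.toPre E.o.P1) (k' : α' ∈ Mod61.Hs (b.F p U δ).F0.toPre E.o.P1)
    (η : E.K) : va E α η = va E α' η + va E (α - α') 0 := by
  have : ofV (b.F p U δ).F0.toPre 9 E.o.P1 α = ofV _ 9 _ α' + ofV _ 9 _ (α - α') :=
    ofV_eq H.sup (by norm_num) (by
      rw [val_add, val_ofV k' (by norm_num), val_ofV (sub_mem k k') (by norm_num), add_sub_cancel])
  simp only [va, this, Prod.mk_add_mk, add_zero]

theorem ntgE {P : Type} [AddCommGroup P] [Module ℝ P] (L : E.C →L[ℝ] E.Y)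
    (D : P →ₗ[ℝ] E.C →L[ℝ] E.Y) {m : ℕ} {k : (Fin m → ℝ) →L[ℝ] E.Y} (hk : Surjective (L.coprod k))
    (hL : ∀ e, ∃ v, Tg O O' Hs (L v - e)) {𝒮 : Set P} (h0 : 0 ∈ 𝒮)
    (ho : ∀ p ∈ 𝒮, ∀ p', ∀ᶠ t in 𝓝 (0 : ℝ), p + t • p' ∈ 𝒮)
    (hs : ∀ p ∈ 𝒮, (∀ p' v, (L + D p) v = 0 → D p' v ∈ range (L + D p : E.C →L[ℝ] E.Y)) →
      Ht (L + D p) O O' Hs) :
    ∃ p, ∀ᶠ ε in 𝓝[≠] (0 : ℝ), Surjective (L + ε • D p : E.C →L[ℝ] E.Y) :=
  ntgZ (X := E.C) (Y := E.Y) L D k hk (tgS E O O' Hs) closed_tg hL 𝒮 h0 ho hs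

/-- the codimension drop for the maps of a chart -/
theorem drop_ch {σ : Cel A'} {q : Wi →₀ ℝ} {y : J.Obc c} {x : Pnt E.o r} {ψ : E.K}
    (ex : ∀ q, ∃ f, E.Map q f) {Dl : (Wi →₀ ℝ) →ₗ[ℝ] E.C →L[ℝ] E.Y}
    (hD : ∀ q q' f g, E.Map q f → E.Map (q + q') g → Ld g x ψ = Ld f x ψ + Dl q')
    (fin : ∀ q f, E.Map q f → IsClosed (range (Ld f x ψ)) ∧
      ∃ (m : ℕ) (k : (Fin m → ℝ) →L[ℝ] E.Y), Surjective ((Ld f x ψ).coprod k))
    (s : Sol σ q y) {𝒮 : Set (Wi →₀ ℝ)} (q0 : q ∈ 𝒮)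
    (op : ∀ q' ∈ 𝒮, ∀ p ∈ Kp σ y, ∀ᶠ t in 𝓝 (0 : ℝ), q' + t • p ∈ 𝒮)
    (hL : ∀ f, E.Map q f → ∀ u, ∃ v, Tg O O' Hs (Ld f x ψ v - u))
    (hs : ∀ q' ∈ 𝒮, ∀ g, E.Map q' g → Stk σ q' y x ψ g → Ht (Ld g x ψ) O O' Hs) :
    ∃ qq, St.Cv atTop qq q ∧ ∀ᶠ k : ℕ in atTop, Sol σ (qq k) y ∧ E.Reg (qq k) x ψ := by
  obtain ⟨f, hf⟩ := ex q
  obtain ⟨m, k, hk⟩ := (fin q f hf).2
  obtain ⟨D', hD'⟩ : ∃ D' : Kp σ y →ₗ[ℝ] E.C →L[ℝ] E.Y, ∀ p, D' p = Dl p.1 :=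
    ⟨Dl ∘ₗ (Kp σ y).subtype, fun _ => rfl⟩
  have key := ntgE (Ld f x ψ) D' hk (hL f hf) (𝒮 := {p : Kp σ y | q + p.1 ∈ 𝒮})
    (by simpa using q0) fun p h1 p' =>
      (op _ h1 p' p'.2).mono fun t h2 => by simpa [add_assoc] using h2
  obtain ⟨p, hp⟩ := key fun p h1 h2 => by
    obtain ⟨g, hg⟩ := ex (q + p)
    have eg : Ld f x ψ + D' p = Ld g x ψ := by rw [hD', hD q p f g hf hg]
    rw [eg] at h2 ⊢
    refine hs _ h1 g hg ⟨(fin _ g hg).1, fun p' k' => ?_⟩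
    obtain ⟨g', hg'⟩ := ex (q + p + p')
    refine ⟨g', hg', fun v hv => ?_⟩
    rw [hD _ p' g g' hg hg', add_apply, hv, zero_add]
    exact hD' ⟨p', k'⟩ ▸ h2 ⟨p', k'⟩ v hv
  have tr : Tendsto (fun k : ℕ => 1 / ((k : ℝ) + 1)) atTop (𝓝[≠] 0) :=
    tendsto_nhdsWithin_iff.2 ⟨tendsto_one_div_add_atTop_nhds_zero_nat,
      .of_forall fun k => (Nat.one_div_pos_of_nat (n := k)).ne'⟩
  refine ⟨fun k => q + (1 / ((k : ℝ) + 1)) • p.1, ⟨p.1.support, fun _ w hw => by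
    simp [Finsupp.notMem_support_iff.1 hw], fun w => ?_⟩, (tr.eventually hp).mono fun k h1 => ⟨p.2 q s _, ?_⟩⟩
  · simpa using (tendsto_one_div_add_atTop_nhds_zero_nat.mul_const (p.1 w)).const_add (q w)
  · obtain ⟨g, hg⟩ := ex (q + (1 / ((k : ℝ) + 1)) • p.1)
    refine ⟨g, hg, ?_⟩
    change Surjective (Ld g x ψ)
    rw [hD q _ f g hf hg, map_smul, ← hD']
    exact h1

end job

end Crest.Agent.X212.Nr41
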