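import Crest.Agent.X212.Dfl49.Dfd
import Crest.Agent.X212.Dfl49.Pc
import Crest.Agent.X212.Pat85.IsB
import Crest.Agent.X212.Mp86.St

/-!
# Row 212, RF-DF (helper41): D-INJ and D-PAR
-/

set_option autoImplicit false
set_option linter.unusedSectionVars false
noncomputable section
open scoped Manifold ContDiff Topology
open Set Filter Function MeasureTheory

namespace Crest.Agent.X212.Cqn41.Pd
open An M G75 Rf65 Nd18 Dfl49 Eqv71 Ins26 Pat85
open An.Job (Sol SolOn)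
open Mp86.St (hp_some piece_hp eq_hp)

section gen
variable {E : Type} [NormedAddCommGroup E] [NormedSpace ℝ E] [FiniteDimensional ℝ E]
  [MeasurableSpace E] [BorelSpace E] {HM : Type} [TopologicalSpace HM] {I : ModelWithCorners ℝ E HM} [I.Boundaryless]
  {M : Type} [TopologicalSpace M] [ChartedSpace HM M] [IsManifold I ∞ M]
  [MeasurableSpace M] {ι : Type} [Fintype ι] {lam : Type} [Fintype lam] {r : ℕ}
  {B : Base M ι lam} {G : Geo I M ι lam} {Ω : Set M} {c c' : Cfg M ι lam r} {ζ : Circle}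

open Classical in
/-- gluing isomorphisms (after `Lns95.ceq_glue`) -/
theorem ceq_glue (hB : B.OK I) (hΩ : IsClopen Ω) (a : Ad0 c B G) (a' : Ad0 c' B G)
    (z : ∀ x ∈ Ω, c.Φ x = 0) (z' : ∀ x ∈ Ω, c'.Φ x = 0) {u u' : M → CL c.m.V c'.m.V}
    (e : PI G.F c c' Ω u) (e' : CEq G.F c c' Ωᶜ id (fun x b a => B.P b a x) B.l u' ζ) :
    CEq G.F c c' univ id (fun x b a => B.P b a x) B.l (Ω.piecewise u u') ζ := by
  have f : CEq G.F c c' Ω id (fun x b a => B.P b a x) B.l u ζ :=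
    ⟨e.iso.mEq (Pj41.OK.on a.ok _) (Pj41.OK.on a'.ok _),
      (Pj41.par0_iff ((Pj41.IsConn.on a'.conn Ω).proj' hB)).1 e.par,
      fun x hx => by simp [z x hx, z' x hx, cs], e'.z⟩
  have k : ∀ x, ∃ O w, O ∈ 𝓝 x ∧ CEq G.F c c' O id (fun x b a => B.P b a x) B.l w ζ ∧
      Ω.piecewise u u' =ᶠ[𝓝 x] w := fun x => by
    by_cases hx : x ∈ Ω
    · exact ⟨_, _, hΩ.isOpen.mem_nhds hx, f, eventually_of_mem (hΩ.isOpen.mem_nhds hx)
        fun y hy => piecewise_eq_of_mem _ _ _ hy⟩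
    · exact ⟨_, _, hΩ.compl.isOpen.mem_nhds hx, e', eventually_of_mem (hΩ.compl.isOpen.mem_nhds hx)
        fun y hy => piecewise_eq_of_notMem _ _ _ hy⟩
  choose O w h1 h2 h3 using k
  have m := fun x => mem_of_mem_nhds (h1 x)
  have p := fun x => (h3 x).eq_of_nhds
  exact ⟨⟨fun x _ => ((((h2 x).m.su x (m x)).contMDiffAt (h1 x)).congr_of_eventuallyEq
      (h3 x)).contMDiffWithinAt, fun x _ => p x ▸ (h2 x).m.uu x (m x), fun x _ => p x ▸ (h2 x).m.uu' x (m x),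
    fun x _ => p x ▸ (h2 x).m.J x (m x), fun x _ => p x ▸ (h2 x).m.ρ x (m x),
    fun x _ => p x ▸ (h2 x).m.j x (m x)⟩, fun x _ a => by
      rw [Pre.D, Sob92.dv_congr (h3 x), p x]; exact (h2 x).W x (m x) a,
    fun x _ => p x ▸ (h2 x).Φ x (m x), e'.z⟩

end gen

section job
variable {Wi : Type} {X : Mf 4} {A κ lam : Type} [Fintype A] [Fintype κ] [Fintype lam]
  [DecidableEq lam] {M : Mark X A κ} {W : World M} {N : ML M lam} {Λ : Lns W N}
  {A' h : Type} [Fintype A'] [DecidableEq A'] [Fintype h] {r n : ℕ}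
  {J : Job Wi Λ A' h r n} {c : M.Cl} {x : A} {σ : Cel A'} {q : Wi →₀ ℝ} {y y' y'' : J.Obc c}
  {p : Prt A A' h}

theorem hp_self (x : A) (b : Bool) : hp x b x = some b := hp_some.2 ⟨rfl, rfl⟩

theorem pc_hp (e : c.1 = {x}) (b : Bool) : M.sys.Piece c.1 (hp x b) := e ▸ piece_hp b

theorem pc_one (e : c.1 = {x}) (b : Bool) : ∀ π ∈ ({hp x b} : Set (Reg A)), M.sys.Piece c.1 π :=
  fun _ k => k ▸ pc_hp e b

theorem un_one (π : Reg A) : W.un c {π} = W.pc c π := biUnion_singleton _ _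

/-- the two sides -/
theorem pc_compl (e : c.1 = {x}) : W.pc c (hp x true) = (W.pc c (hp x false))ᶜ := by
  refine Subset.antisymm (Cyl58.disjoint_pc W.toCaps (pc_hp e _) (pc_hp e _) fun k => ?_).subset_compl_right
    fun z hz => ?_
  · simpa [hp_self] using congrFun k x
  · obtain ⟨π, h1, h2⟩ := Cyl58.exists_pc W.toCaps z
    rcases eq_hp (e ▸ h1) with rfl | rfl
    exacts [h2, (hz h2).elim]

variable (hJ : J.OK) (hσ : σ ∈ J.𝒦) (hP : ∀ π ∈ p.P, M.sys.Piece c.1 π)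
  (hH : ∀ i ∈ p.H, J.nb i ⊆ ⋃ π ∈ p.P, M.sys.U π)
include hJ hσ hP hH

theorem eqP_refl (H : SolOn p σ q y) : EqP p y y :=
  ⟨fun _ _ => rfl, _, _, ceq_refl (Λ.B_ok _ _) (hJ.G_ok hσ H.ov) (ad0 H.adm) (Job.isClopen_un hP).2,
    fun _ _ => Cnt93.eqv_refl H.adm.ok _⟩

theorem eqP_symm (H : SolOn p σ q y) (H' : SolOn p σ q y') (s : y.s = y'.s) (e : EqP p y y') :
    EqP p y' y := by
  obtain ⟨_, x, _, ψ, β, ζ, _, j, m⟩ := y'
  obtain rfl : y.s = _ := s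
  obtain ⟨-, u, ξ, e, f⟩ := e
  have o := (Job.isClopen_un (W := W) hP).2
  exact ⟨fun _ _ => rfl, _, _, ceq_symm_id (Λ.B_ok _ _) (hJ.G_ok hσ H.ov) o (ad0 H.adm) (ad0 H'.adm) e,
    fun i hi => Cnt93.eqv_symm (ψ := id) ((lg_refl (Λ.B_ok _ _) (hJ.G_ok hσ H.ov) o).of_ceq (ad0 H.adm)
      (ad0 H'.adm) e) (Cnt93.rel_refl (Λ.B_ok _ _) (hJ.cut_sub (hH i hi))) rfl (f i hi)⟩

theorem eqP_trans (H : SolOn p σ q y) (H' : SolOn p σ q y') (H'' : SolOn p σ q y'') (s : y.s = y'.s)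
    (s' : y'.s = y''.s) (e : EqP p y y') (e' : EqP p y' y'') : EqP p y y'' := by
  obtain ⟨_, x, _, ψ, β, ζ, _, j, m⟩ := y'
  obtain ⟨_, x', _, ψ', β', ζ', _, j', m'⟩ := y''
  obtain rfl : y.s = _ := s
  obtain rfl : y.s = _ := s'
  obtain ⟨-, u, ξ, e, f⟩ := e
  obtain ⟨-, u', ξ', e', f'⟩ := e'
  exact ⟨fun _ _ => rfl, _, _, ceq_trans_id (Λ.B_ok _ _) (hJ.G_ok hσ H.ov) (Job.isClopen_un hP).2
    (ad0 H.adm) (ad0 H'.adm) (ad0 H''.adm) e e', fun i hi => Cnt93.eqv_trans (φ := id) rfl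
      (e'.m.J _ (hJ.cut_sub (hH i hi) ⟨(0, 0), rfl⟩)) H''.adm.ok.Jsq (f i hi) (f' i hi)⟩

omit hσ hP hH in
theorem eqP_of_iso (hP : ∀ π ∈ p.P, M.sys.Piece c.1 π)
    (hH : ∀ i ∈ p.H, J.nb i ⊆ ⋃ π ∈ p.P, M.sys.U π) (e : Job.Iso y y') : EqP p y y' :=
  let ⟨s, u, ζ, e, f⟩ := e
  ⟨fun a _ => congrFun s a, u, ζ, Wrd81.ceq_mono e (subset_univ _),
    fun i hi => f ⟨i, Job.unc_of hP (hH i hi)⟩⟩

end job

section scene
variable {κ lam : Type} [Fintype κ] [Fintype lam] [DecidableEq lam] {Lm : LM κ lam}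
  {S : Scene Lm} {D : S.Dat} {i : S.L} {Wi : Type} {r n : ℕ}
  {J : Job Wi (D.Λ i) (S.A ⊕ Unit) S.ls r n} {c : S.M.Cl} {R : S.A} {j : ℕ} {n₀ : ℤ} {T : ℝ}
  {σ : Cel (S.A ⊕ Unit)} {q : Wi →₀ ℝ} {y y' : J.Obc c} (h : HD J c R j n₀ T)
include h

theorem HD.np : ¬S.M.pin R := let ⟨_, _, _, _, _, d⟩ := h.ds; d.np

theorem HD.mem : R ∈ c.1 := h.c1 ▸ rfl

theorem HD.cyl : R ∈ cylW c := ⟨HD.mem h, HD.np h⟩

theorem HD.only : Only S.M c.1 R false := fun _ k => .inl (by rwa [h.c1] at k)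

theorem U_hp (b : Bool) : S.M.sys.U (hp R b) = (S.M.sys.w R).sd b :=
  Subset.antisymm (fun _ k => k R b (hp_self R b)) fun _ k _ _ e => by
    obtain ⟨rfl, rfl⟩ := hp_some.1 e
    exact k

/-- all cuts are outside -/
theorem nb_out (l : S.ls) : J.nb l ⊆ ⋃ π ∈ ({hp R true} : Set (Reg S.A)), S.M.sys.U π := by
  obtain ⟨_, _, _, _, _, d⟩ := h.ds
  rw [biUnion_singleton, U_hp h, h.jr.gx.nb]
  exact subset_union_left.trans (d.ls l l.2)

/-- the live coordinates outside determine the parameter -/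
theorem s_eq (hσ : σ ∈ J.𝒦) {s s' : S.A ⊕ Unit → ℝ} (a : s ∈ Job.cl σ) (a' : s' ∈ Job.cl σ)
    (o : J.Ov σ c s) (o' : J.Ov σ c s')
    (e : ∀ a ∈ J.lv (shX S {R}) σ c {hp R true}, s a = s' a) : s = s' := by
  classical
  obtain ⟨_, _, _, _, _, d⟩ := h.ds
  have g := h.jr.gx
  obtain ⟨τ, o₁, τ', rfl, t1, t2, -, t3, -⟩ := g.cell σ hσ
  have hd : ∀ x ∈ hard S {R}, J.hd (.inl x) = some x := fun x hx => by
    rw [g.hd]; exact if_pos hx
  have hR := hd R (.inr (.inr (Finset.mem_singleton_self R)))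
  have one := g.ok.eq_one hσ o hR (HD.mem h)
  have mR : R ∈ τ := by_contra fun k => by
    have := a.1 (.inl R) false (if_neg k)
    rw [one] at this
    simp [b01] at this
  funext x
  rcases k : cel τ o₁ x with _ | b
  · rcases x with x | x
    · have m : x ∈ τ := by_contra fun m => by simp [cel, m] at k
      by_cases z : x = R
      · subst z
        exact one.trans (g.ok.eq_one hσ o' hR (HD.mem h)).symm
      refine e _ ⟨k, fun x' k' m' => z ?_, .inr ⟨_, rfl, x, ⟨if_neg z, ?_, fun x' k' => ?_⟩, hd x (t3 m)⟩⟩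
      · rw [hd x (t3 m)] at k'
        rwa [h.c1, ← Option.some.inj k'] at m'
      · exact U_hp h true ▸ (d.out τ' t2 (t1 mR) x (t1 m)).resolve_left z
      · obtain ⟨_, k'⟩ := Sys.mem_bd.1 k'
        obtain ⟨rfl, -⟩ := hp_some.1 k'
        exact (g.sc.cell i τ' t2).1 (.inl (t1 m)) (.inl (t1 mR)) z
    · exact absurd (k.symm.trans (h.jr.o _ hσ)) (by simp)
  · exact (a.1 x b k).trans (a'.1 x b k).symm

theorem pc_in : D.W.pc c (hp R false) = D.W.φ c '' (S.M.sys.w R).sd false :=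
  (HD.only h).pc (HD.np h) _ (pc_hp h.c1 _) (hp_self R _)

/-- **INJ** -/
theorem inj : InjD J c R := fun σ hσ q y y' H H' ⟨e, u, ζ, k, f⟩ => by
  classical
  have hJ := h.jr.gx.ok
  have s := s_eq h hσ H.sol.cell H'.sol.cell H.sol.ov H'.sol.ov e
  have b := adm_β H.sol (HD.cyl h)
  have b' := adm_β H'.sol (HD.cyl h)
  have t := (tight_k H.sol H.tight (HD.cyl h)).1
  have t' := (tight_k H'.sol H'.tight (HD.cyl h)).1
  obtain ⟨_, x, _, ψ, β, ξ, _, j, m⟩ := y'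
  obtain rfl : y.s = _ := s
  obtain ⟨_, _, _, _, _, d⟩ := h.ds
  have ha := act_of hJ hσ H.sol (HD.cyl h)
  have a := ad0 H.sol.sol.toAdm
  have a' := ad0 H'.sol.sol.toAdm
  have p1 := pc_one h.c1 true
  obtain ⟨g, hg⟩ := stb_of_lim (l := atBot) (b true) (b' true) a (isEnd_b true) (H.sol.lim R true (ha true))
    (lim_pre ((D.Λ i).B_ok _ _) (Job.isClopen_un p1).2 (hJ.end_sub (ha true) p1 ⟨_, rfl, hp_self R _⟩)
      (b' true) a a' k (H'.sol.lim R true (ha true)))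
  have ev := hg.eqv (hJ.xs R).1.yd (b true) (b' true)
  rw [← t] at ev
  have hK := hJ.nk c R _ _ (ha false)
  have one := one_W (ha false) hK (HD.only h) le_rfl
  have su := (sur_W d (HD.only h) (ha false) hK le_rfl).1
  rw [← pc_in h] at one su
  have z : ∀ {y : J.Obc c}, FS J c R σ q y → Fz (J.G c y.s).F y.x (D.W.pc c (hp R false)) := fun H =>
    ⟨H.fl, fun x hx => by_contra fun k => H.ntf ⟨x, hx, k⟩⟩
  obtain ⟨v, pv⟩ := uniq_lim (K := J.K c R _ _ (ha false)) (hJ.xs R).1.yd ((D.Λ i).B_ok _ _)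
    (hJ.G_ok hσ H.sol.ov).P (b false) (b' false) (l := atTop) (isEnd_b false) one.op
    ((Tmp64.admOn_univ.2 H.sol.sol.toAdm).mono (subset_univ _))
    ((Tmp64.admOn_univ.2 H'.sol.sol.toAdm).mono (subset_univ _)) (z H) (z H') (isOpen_Te _ _) (ord_Te _ _)
    (mem_of_superset (Ioi_mem_atTop 0) fun s hs => by simpa [pm] using hs) one.J one.sub su
    (H.sol.lim R false (ha false)) (H'.sol.lim R false (ha false)) (t' ▸ ev)
  have e' : D.W.un c {hp R true} = (D.W.pc c (hp R false))ᶜ := (un_one _).trans (pc_compl h.c1)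
  refine ⟨rfl, _, ζ, ceq_glue ((D.Λ i).B_ok _ _) (Cyl58.isClopen_pc D.W.toCaps (pc_hp h.c1 false)) a a'
    (z H).Φ (z H').Φ pv (e' ▸ k), fun l => (f l ⟨trivial, nb_out h l⟩).imp fun _ k =>
      (piecewise_eq_of_notMem _ v u (e'.le (hJ.cut_sub (nb_out h l) ⟨(0, 0), rfl⟩))).symm ▸ k⟩

variable {ε : ℝ} {Adm : (Wi →₀ ℝ) → Prop}

theorem fs_of (hσ : σ ∈ J.𝒦) (E : EpsAt J ε Adm) (hq : Adm q) (H : Sol σ q y) (t : y.Tight)
    (nf : ¬y.TF (hp R false)) (k : y.kap (D.W.pc c (hp R false)) = 0) : FS J c R σ q y :=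
  ⟨H, t, nf, (E σ hσ c q y _ hq H (pc_hp h.c1 _) nf fun a _ => h.jr.gx.nil a (by simp)).2.2 k⟩

theorem solOn_of (H : Sol σ q y) (t : y.Tight) (nf : ¬y.TF (hp R false)) :
    SolOn (pO J c (shX S {R}) σ R) σ q y :=
  ⟨H.cell, H.inf, H.sol.toAdm, fun x hx => by_contra fun k => nf ⟨x, by_contra fun m =>
      hx (((un_one _).trans (pc_compl h.c1)).ge m), k⟩, fun x _ => H.sol.D x, fun x _ => H.sol.C x,
    H.sol.S, fun l _ => H.cut l (tight_H H t ▸ Job.unc_of (pc_one h.c1 true) (nb_out h l)),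
    fun a b ha _ => H.lim a b ha, fun a ha b _ => H.crit a ha b, H.int.integrableOn⟩

theorem kap_out (H : Sol σ q y) (t : y.Tight) :
    y.kap (D.W.pc c (hp R true)) + y.kap (D.W.pc c (hp R false)) = J.k := by
  rw [← H.lev, t.1, Finset.sum_eq_zero fun a _ => indicator_apply_eq_zero.2 fun ha => (tight_k H t ha).2,
    pc_compl h.c1, add_comm, Nat.cast_zero, add_zero, add_zero]
  exact integral_add_compl (Cyl58.isOpen_pc D.W.toCaps (pc_hp h.c1 false)).measurableSet H.int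

/-- **PAR** -/
theorem par (hi : InjD J c R) (hs : SurD J c R) (E : EpsAt J ε Adm) : ParD J c Adm R n₀ :=
  fun σ hσ q hq _ ta => by
  have hJ := h.jr.gx.ok
  have os : ∀ y : J.TS σ q c, OS J c (shX S {R}) σ q R J.k y.1 := fun y =>
    let ⟨a, b, k, _⟩ := ta y.1 y.2.1 y.2.2
    ⟨solOn_of h y.2.1 y.2.2 a.2.1, b, by rw [← kap_out h y.2.1 y.2.2, k, add_zero]⟩
  have fs : ∀ y : J.TS σ q c, FS J c R σ q y.1 := fun y =>
    let ⟨a, _, k, _⟩ := ta y.1 y.2.1 y.2.2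
    fs_of h hσ E hq y.2.1 y.2.2 a.2.1 k
  have p1 := pc_one h.c1 true
  have p2 : ∀ l ∈ (pO J c (shX S {R}) σ R).H, _ := fun l (k : _ ∧ _) => k.2
  have se : ∀ {y y' : {y // OS J c (shX S {R}) σ q R J.k y}}, EqP (pO J c (shX S {R}) σ R) y.1 y'.1 →
      y.1.s = y'.1.s := fun {y y'} e =>
    s_eq h hσ y.2.sol.cell y'.2.sol.cell y.2.sol.ov y'.2.sol.ov e.1
  have eq : Equivalence fun y y' : {y // OS J c (shX S {R}) σ q R J.k y} =>
      EqP (pO J c (shX S {R}) σ R) y.1 y'.1 :=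
    ⟨fun y => eqP_refl hJ hσ p1 p2 y.2.sol, fun {y y'} e => eqP_symm hJ hσ p1 p2 y.2.sol y'.2.sol (se e) e,
      fun {y y' y''} e e' => eqP_trans hJ hσ p1 p2 y.2.sol y'.2.sol y''.2.sol (se e) (se e') e e'⟩
  refine Nat.card_eq_of_bijective (Quot.map (fun y : J.TS σ q c => ⟨y.1, os y⟩)
    fun _ _ e => eqP_of_iso hJ p1 p2 e) ⟨fun a b => ?_, fun a => ?_⟩
  · induction a using Quot.ind with | _ a => ?_
    induction b using Quot.ind with | _ b => ?_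
    exact fun e => Quot.sound (hi σ hσ q _ _ (fs a) (fs b) ((eq.quot_mk_eq_iff _ _).1 e))
  · induction a using Quot.ind with | _ a => ?_
    obtain ⟨y', f, e⟩ := hs σ hσ q a.1 a.2
    exact ⟨Quot.mk _ ⟨y', f.sol, f.tight⟩, (Quot.sound (by exact e)).symm⟩

end scene

variable {κ lam : Type} [Fintype κ] [Fintype lam] [DecidableEq lam] (Lm : LM κ lam)

/-- **LEAF D-INJ** -/
theorem injStmt : InjStmt Lm := fun _ _ _ _ _ _ _ _ _ _ _ _ h => inj h

/-- **LEAF D-PAR** -/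
theorem parStmt : ParStmt Lm := fun _ _ _ _ _ _ _ _ _ _ _ _ h hi hs _ _ E => par h hi hs E

end Crest.Agent.X212.Cqn41.Pd
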