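import Crest.Agent.X212.Cqn41.Tim

/-!
# Row 212, CQ-NK (helper41): the gradient term
-/

set_option autoImplicit false
set_option linter.unusedSectionVars false
noncomputable section
open Set Function Filter Topology MeasureTheory
open scoped ContDiff Manifold InnerProductSpace NNReal

namespace Crest.Agent.X212.Cqn41
open An Cmp73 Eqv71 Nd18 Dgr80 Shi84
open Abel74 (Lh CvB)
open M (NkS NkC)
open Wz78 (nab SA)
open Wrd81 (wd)
open ContinuousLinearMap (adjoint)

variable {E : Type} [NormedAddCommGroup E] [NormedSpace ℝ E] [FiniteDimensional ℝ E]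
  [MeasurableSpace E] [BorelSpace E]
  {HM : Type} [TopologicalSpace HM] {I : ModelWithCorners ℝ E HM} [I.Boundaryless]
  {E₀ : Type} [NormedAddCommGroup E₀] [NormedSpace ℝ E₀] [FiniteDimensional ℝ E₀]
  [MeasurableSpace E₀] [BorelSpace E₀]
  {H₀ : Type} [TopologicalSpace H₀] {I₀ : ModelWithCorners ℝ E₀ H₀} [I₀.Boundaryless]
  {E' : Type} [NormedAddCommGroup E'] [NormedSpace ℝ E'] [FiniteDimensional ℝ E']
  [MeasurableSpace E'] [BorelSpace E']
  {H' : Type} [TopologicalSpace H'] {I' : ModelWithCorners ℝ E' H'} [I'.Boundaryless]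
  {M : Type} [TopologicalSpace M] [ChartedSpace H₀ M] [IsManifold I₀ ∞ M] [MeasurableSpace M]
  [BorelSpace M] [T2Space M] [SecondCountableTopology M] {lam α J : Type} [Fintype lam]
  {X : α → Type} [∀ n, TopologicalSpace (X n)] [∀ n, ChartedSpace HM (X n)]
  [∀ n, IsManifold I ∞ (X n)] [∀ n, MeasurableSpace (X n)] [∀ n, BorelSpace (X n)]
  [∀ n, T2Space (X n)] [∀ n, SecondCountableTopology (X n)]
  {Z : α → Type} [∀ n, TopologicalSpace (Z n)] [∀ n, ChartedSpace H' (Z n)]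
  [∀ n, IsManifold I' ∞ (Z n)] [∀ n, MeasurableSpace (Z n)] [∀ n, BorelSpace (Z n)]
  [∀ n, T2Space (Z n)] [∀ n, SecondCountableTopology (Z n)] {r : ℕ}


section gen
variable {ι : Type} [Fintype ι] {g : Gs I I₀ M ι lam X} {c : ∀ n, Cfg (X n) ι lam r}

theorem qv_congr' {s t : ∀ n, X n → (c n).m.V} {s' t' : ∀ b : Cfg M ι lam r, M → b.m.V}
    (h : g.QV c s s') (e : ∀ n x, t n x = s n x) (e' : ∀ b u, g.LB c b u → ∀ x, t' b x = s' b x) :
    g.QV c t t' := by
  obtain rfl : t = s := funext fun n => funext (e n)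
  exact ⟨h.pf, h.p, h.bd, fun b u l => funext (e' b u l) ▸ h.lim b u l⟩

theorem qa_congr' {s t : ∀ n, X n → (c n).m.A} {s' t' : ∀ b : Cfg M ι lam r, M → b.m.A}
    (h : g.QA c s s') (e : ∀ n x, t n x = s n x) (e' : ∀ b u, g.LB c b u → ∀ x, t' b x = s' b x) :
    g.QA c t t' := by
  obtain rfl : t = s := funext fun n => funext (e n)
  exact ⟨h.pf, h.p, h.bd, fun b u l => funext (e' b u l) ▸ h.lim b u l⟩

variable {p : Up I' J Z g c} (k : p.OK) {n : α} {f : X n → ℝ} {f' : Z n → ℝ}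
  (hf : ∀ x, f' (p.φ n x) = f x) (sm : Sm I' f') (x : X n)
include k hf sm

theorem pb_cl (w : (p.y n).m.V) :
    trn (p.u n x) (∑ i, (p.G n).F.D i f' (p.φ n x) • (p.y n).m.ρ i (p.φ n x) w) =
      ∑ i, (g.G n).F.D i f x • (c n).m.ρ i x (trn (p.u n x) w) := by
  have k := k.pb n
  have e := fun a w => congrArg (fun T : CL (p.y n).m.V (c n).m.V => T w)
    ((k.me x).ρ' (k.be x) k.lm.ok' a)
  simp only [ContinuousLinearMap.comp_apply, _root_.sum_apply, smul_apply] at e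
  simp only [k.D (f := f) (fun x _ => hf x) sm, map_sum, map_smul, ← e, Finset.smul_sum,
    Finset.sum_smul, smul_smul]
  rw [Finset.sum_comm]
  simp only [mul_comm]

theorem pb_dη (η : ∀ n, Z n → Fm ι (p.y n).m.A) :
    ridx (sq2 fun a b => p.U n x b a) (cj (trn (p.u n x))) ((p.y n).m.p2 (p.B n) (p.φ n x)
      (WithLp.toLp 2 fun s => (p.G n).F.D s.1 f' (p.φ n x) • η n (p.φ n x) s.2)) =
    (c n).m.p2 (g.B n) x (WithLp.toLp 2 fun s => (g.G n).F.D s.1 f x • p.p1 η n x s.2) := by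
  have k := k.pb n
  rw [← (k.me x).p2 (k.be x) k.lm.hB' k.lm.hB k.lm.ok' k.lm.ok]
  refine congrArg _ (PiLp.ext fun t => ?_)
  simp only [k.D (f := f) (fun x _ => hf x) sm, Up.p1, ridx_apply, Fintype.sum_prod_type,
    Finset.sum_smul, Finset.smul_sum, map_smul, smul_smul, sq2, Finset.sum_mul]
  rw [Finset.sum_comm]
  exact Finset.sum_congr rfl fun _ _ => Finset.sum_congr rfl fun _ _ => by congr 1; ring

end gen

variable {E3 : Type} [NormedAddCommGroup E3] [NormedSpace ℝ E3] [FiniteDimensional ℝ E3]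
  [MeasurableSpace E3] [BorelSpace E3]
  {H3 : Type} [TopologicalSpace H3] {I3 : ModelWithCorners ℝ E3 H3} [I3.Boundaryless]
  {Y : Type} [TopologicalSpace Y] [ChartedSpace H3 Y] [IsManifold I3 ∞ Y] [T2Space Y]
  [MeasurableSpace Y] [BorelSpace Y] [SecondCountableTopology Y] [CompactSpace Y]
  {κ : Type} [Fintype κ] {D : YD I3 Y κ lam}

section one
variable {B : Base M (Option κ) lam} {G : Geo I₀ M (Option κ) lam} (K : Nk D B G) (N : ND Y lam)
  (c : Cfg M (Option κ) lam r) (z : ℝ)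

theorem sm_φ {N : ND Y lam} (hN : N.OK D) : ContDiff ℝ ∞ fun x => N.φ (N.cx x) :=
  hN.sm.comp ((contDiff_pi.2 fun _ => contDiff_apply _ _ _).prodMk (contDiff_pi.2 fun j =>
    Complex.equivRealProdCLM.symm.contDiff.comp
      ((contDiff_apply ℝ ℝ (Sum.inr (Sum.inl j) : N.J)).prodMk
        (contDiff_apply ℝ ℝ (Sum.inr (Sum.inr j) : N.J)))))

/-- the coefficient functions of the gradient term -/
def bet (i : N.J) : ℝ → ℝ := cv N.δ fun t => z * (N.dg K).co G.F c i t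

variable {N} (hN : N.OK D) (hB : B.OK I₀) (h : Ad0 c B G)
include hN

theorem β_eq (i : N.J) : ((N.smul z).dg K).β G.F c i = bet K N c z i :=
  congrArg (cv N.δ) (funext fun t => by
    show _ * fderiv ℝ (fun x => z * N.φ (N.cx x)) ((N.dg K).Iv G.F c t) (Pi.single i 1) = _
    rw [fderiv_const_mul ((sm_φ hN).differentiable (by simp) _)]
    exact mul_left_comm ..)

theorem g_eq {d : N.J → Den M (Option κ) lam r} (e : ∀ i, (N.dg K).d i = dcut K.χ (d i)) (x : M) :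
    ((N.smul z).dg K).gA G.F c x = ∑ i, (d i).gA c (fun y => bet K N c z i (K.τ y) * K.χ y) x ∧
    ((N.smul z).dg K).gP G.F c x = ∑ i, (d i).gP c (fun y => bet K N c z i (K.τ y) * K.χ y) x :=
  ⟨Finset.sum_congr rfl fun i _ => by
    show ((N.dg K).d i).gA c (fun y => ((N.smul z).dg K).β G.F c i (K.τ y)) x = _
    rw [e i, β_eq K c z hN]; rfl, Finset.sum_congr rfl fun i _ => by
    show ((N.dg K).d i).gP c (fun y => ((N.smul z).dg K).β G.F c i (K.τ y)) x = _
    rw [e i, β_eq K c z hN]; rfl⟩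

include hB h

theorem co_cb (i : N.J) : (Continuous fun t => z * (N.dg K).co G.F c i t) ∧
    ∃ C, ∀ t, |z * (N.dg K).co G.F c i t| ≤ C :=
  let ⟨a, C, b⟩ := (dgk K hB h hN).co i
  ⟨continuous_const.mul a, |z| * C, fun t =>
    (abs_mul _ _).trans_le (mul_le_mul_of_nonneg_left (b t) (abs_nonneg _))⟩

theorem bet_cb (i : N.J) : ContDiff ℝ ∞ (bet K N c z i) ∧ ∃ C, ∀ t, ‖bet K N c z i t‖ ≤ C :=
  let ⟨a, C, b⟩ := co_cb K c z hN hB h i
  have := cv_bounds hN.δ0 a.aestronglyMeasurable b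
  ⟨this.1, C, this.2.1⟩

end one

theorem ad0_of {ι : Type} [Fintype ι] {B : Base M ι lam} {G : Geo I₀ M ι lam} {c : Cfg M ι lam r}
    (h : Lh c B G) : Ad0 c B G := ⟨h.ok, h.conn, h.sm, h.pos⟩

variable {g : Gs I I₀ M (Option κ) lam X} {c : ∀ n, Cfg (X n) (Option κ) lam r} [Fintype J]
  {p : Up I' J Z g c} {ν : NU p D}

namespace NU.OK
open Up
variable (h : ν.OK) {𝒰 : (∀ n, X n → Fm (Option κ) (c n).m.A) → Prop}
include h

/-- gluing the limits -/
theorem glue {V : Type} [AddCommGroup V] [Module ℝ V] {w : J → ℝ} {x : M}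
    (z : ∀ i, x ∉ (ν.K' i).ψ.target → w i = 0) {s : V} {t : J → V} (e : ∀ j, x ∈ p.O j → s = t j) :
    (∑ j, w j) • s = ∑ j, w j • t j := by
  rw [Finset.sum_smul]
  refine Finset.sum_congr rfl fun j _ => ?_
  by_cases k : x ∈ p.O j
  · rw [e j k]
  · rw [z j fun i => k (h.sub j i), zero_smul, zero_smul]

theorem cut3 (n : α) (t : ℝ) : (ν.K n).cut 3 t = (ν.K₁ n).cut 3 t := by
  simpa only [add_zero] using (h.r n).cut t

theorem slc_lt {t : YL Y} (ht : t.OK I3) :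
    SLc p.PV (fun n => ltS (p.G n).F (p.y n) ((ν.K n).lt t)) fun j b => ltS g.G₀.F b ((ν.K' j).lt t) := by
  cases t with
  | mul f => exact slc_mulV (h.pc ht).ps
  | cl a => exact slc_cl h.up (h.pd ht)
  | im => exact slc_im h.up
  | G => exact .G

theorem slc_la {t : La Y} (ht : laOK I3 t) :
    SLc p.PA (fun n => laS (p.y n) ((ν.K n).la t)) fun j b => laS b ((ν.K' j).la t) := by
  cases t with
  | mul f => exact slc_mulA (h.pc ht).ps
  | G => exact .G

variable (hU : CUx g c 𝒰) {N : ND Y lam} (hN : N.OK D)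

include hU hN in
theorem den (hc : ν.CYC 𝒰) (i : N.J) : ∃ d d', p.PDn 𝒰 d d' ∧
    (∀ n, (N.dg (ν.K n)).d i = dcut (ν.K n).χ (d n)) ∧
      ∀ j, (N.dg (ν.K' j)).d i = dcut (ν.K' j).χ (d' j) := by
  have sw := fun {u v : List (YL Y)} (hu : ∀ t ∈ u, t.OK I3) (hv : ∀ t ∈ v, t.OK I3) T T' =>
    den_sw (e := fun t n => (ν.K n).lt t) (e' := fun t j => (ν.K' j).lt t) (w := u) (z := v)
      h.up hU (fun t ht => h.slc_lt (hu t ht)) (fun t ht => h.slc_lt (hv t ht)) (T := T) (T' := T')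
  rcases i with i | i | i
  · have := hN.d0 i
    simp only [ND.dg, Sum.elim_inl]
    generalize N.d0 i = d at this
    cases d with
    | sw a b => exact ⟨_, _, sw this.1 this.2 (fun _ => .one) (fun _ => .one)
        fun _ _ a => a.congr (fun _ _ => rfl) fun _ _ _ => rfl, fun _ => rfl, fun _ => rfl⟩
    | cy d w d' w' =>
      exact ⟨_, _, ((hc d this.1).wd h.up hU (d := fun t n => (ν.K n).la t)
        (d' := fun t j => (ν.K' j).la t) fun t ht => h.slc_la (this.2.1 t ht)).den h.up hU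
        ((hc d' this.2.2.1).wd h.up hU (d := fun t n => (ν.K n).la t)
          (d' := fun t j => (ν.K' j).la t) fun t ht => h.slc_la (this.2.2.2 t ht)),
        fun _ => rfl, fun _ => rfl⟩
  all_goals obtain ⟨h1, h2, h3⟩ := hN.d2 i
  · exact ⟨_, _, sw h2 h3 (fun n => .re ((ν.K n).ext (N.d2 i).s))
      (fun j => .re ((ν.K' j).ext (N.d2 i).s)) fun _ _ a => a.j h.up (h.pl h1),
      fun _ => rfl, fun _ => rfl⟩
  · exact ⟨_, _, sw h2 h3 (fun n => .im ((ν.K n).ext (N.d2 i).s))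
      (fun j => .im ((ν.K' j).ext (N.d2 i).s)) fun _ _ a => (a.j h.up (h.pl h1)).im h.up,
      fun _ => rfl, fun _ => rfl⟩

include hN in
/-- **the coefficient functions of the gradient term converge** -/
theorem beta {d : N.J → ∀ n, Z n → ℝ} {d' : N.J → J → Cfg M (Option κ) lam r → M → ℝ}
    (hd : ∀ i, p.PS (d i) (d' i))
    (e : ∀ i n, ((N.dg (ν.K n)).d i).h (p.y n) = fun x => (ν.K n).χ x * d i n x)
    (e' : ∀ i j b, ((N.dg (ν.K' j)).d i).h b = fun x => (ν.K' j).χ x * d' i j b x)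
    {z : α → ℝ} {z₀ : ℝ} (hz : Tendsto z g.l (𝓝 z₀)) (i : N.J) :
    p.PS (fun n x => bet (ν.K n) N (p.y n) (z n) i ((ν.K n).τ x) * (ν.K n).χ x)
      fun j b x => bet (ν.K' j) N b z₀ i ((ν.K' j).τ x) * (ν.K' j).χ x := by
  have sΨ : ContDiff ℝ ∞ fun x => fderiv ℝ (fun x => N.φ (N.cx x)) x (Pi.single i 1) :=
    ((sm_φ hN).fderiv_right (by simp)).clm_apply contDiff_const
  choose A hA using fun i => h.bd_win hN.δ0 (hd i)
  obtain ⟨C, hC⟩ := bd_comp sΨ fun k => ‖fun i => A i k‖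
  have iv : ∀ n t, (N.dg (ν.K n)).Iv (p.G n).F (p.y n) t = fun i =>
      wn (p.G n).F.μ (ν.K n).τ N.δ (fun x => (ν.K n).χ x * d i n x) t :=
    fun n t => funext fun i => by rw [← e]; rfl
  have iv' : ∀ j b t, (N.dg (ν.K' j)).Iv g.G₀.F b t = fun i =>
      wn g.G₀.F.μ (ν.K' j).τ N.δ (fun x => (ν.K' j).χ x * d' i j b x) t :=
    fun j b t => funext fun i => by rw [← e']; rfl
  obtain ⟨A', b1⟩ : ∃ A', ∀ᶠ n in (g.l : Filter α),
      BD (fun t => z n * (N.dg (ν.K n)).co (p.G n).F (p.y n) i t) A' :=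
    ⟨_, ((eventually_all.2 hA).and (hz.abs.eventually (gt_mem_nhds (lt_add_one _)))).mono
      fun n hn => by
        simp only [DG.co, iv]
        exact ((BD.const (z n)).mono fun _ => hn.2.le).mul ((bd_ct.choose_spec _ _ 3).mul
          (hC _ fun i => (hn.1 i).mono fun k =>
            (le_abs_self _).trans (norm_le_pi_norm (fun i => A i k) i)))⟩
  have a := fun n => ad0_of (h.up.lh n)
  refine (h.time le_rfl (fun n x => (h.r n).χ (mem_univ x))
    (fun n => bet_cb _ _ _ hN (h.up.lh n).hB (a n) i)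
    (b1.mono fun n hn => bd_cv hN.δ0 hn.1.continuous (hn.2 0 0 le_rfl))
    (fun b u l j => bet_cb _ _ _ hN h.up.bk.ok.B₀ l.lim.adm i) fun b u l j t => ?_).2
  obtain ⟨c1, C', c2⟩ := co_cb (ν.K' j) b z₀ hN h.up.bk.ok.B₀ l.lim.adm i
  refine tend_cv hN.δ0 (fun n => (co_cb _ _ _ hN (h.up.lh n).hB (a n) i).1) c1
    (b1.mono fun n hn => hn.2 0 0 le_rfl) c2 (fun t => tend_mv b1 ?_) t
  simp only [DG.co, iv, iv']
  refine hz.mul (Tendsto.mul ?_ ((sΨ.continuous.tendsto _).comp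
    (tendsto_pi_nhds.2 fun i => h.win hN.δ0 (hd i) l j t)))
  simpa only [ND.dg, h.cut3] using (h.S.one j).cut 3 tendsto_const_nhds

include hU in
/-- the gradient term with given gradients -/
theorem qn1 {m : ℕ} {η : ∀ n, Z n → Fm (Option κ) (p.y n).m.A}
    {θ : J → ∀ b : Cfg M (Option κ) lam r, M → Fm (Option κ) b.m.A} {s : ∀ n, Z n → (p.y n).m.V}
    {a : J → ∀ b : Cfg M (Option κ) lam r, M → b.m.V} (A : p.P1 𝒰 η θ) (P : p.PV s a) :
    g.QT c (p.pv fun n x => -∑ i, (p.G n).F.D i (ν.K n).τ x • (p.y n).m.ρ i x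
        ((p.y n).m.pp (p.B n) x (s n x)))
      (p.pc fun n x => (-8 : ℝ) • (p.y n).m.p2 (p.B n) x
        (WithLp.toLp 2 fun t => (p.G n).F.D t.1 (ν.K n).τ x • η n x t.2))
      (fun _ (_ : Fin m) => 0) (psum fun j =>
        ⟨fun b x => -∑ i, g.G₀.F.D i (ν.K' j).τ x • b.m.ρ i x (b.m.pp g.B₀ x (a j b x)),
          fun b x => (-8 : ℝ) • b.m.p2 g.B₀ x
            (WithLp.toLp 2 fun t => g.G₀.F.D t.1 (ν.K' j).τ x • θ j b x t.2), fun _ _ => 0⟩) := by
  have k := h.up.bk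
  obtain ⟨s', a1, a2⟩ := (P.pp h.up).ex
  obtain ⟨_, τ', -, -, -, -, -, -, h1, h2⟩ := h.S.fd_τ k.ok c
  have f := h.S.fc_Dτ k.ok c
  have e := fun n x => congrArg ((-8 : ℝ) • ·) (pb_dη h.up (h.τ n) (ν.K n).sm_τ x η)
  refine ⟨qv_congr' ((a1.cl k h2).smul (qs_cst (-1))) (fun n x => ?_) fun b u l x => ?_,
    fun t b u l => ?_, (hU.hc A.cu f).congr fun n x => (map_smul ..).trans (e n x),
    fun _ _ _ _ => by simpa only [psum, Finset.sum_const_zero] using tendsto_const_nhds⟩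
  · rw [pv, pV, map_neg, pb_cl h.up (h.τ n) (ν.K n).sm_τ, neg_one_smul]
  · simp only [psum, h1, neg_one_smul, Finset.sum_neg_distrib]
    rw [Finset.sum_comm]
    exact congrArg _ (Finset.sum_congr rfl fun i _ => (h.glue (fun j hx => D_τ_off _ hx i)
      fun j hx => congrArg _ (a2 b u l j hx)).symm)
  · obtain ⟨η', b1, b2⟩ := A.ex b u l
    refine la_congr ((Gs.LA.p2 l.lim k.ok k.adm
      (η := fun n x => WithLp.toLp 2 fun t => (g.G n).F.D t.1 (ν.K₁ n).τ x • p.p1 η n x t.2)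
      (η' := fun x => WithLp.toLp 2 fun t => (∑ j, g.G₀.F.D t.1 (ν.K' j).τ x) • η' x t.2)
      (fun t => (b1 t.2).smul (f t.1).sm ((f t.1).cv.mono le_rfl Gs.sub_S)) t).smul
        (contMDiff_const (c := (-8 : ℝ))) (Cv.consts tendsto_const_nhds))
      (fun n x => congrArg (· t) ((map_smul ..).trans (e n x))) fun x => ?_
    simp only [psum, ← Finset.smul_sum, ← map_sum]
    refine congrArg (fun w => ((-8 : ℝ) • b.m.p2 g.B₀ x w) t) (PiLp.ext fun i => ?_)
    rw [WithLp.ofLp_sum, Finset.sum_apply]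
    exact (h.glue (fun j hx => D_τ_off _ hx i.1) fun j hx => congrArg (· i.2) (b2 j hx)).symm

/-- **CQ-NK for the gradient term** -/
theorem q1 (m : ℕ) : ν.Q1 m := fun _ hU hc N hN z z₀ hz => by
  choose d d' hd e e' using h.den hU hN hc
  have β := h.beta hN (fun i => (hd i).h) (fun i n => by rw [e]; rfl) (fun i j b => by rw [e']; rfl) hz
  have A := P1.sum h.up hU Finset.univ fun i _ => (hd i).A (β i)
  have P := PV.sum h.up Finset.univ fun i _ => (hd i).P (β i)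
  simp only [← fun n x => (g_eq (ν.K n) (p.y n) (z n) hN (e · n) x).1,
    ← fun j b x => (g_eq (ν.K' j) b z₀ hN (e' · j) x).1] at A
  simp only [← fun n x => (g_eq (ν.K n) (p.y n) (z n) hN (e · n) x).2,
    ← fun j b x => (g_eq (ν.K' j) b z₀ hN (e' · j) x).2] at P
  exact h.qn1 hU A P

end NU.OK

end Crest.Agent.X212.Cqn41
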