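import Crest.Agent.X212.Cqn41.Eng

/-!
# Row 212, CQ-NK (helper41): functions of time and windows
-/

set_option autoImplicit false
set_option linter.unusedSectionVars false
noncomputable section
open Set Function Filter Topology MeasureTheory
open scoped ContDiff Manifold InnerProductSpace NNReal

namespace Crest.Agent.X212.Cqn41
open An Cmp73 Eqv71 Nd18 Dgr80 Shi84
open Abel74 (Lh CvB)
open M (NkS NkC)
open Wz78 (nab SA)
open Wrd81 (wd)
open ContinuousLinearMap (adjoint)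

/-! ### functions of time -/

section time
variable {δ C : ℝ}

/-- cumulative bounds -/
def cum (a : ℕ → ℝ) (k : ℕ) : ℝ := ∑ i ∈ Finset.range (k + 1), |a i|

theorem le_cum (a : ℕ → ℝ) {i k : ℕ} (h : i ≤ k) : a i ≤ cum a k :=
  (le_abs_self _).trans (Finset.single_le_sum (f := fun i => |a i|) (fun _ _ => abs_nonneg _)
    (Finset.mem_range.2 (by omega)))

theorem cum_nonneg (a : ℕ → ℝ) (k : ℕ) : 0 ≤ cum a k := Finset.sum_nonneg fun _ _ => abs_nonneg _

theorem bd_of {f : ℝ → ℝ} (h : ContDiff ℝ ∞ f) {a : ℕ → ℝ}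
    (ha : ∀ i t, ‖iteratedDeriv i f t‖ ≤ a i) : BD f (cum a) :=
  ⟨h, fun _ i hi t => (ha i t).trans (le_cum a hi)⟩

theorem bd_b (hδ : 0 < δ) : BD (b δ) (cum fun i => cb δ i * δ) := bd_of (contDiff_b δ) fun i t => by
  have e : iteratedDeriv i (b δ) = bd δ i := by
    induction i with
    | zero => rw [iteratedDeriv_zero, bd_zero]
    | succ k ih => rw [iteratedDeriv_succ, ih]; exact funext fun t => (hasDerivAt_bd δ k t).deriv
  rw [e]
  exact (abs_bd_le hδ i t).trans (mul_le_mul_of_nonneg_left (b_le hδ t) (cb_nonneg _ _))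

theorem bd_cv (hδ : 0 < δ) {c : ℝ → ℝ} (hc : Continuous c) (hC : ∀ t, |c t| ≤ C) :
    BD (cv δ c) (cum fun i => cb δ i * C) :=
  have := cv_bounds hδ hc.aestronglyMeasurable hC
  bd_of this.1 this.2.2

section wn
variable {M : Type} [MeasurableSpace M] {μ : Measure M} {τ h : M → ℝ} (hδ : 0 < δ)
  (hτ : AEStronglyMeasurable τ μ) (hh : AEStronglyMeasurable h μ)
include hδ hτ hh

theorem wn_or : WI μ τ δ h ∨ wn μ τ δ h = fun _ => 0 :=
  or_iff_not_imp_left.2 fun hw => funext fun t => integral_undef fun i => hw ⟨hτ, hh,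
    (i.norm.const_mul (Real.exp (δ * |t|))).mono'
      (((continuous_b δ).comp_aestronglyMeasurable hτ).mul hh.norm) (.of_forall fun x => by
        have := b_add_le hδ (τ x - t) t
        rw [sub_add_cancel] at this
        rw [norm_smul, norm_mul, norm_norm, Real.norm_of_nonneg (b_pos hδ _).le,
          Real.norm_of_nonneg (b_pos hδ _).le, ← mul_assoc]
        exact mul_le_mul_of_nonneg_right this (norm_nonneg _))⟩

theorem sm_wn : ContDiff ℝ ∞ (wn μ τ δ h) :=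
  (wn_or hδ hτ hh).elim (·.contDiff_wn hδ) fun e => e ▸ contDiff_const

theorem bd_wn (hC : ∀ t, wn μ τ δ (fun x => ‖h x‖) t ≤ C) :
    BD (wn μ τ δ h) (cum fun i => cb δ i * C) :=
  (wn_or hδ hτ hh).elim (fun hw => bd_of (hw.contDiff_wn hδ) fun i t => by
    rw [hw.iteratedDeriv_wn hδ]
    exact (hw.norm_wnd_le hδ i t).trans (mul_le_mul_of_nonneg_left (hC t) (cb_nonneg _ _)))
    fun e => e ▸ (BD.const 0).mono fun k => abs_zero.trans_le (cum_nonneg _ k)

end wn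

theorem bd_comp {κ : Type} [Fintype κ] {k : (κ → ℝ) → ℝ} (hk : ContDiff ℝ ∞ k) (A : ℕ → ℝ) :
    ∃ C, ∀ e : κ → ℝ → ℝ, (∀ i, BD (e i) A) → BD (fun t => k fun i => e i t) C := by
  have tp : ∀ i : ℕ, (i : WithTop ℕ∞) ≤ ∞ := fun i => by exact_mod_cast le_top
  choose K hK using fun i : ℕ => (isCompact_closedBall (0 : κ → ℝ) |A 0|).exists_bound_of_continuousOn
    (hk.continuous_iteratedFDeriv (tp i)).continuousOn
  refine ⟨cum fun n => n.factorial * cum K n * max 1 (A n) ^ n, fun e he => ?_⟩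
  have sm : ContDiff ℝ ∞ fun t i => e i t := contDiff_pi.2 fun i => (he i).1
  refine bd_of (hk.comp sm) fun n t => ?_
  rw [← norm_iteratedFDeriv_eq_norm_iteratedDeriv]
  refine norm_iteratedFDeriv_comp_le hk sm (tp n) t (fun i hi => (hK i _ (mem_closedBall_zero_iff.2
    ((pi_norm_le_iff_of_nonneg (abs_nonneg _)).2 fun j => ((he j).2 0 0 le_rfl t).trans
      (le_abs_self _)))).trans (le_cum K hi)) fun i h1 hi => ?_
  rw [norm_iteratedFDeriv_eq_norm_iteratedDeriv]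
  refine le_trans ((pi_norm_le_iff_of_nonneg (zero_le_one.trans (le_max_left 1 (A n)))).2 fun j => ?_)
    (le_self_pow₀ (le_max_left _ _) (by omega))
  have := congrArg (fun T => T fun _ => (1 : ℝ)) ((ContinuousLinearMap.proj (R := ℝ)
    (φ := fun _ : κ => ℝ) j).iteratedFDeriv_comp_left (sm.contDiffAt (x := t)) (tp i))
  exact le_max_of_le_right ((congrArg norm this).symm.trans_le ((he j).2 n i hi t))

theorem b_tail (hδ : 0 < δ) {ε : ℝ} (hε : 0 < ε) :
    ∃ R, ∀ s, R ≤ |s| → b δ s ≤ ε * b (δ / 2) s := by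
  obtain ⟨R, hR⟩ := ((Real.tendsto_exp_atBot.comp (tendsto_neg_atTop_atBot.comp
    (tendsto_id.const_mul_atTop (half_pos hδ)))).eventually
      (ge_mem_nhds (show 0 < ε / 8 by positivity))).exists_forall_of_atTop
  refine ⟨R, fun s hs => (b_le_exp hδ s).trans ?_⟩
  have h1 : Real.exp (-(δ / 2 * |s|)) ≤ ε / 8 := hR _ hs
  have h2 := b_ge (half_pos hδ) s
  rw [show -(δ * |s|) = -(δ / 2 * |s|) + -(δ / 2 * |s|) by ring, Real.exp_add]
  have h3 := Real.exp_pos (-(δ / 2 * |s|))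
  nlinarith [mul_le_mul_of_nonneg_left h1 (mul_pos hδ h3).le]

variable {α : Type} {l : Filter α} {s : α → ℝ}

theorem tend_mv {β : α → ℝ → ℝ} {A : ℕ → ℝ} {v t : ℝ} (h : ∀ᶠ n in l, BD (β n) A)
    (hv : Tendsto (fun n => β n (t + s n)) l (𝓝 v)) :
    Tendsto (fun q : α × ℝ => β q.1 (q.2 + s q.1)) (l ×ˢ 𝓝 t) (𝓝 v) :=
  M.tend_bd (β := fun q : α × ℝ => β q.1) (s := fun q => s q.1) (h.prod_inl _) (hv.comp tendsto_fst)
    tendsto_snd

theorem tend_cv (hδ : 0 < δ) {c : α → ℝ → ℝ} {c' : ℝ → ℝ} (hc : ∀ n, Continuous (c n))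
    (hc' : Continuous c') (hb : ∀ᶠ n in l, ∀ t, |c n t| ≤ C) {C' : ℝ} (hb' : ∀ t, |c' t| ≤ C')
    (pt : ∀ u, Tendsto (fun q : α × ℝ => c q.1 (q.2 + s q.1)) (l ×ˢ 𝓝 u) (𝓝 (c' u))) (t : ℝ) :
    Tendsto (fun n => cv δ (c n) (t + s n)) l (𝓝 (cv δ c' t)) := by
  refine Metric.tendsto_nhds.2 fun ε hε => ?_
  have p : 0 < ε / (2 + |C| + |C'|) := by positivity
  obtain ⟨R, hR⟩ := b_tail hδ p
  filter_upwards [hb, ev_compact (isCompact_closedBall t R) (p := fun n u =>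
    dist (c n (u + s n)) (c' u) < ε / (2 + |C| + |C'|)) fun u _ => ((pt u).dist
      ((hc'.tendsto u).comp tendsto_snd)).eventually (by rw [dist_self]; exact gt_mem_nhds p)] with n h1 h2
  have i : ∀ {c : ℝ → ℝ} {C : ℝ}, Continuous c → (∀ t, |c t| ≤ C) →
      Integrable fun u => c u * b δ (t - u) := fun hc hC =>
    (integrable_b_sub hδ t).bdd_mul hc.aestronglyMeasurable (.of_forall hC)
  have j := (integrable_b_sub (half_pos hδ) t).const_mul ((|C| + |C'|) * (ε / (2 + |C| + |C'|)))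
  have j' := (integrable_b_sub hδ t).const_mul (ε / (2 + |C| + |C'|))
  rw [cv_shift (c := fun u => c n (u + s n)) fun _ => rfl, dist_eq_norm, cv, cv, ← integral_sub
    (i (c := fun u => c n (u + s n)) ((hc n).comp (continuous_add_const _)) fun _ => h1 _) (i hc' hb')]
  refine (norm_integral_le_of_norm_le (j'.add j) (.of_forall fun u => ?_)).trans_lt ?_
  · have b1 := b_pos hδ (t - u)
    have b2 := b_pos (half_pos hδ) (t - u)
    rw [← sub_mul, norm_mul, Real.norm_of_nonneg b1.le, Pi.add_apply]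
    by_cases hu : u ∈ Metric.closedBall t R
    · exact le_add_of_le_of_nonneg (mul_le_mul_of_nonneg_right (h2 u hu).le b1.le) (by positivity)
    · rw [Metric.mem_closedBall, dist_comm, not_le] at hu
      refine le_add_of_nonneg_of_le (by positivity) ?_
      rw [mul_assoc]
      exact mul_le_mul ((norm_sub_le _ _).trans (add_le_add ((h1 _).trans (le_abs_self _))
        ((hb' _).trans (le_abs_self _)))) (hR _ hu.le) b1.le (by positivity)
  · rw [integral_add' j' j, integral_const_mul, integral_const_mul, integral_b_sub hδ,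
      integral_b_sub (half_pos hδ), mul_one, mul_one, ← one_add_mul, ← mul_div_assoc,
      div_lt_iff₀ (by positivity)]
    nlinarith

/-- the truncated window -/
def bR (δ R s : ℝ) : ℝ := b δ s * ct (some (-R)) (some R) 0 s

theorem bd_bR (hδ : 0 < δ) : ∃ A, ∀ R, BD (bR δ R) A :=
  ⟨_, fun _ => (bd_b hδ).mul (bd_ct.choose_spec _ _ _)⟩

theorem bR_zero {R s : ℝ} (h : R < |s|) : bR δ R s = 0 := by
  rw [bR, ct_zero, mul_zero]
  exact fun k => h.not_ge (abs_le.2 ⟨by simpa using k.1 _ rfl, by simpa using k.2 _ rfl⟩)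

end time

variable {E : Type} [NormedAddCommGroup E] [NormedSpace ℝ E] [FiniteDimensional ℝ E]
  [MeasurableSpace E] [BorelSpace E]
  {HM : Type} [TopologicalSpace HM] {I : ModelWithCorners ℝ E HM} [I.Boundaryless]
  {E₀ : Type} [NormedAddCommGroup E₀] [NormedSpace ℝ E₀] [FiniteDimensional ℝ E₀]
  [MeasurableSpace E₀] [BorelSpace E₀]
  {H₀ : Type} [TopologicalSpace H₀] {I₀ : ModelWithCorners ℝ E₀ H₀} [I₀.Boundaryless]
  {E' : Type} [NormedAddCommGroup E'] [NormedSpace ℝ E'] [FiniteDimensional ℝ E']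
  [MeasurableSpace E'] [BorelSpace E']
  {H' : Type} [TopologicalSpace H'] {I' : ModelWithCorners ℝ E' H'} [I'.Boundaryless]
  {M : Type} [TopologicalSpace M] [ChartedSpace H₀ M] [IsManifold I₀ ∞ M] [MeasurableSpace M]
  [BorelSpace M] [T2Space M] [SecondCountableTopology M] {lam α J : Type} [Fintype lam]
  {X : α → Type} [∀ n, TopologicalSpace (X n)] [∀ n, ChartedSpace HM (X n)]
  [∀ n, IsManifold I ∞ (X n)] [∀ n, MeasurableSpace (X n)] [∀ n, BorelSpace (X n)]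
  [∀ n, T2Space (X n)] [∀ n, SecondCountableTopology (X n)]
  {Z : α → Type} [∀ n, TopologicalSpace (Z n)] [∀ n, ChartedSpace H' (Z n)]
  [∀ n, IsManifold I' ∞ (Z n)] [∀ n, MeasurableSpace (Z n)] [∀ n, BorelSpace (Z n)]
  [∀ n, T2Space (Z n)] [∀ n, SecondCountableTopology (Z n)] {r : ℕ}


variable {E3 : Type} [NormedAddCommGroup E3] [NormedSpace ℝ E3] [FiniteDimensional ℝ E3]
  [MeasurableSpace E3] [BorelSpace E3]
  {H3 : Type} [TopologicalSpace H3] {I3 : ModelWithCorners ℝ E3 H3} [I3.Boundaryless]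
  {Y : Type} [TopologicalSpace Y] [ChartedSpace H3 Y] [IsManifold I3 ∞ Y] [T2Space Y]
  [MeasurableSpace Y] [BorelSpace Y] [SecondCountableTopology Y] [CompactSpace Y]
  {κ : Type} [Fintype κ] {D : YD I3 Y κ lam}

/-! ### windows on one neck -/

section one
variable {B : Base M (Option κ) lam} {G : Geo I₀ M (Option κ) lam} (K : Nk D B G) {δ C : ℝ}
  {h : M → ℝ}

theorem time_cut (β : ℝ → ℝ) {d : ℝ} (hd : 1 ≤ d) (x : M) :
    β (K.τ x) * K.cut d (K.tm x) = β (K.tm x) * K.cut d (K.tm x) := by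
  by_cases hx : x ∈ K.dp d
  · rw [K.τ_eq (Dp_mono hd hx)]
  · rw [show K.cut d (K.tm x) = 0 from ct_zero hx, mul_zero, mul_zero]

theorem D_τ_off {x : M} (hx : x ∉ K.ψ.target) (a : Option κ) : G.F.D a K.τ x = 0 :=
  let ⟨_, k⟩ := K.τ_const fun k => hx (K.dp_sub one_half_pos k)
  (Sob92.dv_congr k).trans (dv_cst _ _ _)

theorem sm_cut {d : ℝ} (hd : 0 < d) : Sb I₀ fun x => K.cut d (K.tm x) := .of_cb (K.cb_cut hd)

theorem wn_χ_le (hδ : 0 < δ) (hC : ∀ x, |h x| ≤ C) (t : ℝ) :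
    wn G.F.μ K.τ δ (fun x => ‖K.χ x * h x‖) t ≤ |C| * D.F.μ.real univ := by
  refine (Real.le_norm_self _).trans ((norm_integral_le_of_norm_le
    (f := fun x => b δ (K.τ x - t) • ‖K.χ x * h x‖) ((win_χ K hδ t).1.const_mul |C|)
    (.of_forall fun x => ?_)).trans ?_)
  · have h1 : 0 ≤ K.χ x := ct_mem.1
    rw [norm_smul, norm_norm, norm_mul, Real.norm_of_nonneg (b_pos hδ _).le, Real.norm_of_nonneg h1,
      ← mul_assoc, mul_comm]
    exact mul_le_mul_of_nonneg_right ((hC x).trans (le_abs_self C)) (mul_nonneg (b_pos hδ _).le h1)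
  · rw [integral_const_mul]
    exact mul_le_mul_of_nonneg_left (win_χ K hδ t).2 (abs_nonneg _)

theorem tail (hδ : 0 < δ) (hh : Continuous h) (hC : ∀ x, |h x| ≤ C) {ε R : ℝ} (hε : 0 < ε)
    (hR : ∀ s, R ≤ |s| → b δ s ≤ ε * b (δ / 2) s) (t : ℝ) :
    dist (wn G.F.μ K.τ δ (fun x => K.χ x * h x) t)
      (∫ x, bR δ (R + 1) (K.tm x - t) * K.cut 1 (K.tm x) * h x ∂G.F.μ) ≤
        ε * |C| * D.F.μ.real univ := by
  have i := (win_χ K hδ t).1.mul_bdd hh.aestronglyMeasurable (.of_forall hC)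
  have j := i.mul_bdd (c := 1) (g := fun x => ct (some (-(R + 1))) (some (R + 1)) 0 (K.τ x - t))
    (contDiff_ct.continuous.comp (K.sm_τ.continuous.sub continuous_const)).aestronglyMeasurable
    (.of_forall fun x => (Real.norm_of_nonneg ct_mem.1).trans_le ct_mem.2)
  simp only [← time_cut K (fun s => bR δ (R + 1) (s - t)) le_rfl]
  have e1 : wn G.F.μ K.τ δ (fun x => K.χ x * h x) t =
      ∫ x, b δ (K.τ x - t) * K.χ x * h x ∂G.F.μ := by simp only [wn, smul_eq_mul, mul_assoc]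
  have e2 : ∫ x, bR δ (R + 1) (K.τ x - t) * K.cut 1 (K.tm x) * h x ∂G.F.μ =
      ∫ x, b δ (K.τ x - t) * K.χ x * h x * ct (some (-(R + 1))) (some (R + 1)) 0 (K.τ x - t) ∂G.F.μ :=
    integral_congr_ae (.of_forall fun x => by
      show _ * _ * K.χ x * _ = _
      ring)
  rw [dist_eq_norm, e1, e2, ← integral_sub i j]
  refine (norm_integral_le_of_norm_le ((win_χ K (half_pos hδ) t).1.const_mul (ε * |C|))
    (.of_forall fun x => ?_)).trans ?_
  · have h1 : 0 ≤ K.χ x := ct_mem.1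
    have b2 := b_pos (half_pos hδ) (K.τ x - t)
    rw [← mul_one_sub]
    rcases le_total R |K.τ x - t| with e | e
    · rw [norm_mul, norm_mul, norm_mul, Real.norm_of_nonneg (b_pos hδ _).le, Real.norm_of_nonneg h1,
        Real.norm_of_nonneg (sub_nonneg.2 ct_mem.2)]
      refine (mul_le_of_le_one_right (by have := b_pos hδ (K.τ x - t); positivity)
        (sub_le_self _ ct_mem.1)).trans ((mul_le_mul (mul_le_mul_of_nonneg_right (hR _ e) h1)
          ((hC x).trans (le_abs_self C)) (abs_nonneg _) (by positivity)).trans_eq (by ring))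
    · rw [ct_one ⟨by rintro _ ⟨⟩; linarith [(abs_le.1 e).1], by
        rintro _ ⟨⟩; linarith [(abs_le.1 e).2]⟩, sub_self, mul_zero, norm_zero]
      positivity
  · rw [integral_const_mul]
    exact mul_le_mul_of_nonneg_left (win_χ K (half_pos hδ) t).2 (by positivity)

end one

theorem qs_int {ι : Type} [Fintype ι] {g : Gs I I₀ M ι lam X} {c : ∀ n, Cfg (X n) ι lam r}
    (k : g.Bk c) {ρ f : ∀ n, X n → ℝ} {ρ' : M → ℝ} {f' : Cfg M ι lam r → M → ℝ} (hρ : g.FK c ρ ρ')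
    (hf : g.QS c f f') (c1 : ∀ n, Continuous (ρ n)) (c2 : ∀ n, Continuous (f n)) {b u}
    (l : g.LB c b u) : Tendsto (fun n => ∫ x, ρ n x * f n x ∂(g.G n).F.μ) g.l
      (𝓝 (∫ x, ρ' x * f' b x ∂g.G₀.F.μ)) := by
  obtain ⟨K, hK, hP, k1, k2⟩ := hρ.K
  have a := hρ.toFC.qs.mul hf
  obtain ⟨C, hC⟩ := a.bd
  have := k.int _ l.lim.P l.lim.fin (fun n x => ((ρ n x * f n x : ℝ) : ℂ))
    (fun x => ((ρ' x * f' b x : ℝ) : ℂ)) K C hK hP
    (fun n => Complex.continuous_ofReal.comp ((c1 n).mul (c2 n)))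
    (Complex.continuous_ofReal.comp (a.lim b u l).1.continuous)
    ((a.lim b u l).2.clm Complex.ofRealCLM) (fun x hx => by simp [k1 x hx])
    ((hC.and k2).mono fun n hn => ⟨fun x => (Complex.norm_real _).trans_le (hn.1 x),
      fun x hx => by simp [hn.2 x hx]⟩)
  simpa only [integral_complex_ofReal, Function.comp_def, Complex.ofReal_re] using
    ((Complex.continuous_re.tendsto _).comp this)

/-! ### convergent necks -/

variable {g : Gs I I₀ M (Option κ) lam X} {c : ∀ n, Cfg (X n) (Option κ) lam r} [Fintype J]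
  {p : Up I' J Z g c} {ν : NU p D}

namespace NU.OK
variable (h : ν.OK) {N : Type} [NormedAddCommGroup N] [NormedSpace ℝ N]
include h

theorem ag {w : J → M → N} (z : ∀ i, ∀ x ∉ (ν.K' i).ψ.target, w i x = 0) (j : J) :
    EqOn (fun x => ∑ i, w i x) (w j) (p.O j) := fun x hx =>
  Fintype.sum_eq_single j fun i e => z i x fun k => disjoint_left.1 (h.dj e) (h.sub i k) hx

theorem sbφ {f : ∀ n, Z n → N} (hf : ∀ n, Sb I' (f n)) (n : α) : Sb I fun x => f n (p.φ n x) :=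
  ⟨fun x => (h.up.pb n).kg.rot.sa_comp (mem_univ x) ((hf n).sm _), (hf n).bd.imp fun _ k _ => k _⟩

theorem τ (n : α) (x : X n) : (ν.K n).τ (p.φ n x) = (ν.K₁ n).τ x :=
  ((h.r n).τ x trivial).trans (add_zero _)

theorem wn_eq (f : ∀ n, Z n → ℝ) (δ : ℝ) (n : α) :
    wn (p.G n).F.μ (ν.K n).τ δ (fun x => (ν.K n).χ x * f n x) =
      wn (g.G n).F.μ (ν.K₁ n).τ δ fun x => (ν.K₁ n).χ x * f n (p.φ n x) := funext fun t => by
  rw [← (h.up.pb n).kg.wn (h.r n).τ (h' := fun x => (ν.K n).χ x * f n x)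
    (fun x hx => congrArg (· * _) ((h.r n).χ hx)) (fun _ k => (k trivial).elim) (fun y hy => by
      rw [(ν.K n).χ_zero fun k => hy (h.tg n ((ν.K n).dp_sub one_pos k)), zero_mul]), add_zero]

variable {f : ∀ n, Z n → ℝ} {t : J → Cfg M (Option κ) lam r → M → ℝ} {δ : ℝ}

theorem bd_win (hδ : 0 < δ) (hf : p.PS f t) : ∃ A, ∀ᶠ n in (g.l : Filter α),
    BD (wn (p.G n).F.μ (ν.K n).τ δ fun x => (ν.K n).χ x * f n x) A :=
  let ⟨_, a, _⟩ := hf.ex; let ⟨_, hC⟩ := a.bd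
  ⟨_, hC.mono fun n hn => h.wn_eq f δ n ▸ bd_wn hδ (ν.K₁ n).sm_τ.continuous.aestronglyMeasurable
    ((sm_cut (ν.K₁ n) one_pos).smul (h.sbφ hf.sb n)).sm.continuous.aestronglyMeasurable
    (wn_χ_le _ hδ hn)⟩

/-- **windows of bounded densities converge** -/
theorem win (hδ : 0 < δ) (hf : p.PS f t) {b u} (l : g.LB c b u) (j : J) (t₀ : ℝ) : Tendsto
    (fun n => wn (p.G n).F.μ (ν.K n).τ δ (fun x => (ν.K n).χ x * f n x) (t₀ + ν.s j n)) g.l
    (𝓝 (wn g.G₀.F.μ (ν.K' j).τ δ (fun x => (ν.K' j).χ x * t j b x) t₀)) := by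
  obtain ⟨f', a1, a2⟩ := hf.ex
  obtain ⟨C, hC⟩ := a1.bd
  obtain ⟨C', hC'⟩ := (hf.sb' b u l j).bd
  obtain ⟨A, hA⟩ := bd_bR hδ
  simp only [h.wn_eq]
  refine Metric.tendsto_nhds.2 fun ε hε => ?_
  have v : 0 ≤ D.F.μ.real univ := measureReal_nonneg
  have q : 0 < ε / (1 + (|C| + |C'|) * D.F.μ.real univ) := by positivity
  obtain ⟨R, hR⟩ := b_tail hδ q
  have z : ∀ {p q : Option ℝ} {a : ℝ}, ∀ s ∉ Dp p q (1 / 2), a * ct p q 1 s = 0 := fun s k => by
    rw [ct_zero fun e => k (Dp_mono (by norm_num) e), mul_zero]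
  have bd := fun p q s => ((hA (R + 1)).shift (-s)).mul (bd_ct.choose_spec p q 1)
  simp only [← sub_eq_add_neg] at bd
  have fk := (h.S.one j).time h.up.bk.ok c
    (β := fun n s => bR δ (R + 1) (s - (t₀ + ν.s j n)) * (ν.K₁ n).cut 1 s)
    (β' := fun s => bR δ (R + 1) (s - t₀) * (ν.K' j).cut 1 s) (fun _ => (bd ..).1)
    (.of_forall fun _ => bd ..) (fun _ s k => z s k) (bd ..).1 (fun s k => z s k) (fun s => by
      simpa only [add_sub_add_right_eq_sub] using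
        ((h.S.one j).cut 1 tendsto_const_nhds).const_mul _) (R := |t₀| + (R + 1))
    (.of_forall fun n s hs => by
      rw [bR_zero, zero_mul]
      rw [show s - (t₀ + ν.s j n) = s - ν.s j n - t₀ by ring]
      linarith [abs_sub_abs_le_abs_sub (s - ν.s j n) t₀])
  have e := qs_int h.up.bk fk a1 (fun n => (bd ..).1.continuous.comp (ν.K₁ n).cont)
    (fun n => (h.sbφ hf.sb n).sm.continuous) l
  rw [integral_congr_ae (g := fun x => bR δ (R + 1) ((ν.K' j).tm x - t₀) *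
    (ν.K' j).cut 1 ((ν.K' j).tm x) * t j b x) (.of_forall fun x => by
      by_cases k : x ∈ (ν.K' j).dp 1
      · rw [a2 b u l j (h.sub j ((ν.K' j).dp_sub one_pos k))]
      · simp only [show (ν.K' j).cut 1 ((ν.K' j).tm x) = 0 from ct_zero k, mul_zero, zero_mul])] at e
  filter_upwards [hC, Metric.tendsto_nhds.1 e _ q] with n h1 h2
  have t1 := tail (ν.K₁ n) hδ (h.sbφ hf.sb n).sm.continuous h1 q hR (t₀ + ν.s j n)
  have t2 := tail (ν.K' j) hδ (hf.sb' b u l j).sm.continuous hC' q hR t₀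
  rw [dist_comm] at t2
  refine (dist_triangle4 _ _ _ _).trans_lt ((add_lt_add_of_lt_of_le
    (add_lt_add_of_le_of_lt t1 h2) t2).trans_eq ?_)
  field_simp
  ring

/-- coefficient functions of time -/
theorem time {β : α → ℝ → ℝ} {β' : J → Cfg M (Option κ) lam r → ℝ → ℝ} {A : ℕ → ℝ} {d : ℝ}
    (hd : 1 ≤ d) (e : ∀ n x, (ν.K n).cut d ((ν.K n).tm (p.φ n x)) = (ν.K₁ n).cut d ((ν.K₁ n).tm x))
    (hs : ∀ n, ContDiff ℝ ∞ (β n) ∧ ∃ C, ∀ t, ‖β n t‖ ≤ C) (hb : ∀ᶠ n in (g.l : Filter α), BD (β n) A)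
    (hs' : ∀ b u, g.LB c b u → ∀ j, ContDiff ℝ ∞ (β' j b) ∧ ∃ C, ∀ t, ‖β' j b t‖ ≤ C)
    (cv : ∀ b u, g.LB c b u → ∀ j t, Tendsto (fun n => β n (t + ν.s j n)) g.l (𝓝 (β' j b t))) :
    (g.QS c (fun n x => β n ((ν.K n).τ (p.φ n x)) * (ν.K n).cut d ((ν.K n).tm (p.φ n x)))
      fun b x => ∑ j, β' j b ((ν.K' j).τ x) * (ν.K' j).cut d ((ν.K' j).tm x)) ∧
    p.PS (fun n x => β n ((ν.K n).τ x) * (ν.K n).cut d ((ν.K n).tm x))
      fun j b x => β' j b ((ν.K' j).τ x) * (ν.K' j).cut d ((ν.K' j).tm x) := by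
  have z : ∀ {p q : Option ℝ} {a : ℝ → ℝ}, ∀ s ∉ Dp p q (1 / 2), a s * ct p q d s = 0 := fun s k => by
    rw [ct_zero fun e => k (Dp_mono (by linarith) e), mul_zero]
  have s1 := fun n => (hs n).1.mul (contDiff_ct (p := (ν.K₁ n).p) (q := (ν.K₁ n).q) (d := d))
  have s2 := hb.mono fun n hn => hn.mul (bd_ct.choose_spec (ν.K₁ n).p (ν.K₁ n).q d)
  have u := (X212.M.UF.time (K := ν.K₁) s1 s2 fun _ => z).uc
  simp only [fun n => (ν.K₁ n).push_time (h := fun t => β n t * (ν.K₁ n).cut d t) one_half_pos z] at u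
  have q : g.QS c (fun n x => β n ((ν.K₁ n).tm x) * (ν.K₁ n).cut d ((ν.K₁ n).tm x))
      fun b x => ∑ j, β' j b ((ν.K' j).tm x) * (ν.K' j).cut d ((ν.K' j).tm x) :=
    ⟨fun _ => (u.cb c _ _).pf, u.ub, fun b w l =>
      have := h.S.time h.up.bk.ok c (β' := fun j t => β' j b t * (ν.K' j).cut d t) s1 s2 (fun _ => z)
        (fun j => (hs' b w l j).1.mul contDiff_ct) (fun _ => z)
        fun j t => (cv b w l j t).mul ((h.S.one j).cut d tendsto_const_nhds)
      ⟨this.sm, this.cv.mono le_rfl Gs.sub_S⟩⟩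
  replace q := q.congr (f₁ := fun n x => β n ((ν.K n).τ (p.φ n x)) *
    (ν.K n).cut d ((ν.K n).tm (p.φ n x))) (fun n x => by rw [e, h.τ, time_cut _ _ hd])
    fun b x => Finset.sum_congr rfl fun j _ => time_cut (ν.K' j) (β' j b) hd x
  exact ⟨q, fun n => Sb.smul ⟨(hs n).1.contMDiff.comp (ν.K n).sm_τ, (hs n).2.imp fun _ k _ => k _⟩
    (sm_cut _ (by linarith)), ⟨_, q, fun b _ _ => h.ag fun i x hx => by
      rw [show (ν.K' i).cut d ((ν.K' i).tm x) = 0 from ct_zero fun k => hx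
        ((ν.K' i).dp_sub (by linarith) k), mul_zero]⟩, fun b w l j => Sb.smul
    ⟨(hs' b w l j).1.contMDiff.comp (ν.K' j).sm_τ, (hs' b w l j).2.imp fun _ k _ => k _⟩
    (sm_cut _ (by linarith))⟩

theorem ext_off (f : Y → N) (i : J) : ∀ x ∉ (ν.K' i).ψ.target, (ν.K' i).ext f x = 0 :=
  fun _ hx => (ν.K' i).ext_zero f fun k => hx ((ν.K' i).dp_sub one_pos k)

theorem pc {f : Y → ℝ} (hf : Sm I3 f) : p.PC (fun n => (ν.K n).ext f) fun j => (ν.K' j).ext f :=
  ⟨fun n => (ν.K n).cb_ext hf, ⟨_, by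
    simpa only [fun n x => (h.r n).ext f (mem_univ x)] using h.S.fc_ext h.up.bk.ok c hf,
    h.ag (h.ext_off f)⟩, fun j => .of_cb ((ν.K' j).cb_ext hf)⟩

theorem pl {f : Y → Eu lam} (hf : Sm I3 f) : p.PL (fun n => (ν.K n).ext f) fun j => (ν.K' j).ext f :=
  ⟨fun n => .of_cb ((ν.K n).cb_ext hf), ⟨_, _, fun n => h.σ n f, h.S.fc_ext h.up.bk.ok c hf,
    h.ag (h.ext_off f)⟩, fun j => .of_cb ((ν.K' j).cb_ext hf)⟩

theorem pd {a : Option (Y → ℝ)} (ha : OF I3 a) : p.PD (fun n => (ν.K n).fn a) fun j => (ν.K' j).fn a := by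
  refine ⟨fun n => (ν.K n).cd_fn ha, ?_, fun j i => .of_cb (((ν.K' j).cd_fn ha).2 i)⟩
  cases a with
  | none =>
    obtain ⟨_, τ', -, -, -, -, -, -, h1, h2⟩ := h.S.fd_τ h.up.bk.ok c
    exact ⟨τ', by simpa only [Nk.fn, h.τ] using h2, fun j a x hx => (h1 a x).trans
      (h.ag (fun i x hx => D_τ_off (ν.K' i) hx a) j hx)⟩
  | some f =>
    exact ⟨_, by simpa only [Nk.fn, fun n x => (h.r n).ext f (mem_univ x)] using
      (h.S.fd_ext h.up.bk.ok c (ha f rfl)), fun j a x hx => Sob92.dv_congr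
        ((h.ag (h.ext_off f) j).eventuallyEq_of_mem ((h.up.cl j).2.mem_nhds hx))⟩

end NU.OK

end Crest.Agent.X212.Cqn41
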